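import Vale.Agent.N244X.Boot1

/-!
# P244: continuity of the modes in the parameter and in time, the shooting argument
-/

open Set Real Filter Topology Metric
open scoped ContDiff

namespace Vale.Agent.P244Z.W

variable {K : Consts}

theorem Consts.continuous_Lag (K : Consts) (j : ℕ) : Continuous (K.Lag j) := by
  match j with
  | 0 => exact continuous_const
  | 1 => show Continuous fun X => K.Lag 1 X; simp only [Consts.Lag]; fun_prop
  | 2 => show Continuous fun X => K.Lag 2 X; simp only [Consts.Lag]; fun_prop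
  | 3 => show Continuous fun X => K.Lag 3 X; simp only [Consts.Lag]; fun_prop
  | _ + 4 => exact continuous_const

theorem Consts.OK.one_le_nu (hK : K.OK) : 1 ≤ K.nu := by
  have h1 : (47 : ℝ) ≤ K.q := by exact_mod_cast hK.q_ge
  have h2 : 5 / (K.q : ℝ) ≤ 1 := by rw [div_le_one (by linarith)]; linarith
  have := hK.th_le
  unfold Consts.nu; linarith

theorem Consts.OK.continuous_wgt (hK : K.OK) : Continuous K.wgt := by
  have h := hK.one_le_nu
  exact (continuous_id.rpow_const fun _ => Or.inr (by linarith)).mul (by fun_prop)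

theorem Sol.d1_X {S : Data} {J : Set ℝ} (hS : Sol S J) (θ : ℝ) {t : ℝ} (ht : t ∈ J) :
    d1 S.X (θ, t) = 2 * S.φ (θ, t) * d1 S.φ (θ, t) / S.sg t := by
  have h := ((hasDerivAt_d1 hS.sm_φ θ ht).pow 2).div_const (S.sg t)
  have h2 : d1 S.X (θ, t) = _ := h.deriv
  rw [h2]; simp

/-- A family of maximal solutions which depends continuously on the parameter. -/
structure Fam (q : ℕ) (S : (Fin 3 → ℝ) → Data) (J : (Fin 3 → ℝ) → Set ℝ) : Prop where
  sol : ∀ a, Sol (S a) (J a)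
  q_eq : ∀ a, (S a).q = q
  lsc : ∀ a, ∀ t ∈ J a, ∀ᶠ a' in 𝓝 a, t ∈ J a'
  cont : ContinuousOn (fun z : (Fin 3 → ℝ) × ℝ × ℝ =>
    ((S z.1).φ z.2, (S z.1).u z.2, d1 (S z.1).φ z.2, (S z.1).sg z.2.2)) {z | z.2.2 ∈ J z.1}

variable {S : (Fin 3 → ℝ) → Data} {J : (Fin 3 → ℝ) → Set ℝ}

/-- the set of parameters and times before the singular time -/
def famU (S : (Fin 3 → ℝ) → Data) (J : (Fin 3 → ℝ) → Set ℝ) : Set ((Fin 3 → ℝ) × ℝ) :=
  {z | z.2 ∈ J z.1 ∧ 0 < (S z.1).sg z.2}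

theorem Fam.cont_md (hK : K.OK) (h : Fam K.q S J) (j : ℕ) :
    ContinuousOn (fun z : (Fin 3 → ℝ) × ℝ => (S z.1).md K j z.2) (famU S J) := by
  rw [continuousOn_iff_continuous_domRestrict]
  have h0 : Continuous fun y : famU S J × ℝ => ((S y.1.1.1).φ (y.2, y.1.1.2),
      (S y.1.1.1).u (y.2, y.1.1.2), d1 (S y.1.1.1).φ (y.2, y.1.1.2), (S y.1.1.1).sg y.1.1.2) :=
    h.cont.comp_continuous (f := fun y : famU S J × ℝ => (y.1.1.1, y.2, y.1.1.2)) (by fun_prop)
      fun y => y.1.2.1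
  have hφ := h0.fst
  have hu := h0.snd.fst
  have hd := h0.snd.snd.fst
  have hs := h0.snd.snd.snd
  dsimp only at hφ hu hd hs
  have hs0 : ∀ y : famU S J × ℝ, (S y.1.1.1).sg y.1.1.2 ≠ 0 := fun y => y.1.2.2.ne'
  have hX : Continuous fun y : famU S J × ℝ => (S y.1.1.1).X (y.2, y.1.1.2) :=
    (hφ.pow 2).div hs hs0
  have hcut : Continuous cut := Real.smoothTransition.continuous.comp (by fun_prop)
  have hD : Continuous fun y : famU S J × ℝ => (S y.1.1.1).D (y.2, y.1.1.2) := by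
    simp only [Data.D, Data.ρ, h.q_eq]
    fun_prop
  have hv : Continuous fun y : famU S J × ℝ => (S y.1.1.1).v K (y.2, y.1.1.2) := by
    simp only [Data.v]
    exact (continuous_const.sub (hcut.comp ((continuous_const.mul hφ).div_const _))).mul
      (((hφ.rpow_const fun _ => Or.inr hK.th_pos.le).mul hD).div (hs.pow 3)
        fun y => pow_ne_zero 3 (hs0 y))
  have hdX : Continuous fun y : famU S J × ℝ => d1 (S y.1.1.1).X (y.2, y.1.1.2) := by
    refine ((((continuous_const (y := (2 : ℝ))).mul hφ).mul hd).div hs hs0).congr fun y => ?_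
    exact ((h.sol _).d1_X y.2 y.1.2.1).symm
  have hI := intervalIntegral.continuous_parametric_intervalIntegral_of_continuous'
    (μ := MeasureTheory.volume)
    (f := fun (x : famU S J) (θ : ℝ) => (S x.1.1).v K (θ, x.1.2) * K.Lag j ((S x.1.1).X (θ, x.1.2))
      * K.wgt ((S x.1.1).X (θ, x.1.2)) * d1 (S x.1.1).X (θ, x.1.2))
    (((hv.mul ((K.continuous_Lag j).comp hX)).mul (hK.continuous_wgt.comp hX)).mul hdX) 0 (π / 2)
  exact hI.div_const _

theorem Fam.cont_Eu (hK : K.OK) (h : Fam K.q S J) :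
    ContinuousOn (fun z : (Fin 3 → ℝ) × ℝ => (S z.1).Eu K z.2) (famU S J) :=
  continuousOn_finsetSum _ fun j _ => (h.cont_md hK j).pow 2

theorem Fam.down {q : ℕ} (h : Fam q S J) {a : Fin 3 → ℝ} {t s : ℝ} (ht : (a, t) ∈ famU S J)
    (hs : s ∈ Icc 0 t) : (a, s) ∈ famU S J :=
  ⟨(h.sol a).time.down t ht.1 hs, (h.sol a).σ_pos (p := (0, s)) ht.1 ht.2 ⟨⟨le_rfl, pi_pos.le⟩, hs⟩⟩

theorem Fam.mem_nhds {q : ℕ} (h : Fam q S J) {a : Fin 3 → ℝ} {t : ℝ} (ht : (a, t) ∈ famU S J) :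
    famU S J ∈ 𝓝[univ ×ˢ Ici 0] (a, t) := by
  obtain ⟨t', ht', hlt⟩ := (h.sol a).time.up t ht.1
  have h1 : ∀ᶠ z in 𝓝[univ ×ˢ Ici 0] (a, t), z.2 ∈ J z.1 := by
    have h2 : ∀ᶠ z : (Fin 3 → ℝ) × ℝ in 𝓝 (a, t), t' ∈ J z.1 :=
      (continuous_fst.tendsto (a, t)).eventually (h.lsc a t' ht')
    have h3 : ∀ᶠ z : (Fin 3 → ℝ) × ℝ in 𝓝 (a, t), z.2 < t' :=
      (continuous_snd.tendsto (a, t)).eventually (gt_mem_nhds hlt)
    filter_upwards [mem_nhdsWithin_of_mem_nhds h2, mem_nhdsWithin_of_mem_nhds h3,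
      self_mem_nhdsWithin] with z h2 h3 h4
    exact (h.sol z.1).time.down t' h2 ⟨h4.2, h3.le⟩
  have h4 : ContinuousOn (fun z : (Fin 3 → ℝ) × ℝ => (S z.1).sg z.2) {z | z.2 ∈ J z.1} :=
    (h.cont.comp (f := fun z : (Fin 3 → ℝ) × ℝ => (z.1, (0 : ℝ), z.2)) (by fun_prop)
      fun z hz => hz).snd.snd.snd
  have h5 : ∀ᶠ z in 𝓝[{z | z.2 ∈ J z.1}] (a, t), 0 < (S z.1).sg z.2 :=
    (h4 (a, t) ht.1).eventually (lt_mem_nhds ht.2)
  rw [eventually_nhdsWithin_iff] at h5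
  filter_upwards [h1, mem_nhdsWithin_of_mem_nhds h5] with z h1 h5 using ⟨h1, h5 h1⟩

theorem Fam.eventually_mem {q : ℕ} (h : Fam q S J) {a : Fin 3 → ℝ} {t : ℝ}
    (ht : (a, t) ∈ famU S J) : ∀ᶠ s in 𝓝[≥] t, (a, s) ∈ famU S J := by
  have h0 := (h.sol a).time.nonneg t ht.1
  have h1 : Tendsto (fun s : ℝ => (a, s)) (𝓝[≥] t) (𝓝[univ ×ˢ Ici 0] (a, t)) := by
    refine ContinuousWithinAt.tendsto_nhdsWithin (f := fun s : ℝ => (a, s)) (by fun_prop) ?_
    exact fun s hs => ⟨mem_univ _, h0.trans hs⟩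
  exact h1.eventually (h.mem_nhds ht)

/-- The shooting argument. -/
theorem Fam.shoot (hK : K.OK) (h : Fam K.q S J) (hσ : ∀ a, 0 < (S a).sg 0)
    (hI : ∀ a : Fin 3 → ℝ, (∀ j, |a j| ≤ 1) → Init K (S a) a)
    (hG : ∀ a : Fin 3 → ℝ, (∀ j, |a j| ≤ 1) → ∀ T, (a, T) ∈ famU S J →
      (∀ t ∈ Icc 0 T, (S a).Eu K t ≤ (3 * K.ε * K.am) ^ 2) → Good K (S a) T) :
    ∃ a : Fin 3 → ℝ, (∀ j, |a j| ≤ 1) ∧ ∀ T, (a, T) ∈ famU S J → Good K (S a) T := by
  have hball : ∀ a ∈ closedBall (0 : Fin 3 → ℝ) 1, ∀ j, |a j| ≤ 1 := fun a ha j =>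
    (norm_le_pi_norm a j).trans (mem_closedBall_zero_iff.1 ha)
  have he : 0 < K.ε * K.am := mul_pos hK.ε_pos hK.am_pos
  set e := K.ε * K.am with he_def
  let P : (Fin 3 → ℝ) × ℝ → Fin 3 → ℝ := fun z j => (S z.1).md K j z.2 / (2 * e)
  let g : (Fin 3 → ℝ) → ℝ := fun y => 4 * ∑ j, y j ^ 2
  have hgP : ∀ z, g (P z) = (S z.1).Eu K z.2 / e ^ 2 := by
    intro z
    simp only [g, P, Data.Eu, Fin.sum_univ_three, Finset.sum_range_succ, Finset.sum_range_zero,
      Fin.val_zero, Fin.val_one, Fin.val_two]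
    field_simp
    ring
  have hbox : (3 * K.ε * K.am) ^ 2 = 9 * e ^ 2 := by rw [he_def]; ring
  have hE : ∀ a, ContinuousOn ((S a).Eu K) {t | (a, t) ∈ famU S J} := fun a =>
    (h.cont_Eu hK).comp (f := fun t : ℝ => (a, t)) (by fun_prop) fun t ht => ht
  refine (P244Z.shoot one_pos (famU S J) P g (by fun_prop) (by simp [g])
    (fun a _ => ⟨(h.sol a).time.zero_mem, hσ a⟩) (fun a _ t ht s hs => h.down ht hs)
    (fun a _ t _ ht => nhdsWithin_mono _ (prod_mono (subset_univ _) subset_rfl) (h.mem_nhds ht))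
    (continuousOn_pi.2 fun j => ((h.cont_md hK j).div_const _).mono inter_subset_left)
    ?_ ?_).elim fun a ⟨ha, hlt⟩ => ?_
  rotate_right
  · refine ⟨a, hball a ha, fun T hT => hG a (hball a ha) T hT fun t ht => ?_⟩
    have := hlt t ht.1 (h.down hT ht)
    rw [hgP, div_lt_one (by positivity)] at this
    rw [hbox]; nlinarith [sq_nonneg e]
  · intro a ha
    have hcl : ‖P (a, 0) - a‖ ≤ 1 / 20 := by
      refine (pi_norm_le_iff_of_nonneg (by norm_num)).2 fun j => ?_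
      have h1 := (hI a (hball a (mem_closedBall_zero_iff.2 ha.le))).md j
      have h2 : (P (a, 0) - a) j = ((S a).md K j 0 - 2 * K.ε * K.am * a j) / (2 * e) := by
        rw [mul_assoc 2 K.ε K.am, ← he_def]
        simp only [P, Pi.sub_apply]; field_simp
      rw [Real.norm_eq_abs, h2, abs_div, abs_of_pos (by positivity : 0 < 2 * e),
        div_le_iff₀ (by positivity)]
      linarith
    refine ⟨?_, seg_ne_zero_of_close (by rw [ha]; linarith)⟩
    by_contra hlt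
    have h1 : ‖P (a, 0)‖ ≤ 1 / 2 := by
      refine (pi_norm_le_iff_of_nonneg (by norm_num)).2 fun j => ?_
      have h2 : P (a, 0) j ^ 2 ≤ ∑ j, P (a, 0) j ^ 2 :=
        Finset.single_le_sum (f := fun j => P (a, 0) j ^ 2) (fun i _ => sq_nonneg _)
          (Finset.mem_univ j)
      rw [Real.norm_eq_abs]
      refine abs_le_of_sq_le_sq' ?_ (by norm_num) |> abs_le.2
      simp only [g, not_le] at hlt
      linarith
    have h3 := norm_sub_le (P (a, 0)) (P (a, 0) - a)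
    rw [sub_sub_cancel, ha] at h3
    linarith
  · intro a ha t ht0 ht hlt heq η hη
    rw [hgP, div_eq_one_iff_eq (by positivity)] at heq
    have h1 : ∀ᶠ s in 𝓝[≥] t, (S a).Eu K s ∈ Ioo (e ^ 2 / 4) (9 * e ^ 2) := by
      have h2 : ContinuousWithinAt ((S a).Eu K) (Ici t) t :=
        (hE a t ht).mono_of_mem_nhdsWithin (h.eventually_mem ht)
      refine h2.eventually (Ioo_mem_nhds ?_ ?_) <;> dsimp only at heq ⊢ <;> rw [heq] <;> nlinarith
    obtain ⟨t', htt', h2⟩ := mem_nhdsGE_iff_exists_Icc_subset.1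
      (((h.eventually_mem ht).and h1).and (Ico_mem_nhdsGE (by linarith : t < t + η)))
    have h3 := h2 ⟨htt'.le, le_rfl⟩
    have hg : Good K (S a) t' := by
      refine hG a (hball a ha) t' h3.1.1 fun s hs => ?_
      rw [hbox]
      rcases lt_or_ge s t with h4 | h4
      · have := hlt s ⟨hs.1, h4⟩
        rw [hgP, div_lt_one (by positivity)] at this
        nlinarith [sq_nonneg e]
      · exact (h2 ⟨h4, hs.2⟩).1.2.2.le
    have hmono : StrictMonoOn ((S a).Eu K) (Icc t t') := by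
      refine strictMonoOn_of_deriv_pos (convex_Icc t t') ((hE a).mono fun s hs => (h2 hs).1.1) ?_
      intro s hs
      rw [interior_Icc] at hs
      obtain ⟨e', he', hd⟩ := hg.2.2 s ⟨ht0.trans_lt hs.1, hs.2.le⟩ (by
        have := (h2 (Ioo_subset_Icc_self hs)).1.2.1
        rw [← he_def]; linarith)
      rwa [hd.deriv]
    refine ⟨t', ⟨htt', h3.2.2⟩, h3.1.1, ?_⟩
    rw [hgP, one_lt_div (by positivity), ← heq]
    exact hmono ⟨le_rfl, htt'.le⟩ ⟨htt'.le, le_rfl⟩ htt'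

end Vale.Agent.P244Z.W
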