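import Vale.Agent.N244X.QDefs2

/-!
# P244, large `q` design: the shape of the initial data
-/

open Set Real Filter Topology
open scoped ContDiff

namespace Vale.Agent.P244Z.W

/-- The initial data: `φ0` and `l0` are fixed, `u = u0 + ∑ d j * w j` is affine in the shooting
parameter `d`. -/
structure Shape (l0 : ℝ) (φ0 u0 : ℝ → ℝ) (w : Fin 3 → ℝ → ℝ) : Prop where
  l_pos : 0 < l0
  sm_φ : ContDiff ℝ ∞ φ0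
  sm_u : ContDiff ℝ ∞ u0
  sm_w : ∀ j, ContDiff ℝ ∞ (w j)
  φ_odd : ∀ θ, φ0 (-θ) = -φ0 θ
  φ_sym : ∀ θ, φ0 (π - θ) = φ0 θ
  φ_pos : ∀ θ ∈ Ioo 0 π, 0 < φ0 θ
  φ_deriv : deriv φ0 0 = l0
  u_even : ∀ θ, u0 (-θ) = u0 θ
  u_sym : ∀ θ, u0 (π - θ) = u0 θ
  w_even : ∀ j θ, w j (-θ) = w j θ
  w_sym : ∀ j θ, w j (π - θ) = w j θ

/-- `S` starts from the member `d` of the family. -/
structure Starts (S : Data) (s0 l0 : ℝ) (φ0 u0 : ℝ → ℝ) (w : Fin 3 → ℝ → ℝ) (d : Fin 3 → ℝ) :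
    Prop where
  sg : S.sg 0 = s0
  l : S.l 0 = l0
  φ : ∀ θ, S.φ (θ, 0) = φ0 θ
  u : ∀ θ, S.u (θ, 0) = u0 θ + ∑ j, d j * w j θ

/-- The arclength profile `φ0` with `φ_s ^ 2 = Z φ * (1 - 4 φ ^ 2)`; `A0 = φ_s`. -/
structure Prof (Z : ℝ → ℝ) (l0 : ℝ) (φ0 A0 : ℝ → ℝ) : Prop where
  l_pos : 0 < l0
  sm_φ : ContDiff ℝ ∞ φ0
  φ_odd : ∀ θ, φ0 (-θ) = -φ0 θ
  φ_sym : ∀ θ, φ0 (π - θ) = φ0 θ
  φ_pos : ∀ θ ∈ Ioo 0 π, 0 < φ0 θ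
  φ_le : ∀ θ, φ0 θ ≤ 1 / 2
  φ_half : φ0 (π / 2) = 1 / 2
  A_zero : A0 0 = 1
  dφ : ∀ θ, HasDerivAt φ0 (l0 * A0 θ) θ
  dA : ∀ θ, HasDerivAt A0
    (l0 * ((deriv Z (φ0 θ) * (1 - 4 * φ0 θ ^ 2) - 8 * φ0 θ * Z (φ0 θ)) / 2)) θ
  A_sq : ∀ θ, A0 θ ^ 2 = Z (φ0 θ) * (1 - 4 * φ0 θ ^ 2)

namespace Consts

variable (K : Consts)

/-- the target for `φ ^ th * D / (am * σ ^ 3)` is `1 + Pol d X` -/
noncomputable def Pol (d : Fin 3 → ℝ) (X : ℝ) : ℝ :=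
  K.Lag 3 X - 1 + ∑ j : Fin 3, d j * (2 * K.ε * K.Lag j X / √(K.hL j))

end Consts

end Vale.Agent.P244Z.W
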