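import Vale.Agent.N244X.Boot3
import Vale.Agent.N244X.QDat0
import Vale.Agent.P244Z.GeoDefs

/-!
# P244: the assembly, from the four blocks
-/

open Set Real Filter Topology
open scoped ContDiff

namespace Vale.Agent.P244Z.W

/-- block EXIST -/
def ExistSt : Prop := ∀ (q : ℕ), 2 ≤ q → ∀ (s0 l0 : ℝ) (φ0 u0 : ℝ → ℝ) (w : Fin 3 → ℝ → ℝ),
  Shape l0 φ0 u0 w → ∃ (S : (Fin 3 → ℝ) → Data) (J : (Fin 3 → ℝ) → Set ℝ),
    (∀ a, Sol (S a) (J a) ∧ (S a).q = q ∧ Starts (S a) s0 l0 φ0 u0 w a) ∧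
    (∀ a, ∀ t ∈ J a, ∀ᶠ a' in 𝓝 a, t ∈ J a') ∧
    ContinuousOn (fun z : (Fin 3 → ℝ) × ℝ × ℝ =>
      ((S z.1).φ z.2, (S z.1).u z.2, d1 (S z.1).φ z.2, (S z.1).sg z.2.2)) {z | z.2.2 ∈ J z.1} ∧
    ∀ a, BddAbove (J a) → ¬ ∃ B : ℝ, ∀ θ ∈ Ioo 0 π, ∀ t ∈ J a,
      |(S a).kk (θ, t)| ≤ B ∧ |(S a).vv (θ, t)| ≤ B ∧ |(S a).hh (θ, t)| ≤ B ∧
      |(S a).Ds (S a).β (θ, t)| ≤ B ∧ |(S a).A (θ, t)| ≤ B ∧ |(S a).φ (θ, t)| ≤ B ∧
      |(S a).u (θ, t)| ≤ B ∧ |log ((S a).l t)| ≤ B ∧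
      (S a).l t * sin θ ≤ B * (S a).φ (θ, t)

/-- block DATA -/
def DataSt : Prop := ∀ (q : ℕ) (th : ℝ), ∃ ε1 > 0, ∀ K : Consts, K.OK → K.q = q → K.th = th →
  K.ε ≤ ε1 → 8 ≤ K.M → 20 * (q : ℝ) ^ 2 ≤ K.N → ∀ᶠ s0 in 𝓝[>] (0 : ℝ),
    ∃ (l0 : ℝ) (φ0 u0 : ℝ → ℝ) (w : Fin 3 → ℝ → ℝ), Shape l0 φ0 u0 w ∧
      ∀ d : Fin 3 → ℝ, (∀ j, |d j| ≤ 1) → ∀ (S : Data) (J : Set ℝ), Sol S J → S.q = K.q →
        Starts S s0 l0 φ0 u0 w d → Init K S d ∧ ∀ θ ∈ Ioo 0 π, -(1 / 20) ≤ S.E (θ, 0)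

/-- blocks BARR and MODES -/
def ImproveSt : Prop := ∀ (q : ℕ) (th : ℝ), ∃ ε0 > 0, ∀ K : Consts, K.q = q → K.th = th →
  K.ε ≤ ε0 → Ev K (fun S _ t1 => Good K S t1)

/-- blocks FLOW and GEO -/
def FlowSt : Prop := ∀ (S : Data) (J : Set ℝ), Sol S J → 2 ≤ S.q → (∀ t ∈ J, 0 ≤ S.sg t) →
  ∀ C : ℝ, (∀ θ ∈ Ioo 0 π, ∀ t ∈ J, |S.R (θ, t)| ≤ C) →
  (∀ ε > 0, ∀ t0 ∈ J, ∃ t ∈ J, t0 ≤ t ∧ exp (S.u (0, t)) < ε) → Geo.Counterexample (S.q + 3)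

theorem exists_th {q : ℝ} (hq : 47 ≤ q) :
    ∃ th : ℝ, 0 < th ∧ th ≤ 5 / q ∧ th ^ 2 - (q - 3) * th + 4 = 0 := by
  have h0 : 0 < 5 / q := by positivity
  have h1 : 5 / q ≤ 1 / 9 := by rw [div_le_div_iff₀ (by linarith) (by norm_num)]; linarith
  have h2 : q * (5 / q) = 5 := by field_simp
  obtain ⟨th, hth, h⟩ := intermediate_value_Icc' h0.le
    (f := fun x : ℝ => x ^ 2 - (q - 3) * x + 4) (by fun_prop)
    (show (0 : ℝ) ∈ Icc _ _ from ⟨by nlinarith, by norm_num⟩)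
  refine ⟨th, lt_of_le_of_ne hth.1 ?_, hth.2, h⟩
  rintro rfl
  norm_num at h

theorem Init.bds {K : Consts} {S : Data} {J : Set ℝ} {d : Fin 3 → ℝ} (hK : K.OK) (hq : S.q = K.q)
    (hS : Sol S J) (h : Init K S d) (hE : ∀ θ ∈ Ioo 0 π, -(1 / 20) ≤ S.E (θ, 0))
    (h0 : 0 < S.sg 0) (h1 : S.sg 0 ≤ 1) : ∀ θ ∈ Ioo 0 π, Bds K S 1 (θ, 0) := by
  intro θ hθ
  have hq2 : 2 ≤ S.q := by rw [hq]; exact le_trans (by norm_num) hK.q_ge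
  have hW := bdW_pos (p := (θ, 0)) hK hq2 h0 0
  simp only [bdW, Matrix.cons_val] at hW
  have hN := hK.N_ge
  have ham := hK.am_small
  have ham0 := hK.am_pos
  refine ⟨by linarith [h.U1 θ hθ], by linarith [h.U2 θ hθ], by linarith [h.R θ hθ],
    by linarith [h.E θ hθ], hE θ hθ, ?_, by linarith [h.P2 θ hθ], h.A θ hθ⟩
  show K.am * S.sg 0 ^ 3 ≤ 2 * 1 * S.ρ (θ, 0) ^ 2
  rcases le_or_gt (S.X (θ, 0)) 1 with hX | hX
  · have h2 := h.Dlow θ hθ hX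
    have h3 : S.sg 0 ^ (3 : ℝ) ≤ S.sg 0 ^ (1 + K.lam) :=
      rpow_le_rpow_of_exponent_ge h0 h1 (by linarith [hK.lam_le])
    rw [show (3 : ℝ) = ((3 : ℕ) : ℝ) by norm_num, rpow_natCast] at h3
    unfold Data.D at h2
    nlinarith [sq_nonneg (S.φ (θ, 0))]
  · have h2 : S.sg 0 < S.φ (θ, 0) ^ 2 := (one_lt_div h0).1 hX
    have h3 := (hS.alg (p := (θ, 0)) hq2 hθ hS.time.zero_mem).φ_sq
    have h4 : S.sg 0 ^ 3 ≤ S.sg 0 := pow_le_of_le_one h0.le h1 (by norm_num)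
    have h5 : S.ρ (θ, 0) ^ 2 * (1 - S.E (θ, 0)) ≤ S.ρ (θ, 0) ^ 2 * 2 :=
      mul_le_mul_of_nonneg_left (by linarith [hE θ hθ]) (sq_nonneg _)
    have h6 : K.am * S.sg 0 ^ 3 ≤ 1 * S.sg 0 ^ 3 :=
      mul_le_mul_of_nonneg_right (by norm_num at ham; linarith) (by positivity)
    linarith

theorem main_of (hEx : ExistSt) (hD : DataSt) (hI : ImproveSt) (hF : FlowSt) {q : ℕ}
    (hq : 47 ≤ q) : Geo.Counterexample (q + 3) := by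
  have hqR : (47 : ℝ) ≤ q := by exact_mod_cast hq
  obtain ⟨th, hth0, hth1, hth2⟩ := exists_th hqR
  obtain ⟨ε1, hε1, hD⟩ := hD q th
  obtain ⟨ε0, hε0, hI⟩ := hI q th
  let K : Consts := ⟨q, th, 1 / (10 ^ 12 * (q : ℝ) ^ 3), min 1 (min ε0 ε1), 8, 20 * (q : ℝ) ^ 2,
    1 / (20 * √(2 * (20 * (q : ℝ) ^ 2) + 4 * 8))⟩
  have hK : K.OK := by
    refine ⟨hq, hth0, hth1, hth2, by simp only [K]; positivity, le_rfl,
      lt_min one_pos (lt_min hε0 hε1), min_le_left _ _, by simp only [K]; norm_num,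
      by simp only [K]; nlinarith, by simp only [K]; positivity, le_of_eq ?_⟩
    simp only [K, Consts.N1]
    rw [div_pow, mul_pow, sq_sqrt (by positivity)]
    field_simp
    ring
  obtain ⟨s0, ⟨⟨l0, φ0, u0, w, hsh, hD⟩, hI⟩, hs0⟩ :=
    (((hD K hK rfl rfl ((min_le_right _ _).trans (min_le_right _ _)) le_rfl le_rfl).and
      (hI K rfl rfl ((min_le_right _ _).trans (min_le_left _ _)))).and
      (Ioc_mem_nhdsGT (zero_lt_one' ℝ))).exists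
  obtain ⟨S, J, h1, h2, h3, h4⟩ := hEx q (le_trans (by norm_num) hq) s0 l0 φ0 u0 w hsh
  have hfam : Fam K.q S J := ⟨fun a => (h1 a).1, fun a => (h1 a).2.1, h2, h3⟩
  have hsg : ∀ a, (S a).sg 0 = s0 := fun a => (h1 a).2.2.sg
  have hin := fun a ha => hD a ha (S a) (J a) (h1 a).1 (h1 a).2.1 (h1 a).2.2
  obtain ⟨a, ha, hG⟩ := hfam.shoot hK (fun a => by rw [hsg]; exact hs0.1) (fun a ha => (hin a ha).1)
    fun a ha T hT hbox => good_of_box hK (h1 a).2.1 (h1 a).1 (hin a ha).1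
      ((hin a ha).1.bds hK (h1 a).2.1 (h1 a).1 (hin a ha).2 (by rw [hsg]; exact hs0.1)
        (by rw [hsg]; exact hs0.2))
      (fun t1 hc => hI (S a) (J a) t1 a (hsg a) hc) hT.1 hT.2 hbox
  have hS := (h1 a).1
  have hqa : (S a).q = K.q := (h1 a).2.1
  -- `σ` becomes arbitrarily small
  have hinf : ∀ m > 0, ∃ t, (a, t) ∈ famU S J ∧ (S a).sg t < m := by
    intro m hm
    by_contra hcon
    push Not at hcon
    have hpos : ∀ t ∈ J a, 0 < (S a).sg t := by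
      intro t ht
      by_contra hle
      have h5 : m ≤ (S a).sg 0 := hcon 0 ⟨hS.time.zero_mem, by rw [hsg]; exact hs0.1⟩
      obtain ⟨s, hs, h6⟩ := intermediate_value_Icc' (hS.time.nonneg t ht)
        (hS.sm_sg.continuousOn.mono (hS.time.down t ht))
        (show m / 2 ∈ Icc _ _ from ⟨by linarith [not_lt.1 hle], by linarith⟩)
      have := hcon s ⟨hS.time.down t ht hs, by rw [h6]; linarith⟩
      linarith
    obtain ⟨h5, h6⟩ := continuation_bound hK hqa hS hm (fun t ht => hcon t ⟨ht, hpos t ht⟩)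
      fun T hT => hG T ⟨hT, hpos T hT⟩
    exact h4 a h5 h6
  have hJ' : TimeSet {t | (a, t) ∈ famU S J} := by
    refine ⟨⟨hS.time.zero_mem, by rw [hsg]; exact hs0.1⟩, fun t ht => hS.time.nonneg t ht.1,
      fun t ht s hs => hfam.down ht hs, fun t ht => ?_⟩
    obtain ⟨s, hs1, hs2⟩ := (((hfam.eventually_mem ht).filter_mono
      (nhdsWithin_mono t Ioi_subset_Ici_self)).and self_mem_nhdsWithin).exists
    exact ⟨s, hs1, hs2⟩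
  have := hF (S a) _ (hS.restrict hJ' fun t ht => ht.1)
    (by rw [hqa]; exact le_trans (by norm_num) hq) (fun t ht => ht.2.le) (1 * K.N)
    (fun θ hθ t ht => ((hG t ht).1 (θ, t) ⟨hθ, hS.time.nonneg t ht.1, le_rfl⟩).1.R) ?_
  · rwa [hqa] at this
  · intro ε hε t0 ht0
    obtain ⟨t, ht, h5⟩ := hinf (min (min ε 1) ((S a).sg t0)) (lt_min (lt_min hε one_pos) ht0.2)
    rw [lt_min_iff, lt_min_iff] at h5
    refine ⟨t, ht, ?_, (pole_small hK hqa hS ht.1 ht.2 h5.1.2.le (hG t ht)).trans_lt h5.1.1⟩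
    by_contra hlt
    exact absurd (hS.sg_strictAnti ht.1 ht0.1 (not_le.1 hlt)) (not_lt.2 h5.2.le)

end Vale.Agent.P244Z.W
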