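import Vale.Agent.N244X.QFlow
import Vale.Agent.P244Z.GeoMain

/-!
# P244: from the normalised flow to the geometric statement
-/

open Set Real

namespace Vale.Agent.P244Z.W

theorem flow_main {S : Data} {J : Set ℝ} (hS : Sol S J) (_hq : 2 ≤ S.q) (hσ : ∀ t ∈ J, 0 ≤ S.sg t)
    {C : ℝ} (hR : ∀ θ ∈ Ioo 0 π, ∀ t ∈ J, |S.R (θ, t)| ≤ C)
    (hu : ∀ ε > 0, ∀ t0 ∈ J, ∃ t ∈ J, t0 ≤ t ∧ exp (S.u (0, t)) < ε) :
    Geo.Counterexample (S.q + 3) := by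
  obtain ⟨T, chi, phi, psi, h⟩ := hS.warped hσ hR hu
  exact Geo.geo_main (by norm_num) h

end Vale.Agent.P244Z.W
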