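import Vale.Agent.N244X.QDatPt
import Vale.Agent.N244X.QDatProf
import Vale.Agent.N244X.QDatModes

/-!
# P244, large `q` design: the initial data
-/

open Set Real Filter Topology
open scoped ContDiff

namespace Vale.Agent.P244Z.W

/-- The geometric quantities at time `0` as functions of `x = φ`. -/
theorem static {S : Data} {J : Set ℝ} (hS : Sol S J) (hq : 1 < (S.q : ℝ)) {Z : ℝ → ℝ} {l0 : ℝ}
    {φ0 A0 : ℝ → ℝ} (hP : Prof Z l0 φ0 A0) (hl : S.l 0 = l0) (hφ : ∀ θ, S.φ (θ, 0) = φ0 θ)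
    {F Y Y1 Z1 : ℝ → ℝ} (hu : ∀ θ, S.u (θ, 0) = F (φ0 θ))
    (hF : ∀ x, 0 < x → HasDerivAt F (Y x / x) x) (hY : ∀ x, 0 < x → HasDerivAt Y (Y1 x / x) x)
    (hZ : ∀ x, 0 < x → HasDerivAt Z (Z1 x / x) x) {θ : ℝ} (hθ : θ ∈ Ioo 0 π) {x : ℝ}
    (hx : φ0 θ = x) :
    S.A (θ, 0) = A0 θ ∧ S.P (θ, 0) = A0 θ * (Y x - 1) ∧
    x ^ 2 * S.a (θ, 0) = -S.q * ((Z1 x * (1 - 4 * x ^ 2) - 8 * x ^ 2 * Z x) / 2) -
      2 * ((Y1 x - Y x) * (Z x * (1 - 4 * x ^ 2)) +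
        Y x * ((Z1 x * (1 - 4 * x ^ 2) - 8 * x ^ 2 * Z x) / 2) +
        Y x ^ 2 * (Z x * (1 - 4 * x ^ 2))) ∧
    x ^ 2 * S.b (θ, 0) = -((Z1 x * (1 - 4 * x ^ 2) - 8 * x ^ 2 * Z x) / 2) -
      2 * Y x * (Z x * (1 - 4 * x ^ 2)) + (S.q - 1) * (1 - Z x * (1 - 4 * x ^ 2)) ∧
    x ^ 2 * S.c (θ, 0) = -((Y1 x - Y x) * (Z x * (1 - 4 * x ^ 2)) +
        Y x * ((Z1 x * (1 - 4 * x ^ 2) - 8 * x ^ 2 * Z x) / 2)) -
      S.q * Y x * (Z x * (1 - 4 * x ^ 2)) - 2 * Y x ^ 2 * (Z x * (1 - 4 * x ^ 2)) +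
      (S.q - 1) * (x ^ 2 / S.ρ (θ, 0) ^ 2) := by
  have hl0 := hP.l_pos.ne'
  have h0 := hS.time.zero_mem
  have hx0 : 0 < x := hx ▸ hP.φ_pos θ hθ
  have hDs : ∀ (G : ℝ × ℝ → ℝ) (g : ℝ → ℝ) (g' t : ℝ), (∀ᶠ y in 𝓝 t, G (y, 0) = g y) →
      HasDerivAt g (l0 * g') t → S.Ds G (t, 0) = g' := by
    intro G g g' t h1 h2
    have h3 : deriv (fun y => G (y, 0)) t = l0 * g' := (h2.congr_of_eventuallyEq h1).deriv
    simp only [Data.Ds, d1]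
    rw [h3, hl]
    field_simp
  have hA : ∀ t, S.A (t, 0) = A0 t := fun t => hDs _ _ _ _ (Eventually.of_forall hφ) (hP.dφ t)
  have hβ : ∀ t ∈ Ioo 0 π, S.β (t, 0) = Y (φ0 t) / φ0 t * A0 t := fun t ht =>
    hDs _ _ _ _ (Eventually.of_forall hu)
      (((hF _ (hP.φ_pos t ht)).comp t (hP.dφ t)).congr_deriv (by ring))
  have hdA : S.Ds S.A (θ, 0) = (Z1 x / x * (1 - 4 * x ^ 2) - 8 * x * Z x) / 2 := by
    have := hP.dA θ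
    rw [hx, (hZ x hx0).deriv] at this
    exact hDs _ _ _ _ (Eventually.of_forall hA) this
  have hdβ : S.Ds S.β (θ, 0) = (Y1 x - Y x) / x ^ 2 * A0 θ ^ 2 +
      Y x / x * ((Z1 x / x * (1 - 4 * x ^ 2) - 8 * x * Z x) / 2) := by
    have h1 := hP.dA θ
    rw [hx, (hZ x hx0).deriv] at h1
    have h2 := (((hY _ (hP.φ_pos θ hθ)).comp θ (hP.dφ θ)).fun_div (hP.dφ θ)
      (hP.φ_pos θ hθ).ne').fun_mul h1
    refine hDs _ _ _ _ ?_ (h2.congr_deriv ?_)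
    · filter_upwards [isOpen_Ioo.mem_nhds hθ] with y hy
      exact hβ y hy
    · simp only [Function.comp, hx]
      field_simp
  have hA2 := hP.A_sq θ
  have hkk := hS.kk_eq θ 0 h0
  have hvv := hS.vv_eq θ 0 h0
  have hhh := hS.hh_eq θ 0 h0
  have hb := hβ θ hθ
  rw [hx] at hA2 hb
  rw [hφ, hx] at hkk hvv hhh
  rw [hA, hA2] at hkk
  rw [hdA] at hhh
  have e1 : x ^ 2 * S.hh (θ, 0) = (Z1 x * (1 - 4 * x ^ 2) - 8 * x ^ 2 * Z x) / 2 := by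
    rw [sq, mul_assoc, hhh]
    field_simp
  have e2 : x ^ 2 * S.Ds S.β (θ, 0) = (Y1 x - Y x) * (Z x * (1 - 4 * x ^ 2)) +
      Y x * ((Z1 x * (1 - 4 * x ^ 2) - 8 * x ^ 2 * Z x) / 2) := by
    rw [hdβ, hA2]
    field_simp
  have e3 : x * S.β (θ, 0) = Y x * A0 θ := by
    rw [hb]
    field_simp
  have e4 : x ^ 2 * S.β (θ, 0) ^ 2 = Y x ^ 2 * (Z x * (1 - 4 * x ^ 2)) := by
    rw [← mul_pow, e3, mul_pow, hA2]
  have e5 : x ^ 2 * (A0 θ * S.vv (θ, 0)) = Y x * (Z x * (1 - 4 * x ^ 2)) := by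
    rw [← hA2]
    linear_combination x * A0 θ * hvv + A0 θ * e3
  have e6 : x ^ 2 * exp (-2 * S.u (θ, 0)) = (S.q - 1) * (x ^ 2 / S.ρ (θ, 0) ^ 2) := by
    have h1 : (S.q : ℝ) - 1 ≠ 0 := by linarith
    rw [Data.ρ, mul_pow, sq_sqrt (by linarith), neg_mul, exp_neg, two_mul, exp_add]
    field_simp
  refine ⟨hA θ, ?_, ?_, ?_, ?_⟩
  · rw [Data.P, hφ, hx, e3, hA]
    ring
  · rw [Data.a]
    linear_combination -S.q * e1 - 2 * e2 - 2 * e4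
  · rw [Data.b, hA]
    linear_combination -e1 - 2 * e5 + (S.q - 1) * hkk
  · rw [Data.c, hA]
    linear_combination -e2 - S.q * e5 - 2 * e4 + e6

theorem Consts.Lag_smooth (K : Consts) (j : ℕ) : ContDiff ℝ ∞ (K.Lag j) := by
  match j with
  | 0 => exact contDiff_const
  | 1 => unfold Consts.Lag; fun_prop
  | 2 => unfold Consts.Lag; fun_prop
  | 3 => unfold Consts.Lag; fun_prop
  | _ + 4 => exact contDiff_const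

theorem pt_alg {q am M F1 F2 W EB Γ E P Y : ℝ} (hq : 0 ≤ q) (ham : 0 < am)
    (hqam : q * am ≤ 1 / 100000) (hM : 8 ≤ M) (hF1 : 0 ≤ F1) (hF2 : 0 ≤ F2) (hF : F1 + F2 ≤ W)
    (hE0 : 0 ≤ EB) (hΓ : Γ ≤ 1 / 1000) (a1 : EB ≤ 6 / 5 * am * (F1 + F2))
    (a2 : Γ ≤ 160 * am * (F1 + F2)) (hEE : |E - EB| ≤ Γ / 250) (hP : |P| ≤ 1 * (1 - Y + Γ / 100))
    (hY0 : 0 ≤ Y) (hY : 1 - Y ≤ 2 * EB) :
    16 * q * EB + q * Γ + 2 * q * (120 * am * W) ≤ M / 8 * W ∧ |E| ≤ 2 * am * (F1 + F2) ∧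
      |P| ≤ 100 * am * (F1 + F2) ∧ |P| ≤ 2 ∧ -(1 / 20) ≤ E ∧
      (EB ≤ 6 / 5 * am * F1 ∧ Γ ≤ 160 * am * F1 → E ≤ 2 * am * F1) := by
  have hW : 0 ≤ W := by linarith
  have hF3 : 0 ≤ am * (F1 + F2) := by positivity
  have hF4 : 0 ≤ am * F1 := by positivity
  have b1 := mul_le_mul_of_nonneg_left hF ham.le
  have b2 : 16 * EB + Γ + 240 * (am * W) ≤ 500 * (am * W) := by linarith
  have b3 := mul_le_mul_of_nonneg_left b2 hq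
  have b4 := mul_le_mul_of_nonneg_right hqam hW
  have b5 := mul_le_mul_of_nonneg_right hM hW
  rw [abs_le] at hEE
  exact ⟨by linarith, abs_le.2 ⟨by linarith, by linarith⟩, by linarith, by linarith, by linarith,
    fun h => by linarith [h.1, h.2]⟩

/-- The numbers at a point of the initial data. -/
theorem PC.init_num {K : Consts} {η τ s : ℝ} {U Y Z : ℝ → ℝ} (h : PC K η τ s U Y Z)
    {S : Data} {J : Set ℝ} (hS : Sol S J) (hq : S.q = K.q)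
    {l0 : ℝ} {φ0 A0 : ℝ → ℝ} (hP : Prof Z l0 φ0 A0) (hl : S.l 0 = l0)
    (hφ : ∀ θ, S.φ (θ, 0) = φ0 θ) {G y y1 : ℝ → ℝ} (hu : ∀ θ, S.u (θ, 0) = U (φ0 θ) + G (φ0 θ))
    (hG : ∀ x, 0 < x → HasDerivAt G (y x / x) x ∧ HasDerivAt y (y1 x / x) x ∧
      |G x| ≤ gam K.am K.th η s x / 1000 ∧ |y x| ≤ gam K.am K.th η s x / 100 ∧
      |y1 x| ≤ gam K.am K.th η s x / 10) {θ : ℝ} (hθ : θ ∈ Ioo 0 π) {x : ℝ} (hx : φ0 θ = x) :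
    S.ρ (θ, 0) = rB K.q U x * exp (G x) ∧ |S.A (θ, 0)| ≤ 1 ∧
    |S.P (θ, 0)| ≤ 1 * (1 - Y x + gam K.am K.th η s x / 100) ∧
    ∃ Z1 Y1, Num K.q x (Z x) Z1 (Y x) Y1 (eB K.q U x) (y x) (y1 x) (x ^ 2 / S.ρ (θ, 0) ^ 2)
      (gam K.am K.th η s x) (S.a (θ, 0)) (S.b (θ, 0)) (S.c (θ, 0)) := by
  have hb := h.sb
  have hq1 := h.q_ge
  have hx0 : 0 < x := hx ▸ hP.φ_pos θ hθ
  have hx2 : x ≤ 1 / 2 := hx ▸ hP.φ_le θ
  obtain ⟨hA, hPe, ha, hbb, hc⟩ := static hS (by rw [hq]; linarith) hP hl hφ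
    (F := fun x => U x + G x) (Y := fun x => Y x + y x)
    (Y1 := fun x => (K.q - 1) * (eB K.q U x - Y x) / Z x + y1 x)
    (Z1 := fun x => 2 * (K.q - 1) * (1 - Z x) - 4 * Z x * Y x) hu
    (fun x hx => ((hb.dU x hx.ne').fun_add (hG x hx).1).congr_deriv (by ring))
    (fun x hx => ((hb.dY x hx.ne').fun_add (hG x hx).2.1).congr_deriv (by ring))
    (fun x hx => hb.dZ x hx.ne') hθ hx
  obtain ⟨-, -, g0, g1, g2⟩ := hG x hx0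
  have hρ : S.ρ (θ, 0) = rB K.q U x * exp (G x) := by
    rw [Data.ρ, hu, hx, hq, rB, exp_add, mul_assoc]
  have hΓ := h.gam_small hx0 hx2
  have he := h.e_sub (x := x) (G := G x) (by linarith)
  rw [← hρ] at he
  rw [hq] at ha hbb hc
  have hA1 : |A0 θ| ≤ 1 := by
    refine abs_le_one_iff_mul_self_le_one.2 ?_
    rw [← sq, hP.A_sq, hx]
    nlinarith [hb.Z_le x, mul_nonneg (hb.Z_pos x).le (sq_nonneg x)]
  have hY1 : |Y x + y x - 1| ≤ 1 - Y x + gam K.am K.th η s x / 100 := by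
    have := abs_le.1 g1
    exact abs_le.2 ⟨by linarith, by linarith [hb.Y_le x, hb.e_lt x]⟩
  refine ⟨hρ, by rwa [hA], by rw [hPe]; exact abs_mul_le hA1 hY1, _, _, hq1, hx0, hx2, rfl,
    mul_div_cancel₀ _ (hb.Z_pos x).ne', hb.constraint x, hb.Z_le x, hb.Z_ge x, hb.Z_sub x,
    hb.Y_nonneg x, hb.Y_le x, hb.e_lt x, hb.xi_le x, g1, g2, by linarith, hΓ, ha, hbb, hc⟩

/-- The pointwise part of `Init`. -/
theorem PC.init_pt {K : Consts} {η τ s : ℝ} {U Y Z : ℝ → ℝ} (h : PC K η τ s U Y Z) (hM : 8 ≤ K.M)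
    (hN : 20 * (K.q : ℝ) ^ 2 ≤ K.N) {S : Data} {J : Set ℝ} (hS : Sol S J) (hq : S.q = K.q)
    {l0 : ℝ} {φ0 A0 : ℝ → ℝ} (hP : Prof Z l0 φ0 A0) (hs : S.sg 0 = s) (hl : S.l 0 = l0)
    (hφ : ∀ θ, S.φ (θ, 0) = φ0 θ) {G y y1 : ℝ → ℝ} (hu : ∀ θ, S.u (θ, 0) = U (φ0 θ) + G (φ0 θ))
    (hG : ∀ x, 0 < x → HasDerivAt G (y x / x) x ∧ HasDerivAt y (y1 x / x) x ∧
      |G x| ≤ gam K.am K.th η s x / 1000 ∧ |y x| ≤ gam K.am K.th η s x / 100 ∧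
      |y1 x| ≤ gam K.am K.th η s x / 10) {θ : ℝ} (hθ : θ ∈ Ioo 0 π) :
    S.ρ (θ, 0) ≤ 1 ∧ |S.A (θ, 0)| ≤ 1 ∧ |S.R (θ, 0)| ≤ K.N / 2 ∧
    |S.U1 (θ, 0)| ≤ K.M / 8 * (S.G1 (θ, 0) + S.G2 (θ, 0)) ∧
    |S.U2 (θ, 0)| ≤ K.M / 8 * (S.G1 (θ, 0) + S.G2 (θ, 0)) ∧
    |S.E (θ, 0)| ≤ 2 * K.am * (S.F1 K (θ, 0) + S.F2 K (θ, 0)) ∧
    |S.P (θ, 0)| ≤ 100 * K.am * (S.F1 K (θ, 0) + S.F2 K (θ, 0)) ∧ |S.P (θ, 0)| ≤ 2 ∧
    (S.X (θ, 0) ≤ 1 → K.am / 2 * S.sg 0 ^ (1 + K.lam) ≤ S.D (θ, 0)) ∧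
    (S.X (θ, 0) ≤ 1 → S.E (θ, 0) ≤ 2 * K.am * S.F1 K (θ, 0)) ∧
    (16 * (K.q : ℝ) ≤ S.X (θ, 0) →
      |S.E (θ, 0)| ≤ 2 * K.am * S.F2 K (θ, 0) * (1 - 7 * (K.q : ℝ) * S.sg 0 / S.ρ (θ, 0) ^ 2)) ∧
    -(1 / 20) ≤ S.E (θ, 0) := by
  have hb := h.sb
  have hq1 := h.q_ge
  have ham := h.ok.am_pos
  have hs0 := h.s_pos
  obtain ⟨x, hx⟩ : ∃ x, φ0 θ = x := ⟨_, rfl⟩
  have hx0 : 0 < x := hx ▸ hP.φ_pos θ hθ
  have hx2 : x ≤ 1 / 2 := hx ▸ hP.φ_le θ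
  obtain ⟨hρ, hA, hP1, Z1, Y1, hnum⟩ := h.init_num hS hq hP hl hφ hu hG hθ hx
  have g0 := (hG x hx0).2.2.1
  have hΓ := h.gam_small hx0 hx2
  have hsz := h.sizes hx0 hx2 (G := G x) (by linarith)
  have hDl := h.D_low hx0 hx2 g0
  rw [← hρ] at hsz hDl
  have hρ0 : 0 < S.ρ (θ, 0) := by rw [hρ]; exact mul_pos (hb.r_pos x) (exp_pos _)
  have hE0 := (sub_pos.2 (hb.e_lt x)).le
  obtain ⟨a1, a2⟩ := hsz.all ham hs0 hρ0 hE0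
  have hEE : |1 - x ^ 2 / S.ρ (θ, 0) ^ 2 - (1 - eB K.q U x)| ≤ gam K.am K.th η s x / 250 := by
    rw [sub_sub_sub_cancel_left, abs_sub_comm]
    exact hnum.e_sub
  have hU := hnum.U_le (g := 120 * K.am * (s ^ (83 / 40 : ℝ) * S.ρ (θ, 0) ^ (-47 / 20 : ℝ) +
    S.ρ (θ, 0) ^ (9 / 5 : ℝ))) (hsz.Γ_le.trans_eq (by ring))
  have hR := hnum.R_le (by
    linarith [h.gam_le hx0 hx2, mul_le_mul_of_nonneg_right h.am_le (sq_nonneg x), sq_nonneg x])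
  obtain ⟨c1, c2, c3, c4, c5, c6⟩ := pt_alg (by linarith) ham h.qam_le hM (by positivity)
    (by positivity) hsz.F_le hE0 hΓ a1 a2 hEE hP1 (hb.Y_nonneg x) (hb.xi_le x)
  simp only [Data.R, Data.U1, Data.U2, Data.E, Data.D, Data.X, Data.F1, Data.F2, Data.G1, Data.G2,
    Data.σ, hφ, hx, hs, hq]
  exact ⟨hsz.ρ_le, hA, hR.trans (by linarith), hU.1.trans c1, hU.2.trans c1, c2, c3, c4, hDl,
    fun hX => c6 (hsz.inner hX), hsz.out ham hs0 hρ0 hE0 (by linarith) hEE, c5⟩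

theorem data_main (q : ℕ) (th : ℝ) : ∃ ε1 > 0, ∀ K : Consts, K.OK → K.q = q → K.th = th →
    K.ε ≤ ε1 → 8 ≤ K.M → 20 * (q : ℝ) ^ 2 ≤ K.N → ∀ᶠ s0 in 𝓝[>] (0 : ℝ),
      ∃ (l0 : ℝ) (φ0 u0 : ℝ → ℝ) (w : Fin 3 → ℝ → ℝ), Shape l0 φ0 u0 w ∧
        ∀ d : Fin 3 → ℝ, (∀ j, |d j| ≤ 1) → ∀ (S : Data) (J : Set ℝ), Sol S J → S.q = K.q →
          Starts S s0 l0 φ0 u0 w d →
            Init K S d ∧ ∀ θ ∈ Ioo 0 π, -(1 / 20) ≤ S.E (θ, 0) := by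
  obtain ⟨ε1, hε1, hpol⟩ := pol_coeff q th
  refine ⟨ε1, hε1, fun K hK hq hth hε hM hN => ?_⟩
  rw [← hq] at hN
  obtain ⟨τ0, hτ0, hmodes⟩ := modes_of_close hK
  obtain ⟨τ, hτ, hτ1, hτ2⟩ : ∃ τ, 0 < τ ∧ τ ≤ 1 / 100 ∧ τ ≤ τ0 / 3 :=
    ⟨min (1 / 100) (τ0 / 3), by positivity, min_le_left _ _, min_le_right _ _⟩
  obtain ⟨κ, hκ, hκ1, hκ2⟩ : ∃ κ, 0 < κ ∧ κ ≤ 1 ∧ κ ≤ τ0 / 12 :=
    ⟨min 1 (τ0 / 12), by positivity, min_le_left _ _, min_le_right _ _⟩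
  filter_upwards [hmodes, hK.exists_pc (η := κ ^ 2) (by positivity) (pow_le_one₀ hκ.le hκ1) hτ hτ1,
    ev_rpow 1 one_pos (show 0 < τ0 / 27 by positivity)] with s hm ⟨U, Y, Z, h⟩ hs
  rw [rpow_one, one_mul] at hs
  have hb := h.sb
  obtain ⟨l0, φ0, A0, hP⟩ := exists_prof hb.sm_Z hb.Z_even hb.Z_pos hb.Z_zero
  obtain ⟨g, hg⟩ : ∃ g, g = gP (K.am / 2 * s ^ (2 - K.th / 2)) (2 + K.th / 2) (κ ^ 2) s :=
    ⟨_, rfl⟩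
  have hge : ∀ Q x, g Q (-x) = g Q x := fun Q x => by rw [hg, gP_even]
  have hgs : ∀ Q, ContDiff ℝ ∞ Q → ContDiff ℝ ∞ (g Q) := fun Q hQ => by
    rw [hg]; exact gP_smooth _ _ h.η_pos h.s_pos hQ
  refine ⟨l0, φ0, fun θ => U (φ0 θ) + g (fun X => K.Lag 3 X - 1) (φ0 θ),
    fun j θ => g (fun X => 2 * K.ε * K.Lag j X / √(K.hL j)) (φ0 θ),
    ⟨hP.l_pos, hP.sm_φ, (hb.sm_U.comp hP.sm_φ).add
        ((hgs _ ((K.Lag_smooth 3).sub contDiff_const)).comp hP.sm_φ),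
      fun j => (hgs _ ((contDiff_const.mul (K.Lag_smooth j)).div_const _)).comp hP.sm_φ,
      hP.φ_odd, hP.φ_sym, hP.φ_pos, by rw [(hP.dφ 0).deriv, hP.A_zero, mul_one],
      fun θ => by rw [hP.φ_odd, hb.U_even, hge], fun θ => by rw [hP.φ_sym],
      fun j θ => by rw [hP.φ_odd, hge], fun j θ => by rw [hP.φ_sym]⟩,
    fun d hd S J hS hSq hst => ?_⟩
  have hu : ∀ θ, S.u (θ, 0) = U (φ0 θ) + g (K.Pol d) (φ0 θ) := fun θ => by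
    rw [hst.u, hg]
    simp only [gP, Consts.Pol, Fin.sum_univ_three]
    ring
  obtain ⟨p0, p1, p2, p3, h0, h1, h2, h3, hp⟩ := hpol K hK hq hth hε d hd
  obtain ⟨y, y1, hy⟩ := exists_pert hK.am_pos hK.th_pos (by linarith [h.th_le]) h.η_pos h.s_pos
    h0 h1 h2 h3 hp
  rw [← hg] at hy
  have hpt := fun θ hθ => h.init_pt hM hN hS hSq hP hst.sg hst.l hst.φ hu hy (θ := θ) hθ
  have hφ0 : φ0 0 = 0 := by
    have := hP.φ_odd 0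
    rw [neg_zero] at this
    linarith
  have hPol : ContDiff ℝ ∞ (K.Pol d) := by
    rw [show K.Pol d = fun X => p0 + p1 * X + p2 * X ^ 2 + p3 * X ^ 3 from funext hp]
    fun_prop
  obtain ⟨m1, m2, m3⟩ := hm S d (fun x => (rB K.q U x * exp (g (K.Pol d) x)) ^ 2 - x ^ 2) hd hst.sg
    (by
      have h4 := hb.r_cont
      have h5 := (hgs _ hPol).continuous
      fun_prop)
    (by simp only [hst.φ]; exact hP.sm_φ.of_le (by simp)) (by rw [hst.φ, hφ0])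
    (by rw [hst.φ, hP.φ_half])
    (fun θ hθ => by
      rw [hst.φ]
      refine ⟨?_, hP.φ_le θ⟩
      rcases hθ.1.eq_or_lt with h4 | h4
      · rw [← h4, hφ0]
      · exact (hP.φ_pos θ ⟨h4, by linarith [hθ.2, pi_pos]⟩).le)
    (fun θ => by rw [Data.D, Data.ρ, hu, hst.φ, hSq, rB, exp_add, mul_assoc])
    (fun x hx => by
      have hX : 0 < x ^ 2 / s := div_pos (pow_pos hx.1 2) h.s_pos
      refine (h.close hκ hτ.le hx.1 hx.2 (Q := K.Pol d) ?_ (by rw [hg])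
        (hy x hx.1).2.2.1).trans ?_
      · rw [hp]
        exact (cubic_bounds h0 h1 h2 h3 hX.le).1
      · exact mul_le_mul_of_nonneg_right (mul_le_mul_of_nonneg_left (by linarith) hK.am_pos.le)
          (by positivity))
  exact ⟨⟨fun θ hθ => (hpt θ hθ).1, fun θ hθ => (hpt θ hθ).2.1, fun θ hθ => (hpt θ hθ).2.2.1,
    fun θ hθ => (hpt θ hθ).2.2.2.1, fun θ hθ => (hpt θ hθ).2.2.2.2.1,
    fun θ hθ => (hpt θ hθ).2.2.2.2.2.1, fun θ hθ => (hpt θ hθ).2.2.2.2.2.2.1,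
    fun θ hθ => (hpt θ hθ).2.2.2.2.2.2.2.1, fun θ hθ => (hpt θ hθ).2.2.2.2.2.2.2.2.1,
    fun θ hθ => (hpt θ hθ).2.2.2.2.2.2.2.2.2.1, fun θ hθ => (hpt θ hθ).2.2.2.2.2.2.2.2.2.2.1,
    m1, m2, m3⟩, fun θ hθ => (hpt θ hθ).2.2.2.2.2.2.2.2.2.2.2⟩

end Vale.Agent.P244Z.W
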