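import Vale.Agent.N244X.QErr0
import Vale.Agent.N244X.QGrad

/-!
# P244, large `q` design: the bound for the error term
-/

open Set Real Filter Topology

namespace Vale.Agent.P244Z.W

variable {S : Data} {J : Set ℝ} {K : Consts} {t1 : ℝ} {p : ℝ × ℝ}

/-- `X + 1 / X` -/
noncomputable def Data.TT (S : Data) (p : ℝ × ℝ) : ℝ := S.X p + (S.X p)⁻¹

/-- The pointwise information used for the bound of the error. -/
structure ErrPt (K : Consts) (S : Data) (p : ℝ × ℝ) : Prop where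
  ok : K.OK
  q_eq : S.q = K.q
  alg : Alg S p
  geo : Geo0 K S p
  bds : Bds K S 2 p
  grad : Grad K S p
  σ_le : S.σ p ≤ 1
  A_ge : 1 / 2 ≤ S.A p
  φ_lt : S.φ p < K.δ

namespace ErrPt

variable (h : ErrPt K S p)
include h

theorem X_pos : 0 < S.X p := div_pos (pow_pos h.alg.φ_pos 2) h.geo.σ_pos

theorem X_le : S.X p ≤ S.TT p := by
  have := inv_pos.2 h.X_pos
  unfold Data.TT; linarith

theorem inv_le : (S.X p)⁻¹ ≤ S.TT p := by
  have := h.X_pos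
  unfold Data.TT; linarith

theorem one_le : 1 ≤ S.TT p := by
  rcases le_total 1 (S.X p) with h1 | h1
  · exact h1.trans h.X_le
  · exact (one_le_inv₀ h.X_pos).2 h1 |>.trans h.inv_le

theorem y_pos : 0 < S.y p := S.y_pos h.alg.ρ_pos h.geo.σ_pos

theorem y_le : S.y p ≤ 2 * S.TT p := by
  have := h.X_le
  have := h.one_le
  rcases h.geo.y_le with h1 | h1 <;> linarith

theorem y_inv_le : (S.y p)⁻¹ ≤ 2 * S.TT p := by
  have h1 := h.geo.X_le
  have h2 := h.y_pos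
  have h3 := h.X_pos
  have h4 : (S.y p)⁻¹ ≤ 2 * (S.X p)⁻¹ := by
    rw [← div_eq_mul_inv, inv_eq_one_div, div_le_div_iff₀ h2 h3]; linarith
  linarith [h.inv_le]

theorem y_rpow_le {κ : ℝ} (h1 : -2 ≤ κ) (h2 : κ ≤ 2) : S.y p ^ κ ≤ 4 * S.TT p ^ 2 := by
  have hT := h.one_le
  have hy := h.y_pos
  have key : ∀ z e : ℝ, 0 ≤ z → z ≤ 2 * S.TT p → 0 ≤ e → e ≤ 2 → z ^ e ≤ 4 * S.TT p ^ 2 := by
    intro z e hz hzT he he2
    calc z ^ e ≤ (2 * S.TT p) ^ e := rpow_le_rpow hz hzT he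
      _ ≤ (2 * S.TT p) ^ (2 : ℝ) := rpow_le_rpow_of_exponent_le (by linarith) he2
      _ = 4 * S.TT p ^ 2 := by rw [rpow_two]; ring
  rcases le_total 0 κ with h0 | h0
  · exact key _ _ hy.le h.y_le h0 h2
  · have : S.y p ^ κ = (S.y p)⁻¹ ^ (-κ) := by rw [inv_rpow hy.le, rpow_neg hy.le, inv_inv]
    rw [this]
    exact key _ _ (inv_pos.2 hy).le h.y_inv_le (by linarith) (by linarith)

theorem TT_pow : S.TT p ^ 8 ≤ 512 * ((S.X p ^ 8)⁻¹ + S.X p ^ 12) := by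
  have hX := h.X_pos
  have hi := inv_pos.2 hX
  have hT := h.one_le
  rcases le_total 1 (S.X p) with h1 | h1
  · have h2 : S.TT p ≤ 2 * S.X p := by
      have := inv_le_one_of_one_le₀ h1
      unfold Data.TT; linarith
    have h3 : S.X p ^ 8 ≤ S.X p ^ 12 := pow_le_pow_right₀ h1 (by norm_num)
    have h4 : 0 < (S.X p ^ 8)⁻¹ := by positivity
    calc S.TT p ^ 8 ≤ (2 * S.X p) ^ 8 := pow_le_pow_left₀ (by linarith) h2 8
      _ = 256 * S.X p ^ 8 := by ring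
      _ ≤ _ := by nlinarith [pow_pos hX 8]
  · have h2 : S.TT p ≤ 2 * (S.X p)⁻¹ := by
      have := (one_le_inv₀ hX).2 h1
      unfold Data.TT; linarith
    have h4 : 0 < (S.X p ^ 8)⁻¹ := by positivity
    calc S.TT p ^ 8 ≤ (2 * (S.X p)⁻¹) ^ 8 := pow_le_pow_left₀ (by linarith) h2 8
      _ = 256 * (S.X p ^ 8)⁻¹ := by rw [mul_pow, inv_pow]; norm_num
      _ ≤ _ := by nlinarith [pow_pos hX 12]

end ErrPt

/-- `f = O (σ ^ a T ^ n)`, uniformly -/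
def OO (K : Consts) (a : ℝ) (n : ℕ) (f : Data → ℝ × ℝ → ℝ) : Prop :=
  ∃ C, 0 ≤ C ∧ ∀ S p, ErrPt K S p → |f S p| ≤ C * (S.σ p ^ a * S.TT p ^ n)

namespace OO

variable {a b : ℝ} {n m : ℕ} {f g : Data → ℝ × ℝ → ℝ}

theorem of_le (hg : OO K a n g) (h : ∀ S p, ErrPt K S p → |f S p| ≤ |g S p|) : OO K a n f := by
  obtain ⟨C, hC, hg⟩ := hg
  exact ⟨C, hC, fun S p hp => (h S p hp).trans (hg S p hp)⟩

theorem congr (hg : OO K a n g) (h : ∀ S p, ErrPt K S p → f S p = g S p) : OO K a n f :=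
  hg.of_le fun S p hp => by rw [h S p hp]

theorem bdd (C : ℝ) (h : ∀ S p, ErrPt K S p → |f S p| ≤ C) : OO K 0 0 f :=
  ⟨|C|, abs_nonneg _, fun S p hp => by
    rw [rpow_zero, pow_zero, mul_one, mul_one]; exact (h S p hp).trans (le_abs_self _)⟩

theorem const (c : ℝ) : OO K 0 0 (fun _ _ => c) := bdd |c| fun _ _ _ => le_rfl

theorem add (hf : OO K a n f) (hg : OO K a n g) : OO K a n (fun S p => f S p + g S p) := by
  obtain ⟨C, hC, hf⟩ := hf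
  obtain ⟨D, hD, hg⟩ := hg
  refine ⟨C + D, by positivity, fun S p hp => (abs_add_le _ _).trans ?_⟩
  rw [add_mul]
  exact add_le_add (hf S p hp) (hg S p hp)

theorem neg (hf : OO K a n f) : OO K a n (fun S p => -f S p) :=
  hf.of_le fun S p _ => by rw [abs_neg]

theorem sub (hf : OO K a n f) (hg : OO K a n g) : OO K a n (fun S p => f S p - g S p) :=
  (hf.add hg.neg).congr fun S p _ => by ring

theorem mul (hf : OO K a n f) (hg : OO K b m g) :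
    OO K (a + b) (n + m) (fun S p => f S p * g S p) := by
  obtain ⟨C, hC, hf⟩ := hf
  obtain ⟨D, hD, hg⟩ := hg
  refine ⟨C * D, by positivity, fun S p hp => ?_⟩
  have hσ := hp.geo.σ_pos
  have hT := hp.one_le
  rw [abs_mul, rpow_add hσ, pow_add]
  calc |f S p| * |g S p| ≤ C * (S.σ p ^ a * S.TT p ^ n) * (D * (S.σ p ^ b * S.TT p ^ m)) :=
        mul_le_mul (hf S p hp) (hg S p hp) (abs_nonneg _) (by positivity)
    _ = _ := by ring

theorem mono (hf : OO K a n f) (hb : b ≤ a) (hm : n ≤ m) : OO K b m f := by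
  obtain ⟨C, hC, hf⟩ := hf
  refine ⟨C, hC, fun S p hp => (hf S p hp).trans ?_⟩
  have hσ := hp.geo.σ_pos
  have hT := hp.one_le
  exact mul_le_mul_of_nonneg_left (mul_le_mul (rpow_le_rpow_of_exponent_ge hσ hp.σ_le hb)
    (pow_le_pow_right₀ hT hm) (by positivity) (by positivity)) hC

theorem cmul (c : ℝ) (hf : OO K a n f) : OO K a n (fun S p => c * f S p) :=
  ((const c).mul hf).mono (by simp) (by simp)

theorem bmul (hg : OO K 0 0 g) (hf : OO K a n f) : OO K a n (fun S p => g S p * f S p) :=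
  (hg.mul hf).mono (by simp) (by simp)

end OO

section atoms

variable (K)

theorem OO_φsq : OO K 1 1 (fun S p => S.φ p ^ 2) :=
  ⟨1, zero_le_one, fun S p h => by
    beta_reduce
    rw [abs_of_nonneg (sq_nonneg _), S.φ_sq_eq h.geo.σ_pos, rpow_one, pow_one, one_mul]
    exact mul_le_mul_of_nonneg_left h.X_le h.geo.σ_pos.le⟩

theorem OO_ρsq : OO K 1 1 (fun S p => S.ρ p ^ 2) :=
  ⟨2, zero_le_two, fun S p h => by
    beta_reduce
    rw [abs_of_nonneg (sq_nonneg _), S.ρ_sq_eq h.geo.σ_pos, rpow_one, pow_one]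
    nlinarith [h.y_le, h.geo.σ_pos]⟩

theorem OO_φinv : OO K (-1) 1 (fun S p => (S.φ p ^ 2)⁻¹) :=
  ⟨1, zero_le_one, fun S p h => by
    beta_reduce
    rw [abs_of_nonneg (inv_nonneg.2 (sq_nonneg _)), S.φ_sq_eq h.geo.σ_pos, rpow_neg_one, pow_one,
      one_mul, mul_inv]
    exact mul_le_mul_of_nonneg_left h.inv_le (inv_pos.2 h.geo.σ_pos).le⟩

theorem OO_F : OO K (9 / 5) 2 (fun S p => S.F1 K p + S.F2 K p) :=
  ⟨8, by norm_num, fun S p h => by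
    have hρ := h.alg.ρ_pos
    have hσ := h.geo.σ_pos
    have h1 := h.ok.lam_ge
    have h2 := h.ok.lam_le
    have h3 := h.y_rpow_le (κ := -47 / 40) (by norm_num) (by norm_num)
    have h4 := h.y_rpow_le (κ := K.lam) (by linarith) h2
    have h5 : S.σ p ^ K.lam ≤ S.σ p ^ (9 / 5 : ℝ) :=
      rpow_le_rpow_of_exponent_ge hσ h.σ_le (by linarith)
    have h6 := rpow_pos_of_pos hσ K.lam
    rw [abs_of_pos (add_pos (S.F1_pos K hρ hσ) (S.F2_pos K hρ)), S.F1_eq K hρ hσ, S.F2_eq K hρ hσ,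
      ← mul_add]
    calc _ ≤ S.σ p ^ K.lam * (8 * S.TT p ^ 2) := mul_le_mul_of_nonneg_left (by linarith) h6.le
      _ ≤ S.σ p ^ (9 / 5 : ℝ) * (8 * S.TT p ^ 2) := mul_le_mul_of_nonneg_right h5 (by positivity)
      _ = _ := by ring⟩

theorem OO_G' : OO K (9 / 10) 2 (fun S p => S.G1 p + S.G2 p) :=
  ⟨8, by norm_num, fun S p h => by
    have hρ := h.alg.ρ_pos
    have hσ := h.geo.σ_pos
    have h3 := h.y_rpow_le (κ := -47 / 40) (by norm_num) (by norm_num)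
    have h4 := h.y_rpow_le (κ := 9 / 10) (by norm_num) (by norm_num)
    have h6 := rpow_pos_of_pos hσ (9 / 10 : ℝ)
    rw [abs_of_pos (add_pos (S.G1_pos hρ hσ) (S.G2_pos hρ)), S.G1_eq hρ hσ, S.G2_eq hρ hσ,
      ← mul_add]
    calc _ ≤ S.σ p ^ (9 / 10 : ℝ) * (8 * S.TT p ^ 2) :=
          mul_le_mul_of_nonneg_left (by linarith) h6.le
      _ = _ := by ring⟩

theorem OO_G : OO K (4 / 5) 2 (fun S p => S.G1 p + S.G2 p) :=
  (OO_G' K).mono (by norm_num) le_rfl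

theorem OO_E : OO K (9 / 5) 2 (fun S p => S.E p) :=
  ((OO_F K).cmul (2 * 2 * K.am)).of_le fun _ _ h => h.bds.E.trans (le_abs_self _)

theorem OO_P : OO K (9 / 5) 2 (fun S p => S.P p) :=
  ((OO_F K).cmul (4400 * K.q * K.am ^ 2 + 1)).of_le fun S p h => by
    have hρ := h.alg.ρ_pos
    have hσ := h.geo.σ_pos
    have h1 := S.F1_pos K hρ hσ
    have h2 := S.F2_pos K hρ
    have h3 : S.P p ^ 2 ≤ 4400 * K.q * K.am ^ 2 * (S.F1 K p ^ 2 + S.F2 K p ^ 2) := h.grad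
    refine sq_le_sq.1 (h3.trans ?_)
    have h4 : (0 : ℝ) ≤ 4400 * K.q * K.am ^ 2 := by positivity
    rw [mul_pow]
    refine mul_le_mul (by nlinarith) (by nlinarith [mul_pos h1 h2]) (by positivity) (by positivity)

theorem OO_U1 : OO K (4 / 5) 2 (fun S p => S.U1 p) :=
  ((OO_G K).cmul (2 * K.M)).of_le fun _ _ h => h.bds.U1.trans (le_abs_self _)

theorem OO_U2 : OO K (4 / 5) 2 (fun S p => S.U2 p) :=
  ((OO_G K).cmul (2 * K.M)).of_le fun _ _ h => h.bds.U2.trans (le_abs_self _)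

theorem OO_R : OO K 0 2 (fun S p => S.R p) :=
  (OO.bdd (2 * K.N) fun _ _ h => h.bds.R).mono le_rfl (by norm_num)

theorem OO_A : OO K 0 0 (fun S p => S.A p) := OO.bdd 1 fun _ _ h => h.geo.A_le

theorem OO_Ainv : OO K 0 0 (fun S p => (S.A p)⁻¹) :=
  OO.bdd 2 fun S p h => by
    have := h.A_ge
    rw [abs_of_pos (inv_pos.2 (by linarith)), inv_le_comm₀ (by linarith) two_pos]
    linarith

theorem OO_P0 : OO K 0 0 (fun S p => S.P p) := OO.bdd (1 + 2) fun _ _ h => h.bds.P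

theorem OO_c : OO K 0 2 (fun S p => S.c p) :=
  ((((OO_R K).sub ((OO_U1 K).mono (by norm_num) le_rfl)).sub
    (((OO_U2 K).mono (by norm_num) le_rfl).cmul (K.q : ℝ))).cmul ((K.q : ℝ) + 3)⁻¹).congr
    fun S p h => by
      have h1 := S.c_eq' p
      have h2 := h.ok.q_ge'
      rw [h.q_eq] at h1
      rw [← h1]
      field_simp

theorem OO_a : OO K 0 2 (fun S p => S.a p) :=
  ((OO_c K).add ((OO_U1 K).mono (by norm_num) le_rfl)).congr fun S p _ => by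
    unfold Data.U1; ring

theorem OO_b : OO K 0 2 (fun S p => S.b p) :=
  ((OO_c K).add ((OO_U2 K).mono (by norm_num) le_rfl)).congr fun S p _ => by
    unfold Data.U2; ring

theorem OO_Z : OO K 1 3 (fun S p => S.Z p) := by
  have h1 : OO K 1 3 (fun S p => S.φ p ^ 2 * (S.R p - 2 * S.a p)) :=
    ((OO_φsq K).mul ((OO_R K).sub ((OO_a K).cmul 2))).mono (by norm_num) (by norm_num)
  have h2 : OO K 1 3 (fun S p => S.E p) := (OO_E K).mono (by norm_num) (by norm_num)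
  have h3 : OO K 1 3 (fun S p => S.P p) := (OO_P K).mono (by norm_num) (by norm_num)
  refine ((((h1.neg.sub (h2.cmul (2 * ((K.q : ℝ) - 1)))).sub
    (((OO_A K).bmul h3).cmul (4 * ((K.q : ℝ) + 1)))).sub (((OO_P0 K).bmul h3).cmul 2)).cmul
    (((K.q : ℝ) + 1) * ((K.q : ℝ) + 2))⁻¹).congr fun S p h => ?_
  have h4 := h.alg.Z_eq
  have h5 := h.ok.q_ge'
  rw [h.q_eq] at h4
  rw [eq_inv_mul_iff_mul_eq₀ (by positivity), h4]
  ring

theorem OO_D : OO K (14 / 5) 3 (fun S p => S.D p) :=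
  (((OO_ρsq K).mul (OO_E K)).mono (by norm_num) (by norm_num)).congr fun _ _ h => h.alg.D_eq

theorem OO_φDx : OO K (14 / 5) 3 (fun S p => S.φ p * S.Dx p) := by
  have h1 : OO K (14 / 5) 3 (fun S p => S.ρ p ^ 2 * S.P p) :=
    ((OO_ρsq K).mul (OO_P K)).mono (by norm_num) (by norm_num)
  refine (((OO_D K).cmul 2).add (((OO_Ainv K).bmul h1).cmul 2)).congr fun S p h => ?_
  have := h.A_ge
  rw [h.alg.φDx_eq (by linarith)]
  ring

theorem OO_Ddot : OO K (9 / 5) 5 (fun S p => S.Ddot p) := by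
  have h1 : OO K (9 / 5) 5 (fun S p => S.φ p ^ 2 * S.U2 p) :=
    ((OO_φsq K).mul (OO_U2 K)).mono (by norm_num) (by norm_num)
  have h2 : OO K (9 / 5) 5 (fun S p => S.c p * S.D p) :=
    ((OO_c K).mul (OO_D K)).mono (by norm_num) (by norm_num)
  have h3 : OO K (9 / 5) 5 (fun S p => S.b p * (S.φ p * S.Dx p)) :=
    ((OO_b K).mul (OO_φDx K)).mono (by norm_num) (by norm_num)
  refine (((h1.cmul 2).sub (h2.cmul 2)).add h3).congr fun S p _ => ?_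
  unfold Data.Ddot; ring

theorem OO_PP : OO K (14 / 5) 6 (fun S p => S.P p ^ 2 * (S.ρ p ^ 2 / S.φ p ^ 2)) :=
  ((((OO_P K).mul (OO_P K)).mul ((OO_ρsq K).mul (OO_φinv K))).mono (by norm_num)
    (by norm_num)).congr fun S p _ => by ring

theorem OO_W : OO K (9 / 5) 5
    (fun S p => S.Dxx p - 3 * S.Dx p / S.φ p + 4 * S.D p / S.φ p ^ 2) := by
  have h1 : OO K (9 / 5) 5 (fun S p => S.φ p * S.Dx p * (S.φ p ^ 2)⁻¹) :=
    ((OO_φDx K).mul (OO_φinv K)).mono (by norm_num) (by norm_num)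
  have h2 : OO K (9 / 5) 5 (fun S p => S.P p * (S.P p * (S.ρ p ^ 2 * (S.φ p ^ 2)⁻¹))) :=
    (OO_P0 K).bmul (((OO_P K).mul ((OO_ρsq K).mul (OO_φinv K))).mono (by norm_num) (by norm_num))
  refine ((OO_Ainv K).bmul ((OO_Ainv K).bmul (((OO_Ddot K).sub (h1.cmul ((K.q : ℝ) - 1))).add
    (h2.cmul 4)))).congr fun S p h => ?_
  have hA : S.A p ≠ 0 := by have := h.A_ge; linarith
  have h3 := h.alg.W_eq hA
  rw [h.q_eq] at h3
  rw [eq_inv_mul_iff_mul_eq₀ hA, eq_inv_mul_iff_mul_eq₀ hA]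
  linear_combination h3

theorem OO_φth : OO K 0 0 (fun S p => S.φ p ^ K.th) :=
  OO.bdd 1 fun S p h => by
    have h1 := h.alg.φ_pos
    have h2 := h.φ_lt
    have h3 := h.ok.δ_sq_le
    rw [abs_of_pos (rpow_pos_of_pos h1 _)]
    exact rpow_le_one h1.le (by nlinarith) h.ok.th_pos.le

theorem OO_ze : OO K 0 0 (fun S p => K.ze (S.φ p)) := OO.bdd 1 fun _ _ _ => K.ze_abs _

theorem OO_ze2 : OO K 0 0 (fun S p => deriv (deriv K.ze) (S.φ p)) := by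
  obtain ⟨C, -, hC⟩ := K.ze_bd
  exact OO.bdd C fun S p h => (hC _ ⟨h.alg.φ_pos.le, h.φ_lt.le⟩).2

theorem OO_ze1 : OO K 0 0 (fun S p => deriv K.ze (S.φ p) / S.φ p) := by
  obtain ⟨C, hC0, hC⟩ := K.ze_bd
  refine OO.bdd (C * (4 / |K.δ|)) fun S p h => ?_
  have hδ := h.ok.δ_pos
  have hφ := h.alg.φ_pos
  rcases lt_or_ge (S.φ p) (K.δ / 4) with h1 | h1
  · rw [Consts.ze_d1_zero hδ h1, zero_div, abs_zero]; positivity
  · rw [abs_div, abs_of_pos hφ, abs_of_pos hδ, div_eq_mul_inv]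
    refine mul_le_mul (hC _ ⟨hφ.le, h.φ_lt.le⟩).1 ?_ (by positivity) hC0.le
    rw [inv_le_comm₀ hφ (by positivity), inv_div]
    exact h1

/-- the right hand side of `Sol.err_eq` -/
theorem OO_err : OO K (14 / 5) 8 (fun S p => S.φ p ^ K.th * (K.ze (S.φ p) *
      (S.Z p * (S.Dxx p - 3 * S.Dx p / S.φ p + 4 * S.D p / S.φ p ^ 2)
        - 4 * S.P p ^ 2 * (S.ρ p ^ 2 / S.φ p ^ 2))
      - ((K.q : ℝ) - 1) / ((K.q : ℝ) + 1) * (deriv (deriv K.ze) (S.φ p) * S.D p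
        + 2 * deriv K.ze (S.φ p) * S.Dx p
        + ((K.q : ℝ) - 2) * deriv K.ze (S.φ p) * S.D p / S.φ p))) := by
  have h1 : OO K (14 / 5) 8 (fun S p =>
      S.Z p * (S.Dxx p - 3 * S.Dx p / S.φ p + 4 * S.D p / S.φ p ^ 2)) :=
    ((OO_Z K).mul (OO_W K)).mono (by norm_num) (by norm_num)
  have h2 := (OO_PP K).mono le_rfl (show 6 ≤ 8 by norm_num)
  have h3 := ((((OO_ze2 K).bmul (OO_D K)).add (((OO_ze1 K).bmul (OO_φDx K)).cmul 2)).add
    (((OO_ze1 K).bmul (OO_D K)).cmul ((K.q : ℝ) - 2))).mono le_rfl (show 3 ≤ 8 by norm_num)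
  refine ((OO_φth K).bmul (((OO_ze K).bmul (h1.sub (h2.cmul 4))).sub
    (h3.cmul (((K.q : ℝ) - 1) / ((K.q : ℝ) + 1))))).congr fun S p h => ?_
  have hφ := h.alg.φ_pos.ne'
  congr 3
  · ring
  · field_simp

end atoms

theorem err_bound (K : Consts) : ∃ C > 0, Ev K (fun S _ t1 => ∀ p ∈ strip t1, 0 < p.2 →
    p.1 ≤ π / 2 → S.φ p < K.δ →
      |S.err K p| ≤ C * S.σ p ^ (4 / 5 : ℝ) * ((S.X p ^ 8)⁻¹ + S.X p ^ 12)) := by
  obtain ⟨C, hC0, hC⟩ := OO_err K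
  refine ⟨512 * C + 1, by positivity, ((((geo0 K).and (mono K)).and
    (grad_of K (geo0 K) (trap K))).and (Ev.small_one K 1 one_pos)).mono ?_⟩
  rintro S J t1 d hc ⟨⟨⟨hg, hm⟩, hgr⟩, hs⟩ ⟨θ, t⟩ hp h0 hθ hφ
  have hK := hc.boot.ok
  have hq := hK.q_ge'
  have hA : 1 / 2 ≤ S.A (θ, t) := by
    have h1 := ((hm t hp.2 θ ⟨hp.1.1, hθ⟩ hφ.le).2 θ ⟨hp.1.1.le, le_rfl⟩).2
    have h2 : 21 / (K.q : ℝ) ≤ 1 / 2 := by rw [div_le_iff₀ (by linarith)]; linarith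
    linarith
  have hpt : ErrPt K S (θ, t) :=
    ⟨hK, hc.boot.q_eq, hc.alg hp, hg _ hp, hc.boot.bds _ hp, (hgr _ hp).1,
      (hg _ hp).σ_le.trans (by linarith), hA, hφ⟩
  have hσ : 0 < S.sg t := hpt.geo.σ_pos
  have h1 := hC S (θ, t) hpt
  beta_reduce at h1
  rw [← hc.boot.sol.err_eq (θ := θ) (t := t) hK hc.boot.q_eq hp.1 (hc.memJ hp.2) h0 (by linarith)
    hσ, abs_mul,
    abs_of_pos (pow_pos hσ 2)] at h1
  have h2 : S.σ (θ, t) ^ (14 / 5 : ℝ) = S.sg t ^ 2 * S.σ (θ, t) ^ (4 / 5 : ℝ) := by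
    rw [show (14 / 5 : ℝ) = 2 + 4 / 5 by norm_num, rpow_add hpt.geo.σ_pos, rpow_two]; rfl
  have h3 := hpt.TT_pow
  have h4 := rpow_pos_of_pos hpt.geo.σ_pos (4 / 5 : ℝ)
  have h5 : 0 < (S.X (θ, t) ^ 8)⁻¹ + S.X (θ, t) ^ 12 := by have := hpt.X_pos; positivity
  have h6 : |S.err K (θ, t)| ≤ C * (S.σ (θ, t) ^ (4 / 5 : ℝ) * S.TT (θ, t) ^ 8) := by
    refine le_of_mul_le_mul_left (h1.trans_eq ?_) (pow_pos hσ 2)
    rw [h2]; ring
  calc |S.err K (θ, t)| ≤ C * (S.σ (θ, t) ^ (4 / 5 : ℝ)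
        * (512 * ((S.X (θ, t) ^ 8)⁻¹ + S.X (θ, t) ^ 12))) :=
        h6.trans (mul_le_mul_of_nonneg_left (mul_le_mul_of_nonneg_left h3 h4.le) hC0)
    _ = 512 * C * (S.σ (θ, t) ^ (4 / 5 : ℝ) * ((S.X (θ, t) ^ 8)⁻¹ + S.X (θ, t) ^ 12)) := by ring
    _ ≤ (512 * C + 1) * (S.σ (θ, t) ^ (4 / 5 : ℝ) * ((S.X (θ, t) ^ 8)⁻¹ + S.X (θ, t) ^ 12)) :=
        mul_le_mul_of_nonneg_right (by linarith) (by positivity)
    _ = _ := by ring

end Vale.Agent.P244Z.W
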