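import Vale.Agent.N244X.QGeo

/-!
# P244, step 7: the bound for the traceless Ricci curvature in the inner region
-/

open Set Real Filter Topology

namespace Vale.Agent.P244Z.W

namespace U1Aux

variable {S : Data} {J : Set ℝ} {K : Consts} {t1 : ℝ} {p : ℝ × ℝ}

/-- One row of a weakly coupled system at a point where the first component is the largest. -/
theorem row {x z k r1 r2 w c : ℝ} (hk : 0 ≤ k) (hz : |z| ≤ x) (hw : 0 < w) (h : r1 + |r2| ≤ c) :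
    k * (z - x) + r1 / w * x + r2 / w * z ≤ c / w * x := by
  have hx : 0 ≤ x := (abs_nonneg z).trans hz
  have h1 : k * (z - x) ≤ 0 := mul_nonpos_of_nonneg_of_nonpos hk (by linarith [le_abs_self z])
  have h3 : r2 * z ≤ |r2| * x := by
    calc r2 * z ≤ |r2 * z| := le_abs_self _
      _ = |r2| * |z| := abs_mul _ _
      _ ≤ |r2| * x := mul_le_mul_of_nonneg_left hz (abs_nonneg _)
  have h4 : (r1 + |r2|) * x ≤ c * x := mul_le_mul_of_nonneg_right h hx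
  have h5 : (r1 * x + r2 * z) / w ≤ c * x / w :=
    div_le_div_of_nonneg_right (by linarith) hw.le
  have e1 : r1 / w * x + r2 / w * z = (r1 * x + r2 * z) / w := by ring
  have e2 : c / w * x = c * x / w := by ring
  linarith

/-- The ratio of the two weights. -/
theorem G2_le {σ ρ k : ℝ} (hσ : 0 < σ) (hρ : 0 < ρ) (hk : 1 ≤ k) (h : ρ ^ 2 ≤ k * σ) :
    ρ ^ (9 / 5 : ℝ) ≤ k ^ 3 * (σ ^ (83 / 40 : ℝ) * ρ ^ (-47 / 20 : ℝ)) := by
  have e1 : ρ ^ (9 / 5 : ℝ) = (ρ ^ 2) ^ (83 / 40 : ℝ) * ρ ^ (-47 / 20 : ℝ) := by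
    rw [← rpow_natCast, ← rpow_mul hρ.le, ← rpow_add hρ]; norm_num
  have e2 : (ρ ^ 2) ^ (83 / 40 : ℝ) ≤ (k * σ) ^ (83 / 40 : ℝ) :=
    rpow_le_rpow (by positivity) h (by norm_num)
  have e3 : k ^ (83 / 40 : ℝ) ≤ k ^ 3 := by
    rw [← rpow_natCast]
    exact rpow_le_rpow_of_exponent_le hk (by norm_num)
  rw [mul_rpow (by linarith) hσ.le] at e2
  rw [e1, ← mul_assoc]
  refine mul_le_mul_of_nonneg_right (e2.trans ?_) (by positivity)
  exact mul_le_mul_of_nonneg_right e3 (by positivity)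

theorem abs_mul_le {w x c : ℝ} (hw : 0 ≤ w) (h : w * |x| ≤ c) : |w * x| ≤ c := by
  rwa [abs_mul, abs_of_nonneg hw]

/-- The relations between the coefficients. -/
theorem rel (hqK : (K.q : ℝ) = S.q) (g : Geo0 K S p) (t : Trap K S p) (al : Alg S p) :
    |S.ρ p ^ 2 * S.a p| ≤ 1 / 50 ∧ |S.ρ p ^ 2 * S.b p| ≤ 1 / 50 ∧ |S.ρ p ^ 2 * S.c p| ≤ 1 / 50 ∧
    S.ρ p ^ 2 * S.Ds S.β p = -(S.ρ p ^ 2 * S.c p)
      - (S.q : ℝ) * (S.ρ p ^ 2 * (S.A p * S.vv p) - 1) - 2 * (S.β p ^ 2 * S.ρ p ^ 2) - 1 ∧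
    (S.q : ℝ) * (S.ρ p ^ 2 * S.hh p) = -(S.ρ p ^ 2 * S.a p)
      - 2 * (S.ρ p ^ 2 * S.Ds S.β p + S.β p ^ 2 * S.ρ p ^ 2) ∧
    -(33 / 10) ≤ (S.q : ℝ) * (S.ρ p ^ 2 * (S.A p * S.vv p) - 1) ∧
    (S.q : ℝ) * (S.ρ p ^ 2 * (S.A p * S.vv p) - 1) ≤ -(3 / 5) - 17 / 20 * (1 - S.E p) ∧
    1 - S.E p ≤ 11 / 10 := by
  have w := sq_nonneg (S.ρ p)
  have hρ := al.ρ_pos
  refine ⟨abs_mul_le w (by linarith [g.a_le, t.ric_le]), abs_mul_le w (by linarith [g.b_le, t.ric_le]),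
    abs_mul_le w (by linarith [g.c_le, t.ric_le]), ?_, ?_, hqK ▸ t.w_ge, hqK ▸ t.w_le, ?_⟩
  · rw [al.c_eq]; field_simp; ring
  · unfold Data.a; ring
  · refine le_of_mul_le_mul_left ?_ (pow_pos hρ 2)
    linarith [al.φ_sq, g.φ_sq_le]

/-- The coefficient bounds for the first row. -/
theorem coef1 (hq : (47 : ℝ) ≤ S.q) (hqK : (K.q : ℝ) = S.q) (g : Geo0 K S p) (t : Trap K S p)
    (al : Alg S p) :
    S.ρ p ^ 2 * -(4 * S.β p ^ 2 - 2 * S.Ds S.β p - 2 * S.c p)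
      + |S.ρ p ^ 2 * (2 * (S.q : ℝ) * (S.A p * S.vv p - S.hh p))|
      ≤ 2 * (S.q : ℝ) + 119 / 10 - (47 / 20) ^ 2 * (S.β p ^ 2 * S.ρ p ^ 2) := by
  obtain ⟨a1, a2, a3, a4, a5, a6, a7, a8⟩ := rel hqK g t al
  have b1 := abs_le.1 a1
  have b3 := abs_le.1 a3
  have x0 : 0 ≤ S.β p ^ 2 * S.ρ p ^ 2 := by positivity
  have x1 := t.x_le
  rw [← le_sub_iff_add_le', abs_le]
  constructor <;> linarith

/-- The coefficient bounds for the second row. -/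
theorem coef2 (hq : (47 : ℝ) ≤ S.q) (hqK : (K.q : ℝ) = S.q) (g : Geo0 K S p) (t : Trap K S p)
    (al : Alg S p) :
    S.ρ p ^ 2 * (2 * ((S.q : ℝ) - 1) * S.kk p + 2 * (S.q : ℝ) * S.A p * S.vv p + 2 * S.c p)
      + |S.ρ p ^ 2 * (2 * (S.Ds S.β p - S.hh p))|
      ≤ 2 * (S.q : ℝ) + 119 / 10 - (47 / 20) ^ 2 * (S.β p ^ 2 * S.ρ p ^ 2) := by
  obtain ⟨a1, a2, a3, a4, a5, a6, a7, a8⟩ := rel hqK g t al
  have b1 := abs_le.1 a1
  have b2 := abs_le.1 a2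
  have b3 := abs_le.1 a3
  have x0 : 0 ≤ S.β p ^ 2 * S.ρ p ^ 2 := by positivity
  have x1 := t.x_le
  have h1 : S.ρ p ^ 2 * S.hh p ≤ 1 / 20 := by
    refine le_of_mul_le_mul_left ?_ (show (0 : ℝ) < S.q by linarith)
    linarith
  have h2 : S.ρ p ^ 2 * (S.A p * S.vv p) - 1 ≤ 0 := by
    refine le_of_mul_le_mul_left ?_ (show (0 : ℝ) < S.q by linarith)
    linarith
  have h3 : ((S.q : ℝ) - 1) * (S.ρ p ^ 2 * S.kk p) = S.ρ p ^ 2 * S.b p + S.ρ p ^ 2 * S.hh p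
      + 2 * (S.ρ p ^ 2 * (S.A p * S.vv p)) := by
    unfold Data.b; ring
  rw [← le_sub_iff_add_le', abs_le]
  constructor <;> linarith

/-- The barrier is a supersolution. -/
theorem bar (hq : (47 : ℝ) ≤ S.q) (g : Geo0 K S p) (hρ : 0 < S.ρ p)
    (hσ : S.ρ p ^ 2 ≤ 21 / 20 * S.σ p) :
    (2 * (S.q : ℝ) + 119 / 10 - (47 / 20) ^ 2 * (S.β p ^ 2 * S.ρ p ^ 2)) / S.ρ p ^ 2
      ≤ -(-47 / 20) * ((S.q : ℝ) - 1) / S.ρ p ^ 2
      - (-47 / 20) ^ 2 * S.β p ^ 2 - 83 / 40 / S.σ p := by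
  have h0 := g.σ_pos
  have h1 : 83 / 40 / S.σ p ≤ (218 / 100) / S.ρ p ^ 2 := by
    rw [div_le_div_iff₀ h0 (by positivity)]; linarith
  have h3 : (2 * (S.q : ℝ) + 119 / 10 + 218 / 100) / S.ρ p ^ 2
      ≤ -(-47 / 20) * ((S.q : ℝ) - 1) / S.ρ p ^ 2 :=
    div_le_div_of_nonneg_right (by linarith) (by positivity)
  have e : (2 * (S.q : ℝ) + 119 / 10 + 218 / 100) / S.ρ p ^ 2 =
      (2 * (S.q : ℝ) + 119 / 10 - (47 / 20) ^ 2 * (S.β p ^ 2 * S.ρ p ^ 2)) / S.ρ p ^ 2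
        + (218 / 100) / S.ρ p ^ 2 + (-47 / 20) ^ 2 * S.β p ^ 2 := by
    field_simp
    ring
  linarith

end U1Aux

open U1Aux in
/-- Step 7, from steps 0, 1 (`hgeo`), 2 (`htrap`) and 6 (`hout`). -/
theorem ubound_of (K : Consts) (hgeo : Ev K (fun S _ t1 => ∀ p ∈ strip t1, Geo0 K S p))
    (htrap : Ev K (fun S _ t1 => ∀ p ∈ strip t1, S.φ p ≤ K.δ → Trap K S p))
    (hout : Ev K (fun S _ t1 => ∀ p ∈ strip t1, 1 ≤ S.X p →
      S.U1 p ^ 2 + S.U2 p ^ 2 ≤ 2 / 5 * K.M ^ 2 * (S.G1 p ^ 2 + S.G2 p ^ 2))) :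
    Ev K (fun S _ t1 => ∀ p ∈ strip t1,
      |S.U1 p| ≤ K.M * (S.G1 p + S.G2 p) ∧ |S.U2 p| ≤ K.M * (S.G1 p + S.G2 p)) := by
  refine ((hgeo.and htrap).and (hout.and ((Ev.small_one K 1 one_pos).and
    (Ev.small_one K (1 / K.δ ^ 2) one_pos)))).mono ?_
  rintro S J t1 d hc ⟨⟨hg, ht⟩, ho, hs1, hs2⟩
  have hb := hc.boot
  have hok := hb.ok
  have hqR := hb.q_ge'
  have hqK : (K.q : ℝ) = S.q := hb.q_eq'.symm
  have hM : 0 < K.M := lt_of_lt_of_le one_pos hok.M_ge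
  have hδ := hok.δ_pos
  have hsδ : S.sg 0 ≤ K.δ ^ 2 := by
    rwa [one_div, inv_mul_le_iff₀ (by positivity), mul_one] at hs2
  have hG : ∀ p ∈ strip t1, 0 < S.G1 p ∧ 0 < S.G2 p := fun p hp =>
    ⟨mul_pos (rpow_pos_of_pos (hg p hp).σ_pos _) (rpow_pos_of_pos (hb.alg hp).ρ_pos _),
      rpow_pos_of_pos (hb.alg hp).ρ_pos _⟩
  have hin : ∀ p ∈ strip t1, S.φ p ^ 2 - S.σ p ≤ 0 → S.ρ p ^ 2 ≤ 21 / 20 * S.σ p := by
    intro p hp h
    have := (hg p hp).σ_pos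
    rcases (hg p hp).ρ_sq_le' with h1 | h1 <;> linarith
  have hsg : ∀ b : Bool, ∀ x : ℝ, cond b 1 (-1) * x ≤ |x| := by
    intro b x
    cases b
    · simpa using neg_le_abs x
    · simpa using le_abs_self x
  have hsa : ∀ b : Bool, ∀ x : ℝ, |cond b 1 (-1) * x| = |x| := by
    intro b x
    cases b <;> simp
  have key := hc.mpA (ι := Bool × Bool)
    (C := fun y => S.φ y ^ 2 - S.σ y)
    (((hb.sol.cont hb.mem hb.sol.sm_φ).pow 2).sub (hb.sol.cont hb.mem hb.sol.sm_σ))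
    (f := fun i y => cond i.2 1 (-1) * cond i.1 (S.U1 y) (S.U2 y) - K.M * S.G1 y) ?_ ?_ ?_ 0 ?_
  · intro p hp
    obtain ⟨g1, g2⟩ := hG p hp
    have g := hg p hp
    rcases le_total (S.φ p ^ 2) (S.σ p) with h | h
    · have k1 := key (true, true) p hp (by linarith)
      have k2 := key (true, false) p hp (by linarith)
      have k3 := key (false, true) p hp (by linarith)
      have k4 := key (false, false) p hp (by linarith)
      simp only [cond_true, cond_false] at k1 k2 k3 k4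
      have : 0 ≤ K.M * S.G2 p := by positivity
      rw [mul_add, abs_le, abs_le]
      refine ⟨⟨?_, ?_⟩, ?_, ?_⟩ <;> linarith
    · have h1 := ho p hp ((one_le_div g.σ_pos).2 h)
      have h2 : 2 / 5 * K.M ^ 2 * (S.G1 p ^ 2 + S.G2 p ^ 2) ≤ (K.M * (S.G1 p + S.G2 p)) ^ 2 := by
        have a1 : 2 / 5 * (S.G1 p ^ 2 + S.G2 p ^ 2) ≤ (S.G1 p + S.G2 p) ^ 2 := by
          nlinarith [mul_pos g1 g2, sq_nonneg (S.G1 p), sq_nonneg (S.G2 p)]
        have a2 := mul_le_mul_of_nonneg_left a1 (sq_nonneg K.M)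
        rw [mul_pow]; linarith
      have h3 : 0 ≤ K.M * (S.G1 p + S.G2 p) := by positivity
      exact ⟨abs_le_of_sq_le_sq' (by nlinarith [sq_nonneg (S.U2 p)]) h3 |> abs_le.2,
        abs_le_of_sq_le_sq' (by nlinarith [sq_nonneg (S.U1 p)]) h3 |> abs_le.2⟩
  · rintro ⟨a, b⟩
    have c0 : ContinuousOn (fun y => K.M * S.G1 y) (cstrip t1) :=
      continuousOn_const.mul (hb.cont_pow _ _)
    cases a
    · exact (continuousOn_const.mul (hb.sol.cont hb.mem hb.sol.sm_U2)).sub c0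
    · exact (continuousOn_const.mul (hb.sol.cont hb.mem hb.sol.sm_U1)).sub c0
  · rintro ⟨a, b⟩ θ hθ h
    have h0 : (θ, (0 : ℝ)) ∈ strip t1 := ⟨hθ, le_rfl, hb.sol.time.nonneg t1 hb.mem⟩
    have h1 : S.G2 (θ, 0) ≤ (21 / 20) ^ 3 * S.G1 (θ, 0) :=
      G2_le (hg _ h0).σ_pos (hb.alg h0).ρ_pos (by norm_num) (hin _ h0 h)
    have h2 : K.M / 8 * (S.G1 (θ, 0) + S.G2 (θ, 0)) ≤ K.M * S.G1 (θ, 0) := by
      have := (hG _ h0).1
      nlinarith [mul_le_mul_of_nonneg_left h1 hM.le, mul_pos hM this]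
    cases a
    · have := (hsg b _).trans ((hc.init.U2 θ hθ).trans h2)
      simp only [cond_false]; linarith
    · have := (hsg b _).trans ((hc.init.U1 θ hθ).trans h2)
      simp only [cond_true]; linarith
  · rintro ⟨a, b⟩ p hp h
    have g := hg p hp
    obtain ⟨g1, g2⟩ := hG p hp
    have h' : S.φ p ^ 2 = S.σ p := by linarith
    have h1 : S.G2 p ≤ (21 / 20) ^ 3 * S.G1 p :=
      G2_le g.σ_pos (hb.alg hp).ρ_pos (by norm_num) (hin p hp h.le)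
    have h2 := ho p hp ((one_le_div g.σ_pos).2 h'.ge)
    have h3 : 2 / 5 * K.M ^ 2 * (S.G1 p ^ 2 + S.G2 p ^ 2) ≤ (K.M * S.G1 p) ^ 2 := by
      have a0 : S.G2 p ^ 2 ≤ ((21 / 20) ^ 3 * S.G1 p) ^ 2 := pow_le_pow_left₀ g2.le h1 2
      have a1 : 2 / 5 * (S.G1 p ^ 2 + S.G2 p ^ 2) ≤ S.G1 p ^ 2 := by
        nlinarith [sq_nonneg (S.G1 p)]
      have a2 := mul_le_mul_of_nonneg_left a1 (sq_nonneg K.M)
      rw [mul_pow]; linarith
    have h4 : 0 ≤ K.M * S.G1 p := by positivity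
    cases a
    · have := (hsg b _).trans (abs_le.2 (abs_le_of_sq_le_sq'
        (by nlinarith [sq_nonneg (S.U1 p)] : S.U2 p ^ 2 ≤ (K.M * S.G1 p) ^ 2) h4))
      simp only [cond_false]; linarith
    · have := (hsg b _).trans (abs_le.2 (abs_le_of_sq_le_sq'
        (by nlinarith [sq_nonneg (S.U2 p)] : S.U1 p ^ 2 ≤ (K.M * S.G1 p) ^ 2) h4))
      simp only [cond_true]; linarith
  · rintro ⟨a, b⟩ p hp h0 hC _ hmax
    have ev := hc.evol p hp h0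
    have al := hb.alg hp
    have g := hg p hp
    have hρ := al.ρ_pos
    have hφ := al.φ_pos
    have hφδ : S.φ p ≤ K.δ :=
      (abs_le_of_sq_le_sq' (by linarith [g.σ_le]) hδ.le).2
    have t := ht p hp hφδ
    have hB := mul_le_mul_of_nonneg_right (bar hqR g hρ (hin p hp hC.le))
      (mul_pos hM (hG p hp).1).le
    have jG := (ev.jpow al g.σ_pos (83 / 40) (-47 / 20)).const_mul K.M
    have hcc : (2 * (S.q : ℝ) + 119 / 10 - (47 / 20) ^ 2 * (S.β p ^ 2 * S.ρ p ^ 2)) / S.ρ p ^ 2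
        ≤ 3 * (S.q : ℝ) / S.φ p ^ 2 + 0 := by
      rw [add_zero, div_le_div_iff₀ (by positivity) (by positivity)]
      have a1 := mul_le_mul_of_nonneg_left g.φ_sq_le (by linarith : 0 ≤ 2 * (S.q : ℝ) + 119 / 10)
      have a2 : (2 * (S.q : ℝ) + 119 / 10) * (11 / 10) * S.ρ p ^ 2 ≤ 3 * (S.q : ℝ) * S.ρ p ^ 2 :=
        mul_le_mul_of_nonneg_right (by linarith) (sq_nonneg _)
      have a3 : 0 ≤ S.β p ^ 2 * S.ρ p ^ 2 * S.φ p ^ 2 := by positivity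
      linarith
    have m1 := hmax (true, true)
    have m2 := hmax (true, false)
    have m3 := hmax (false, true)
    have m4 := hmax (false, false)
    have eG : S.σ p ^ (83 / 40 : ℝ) * S.ρ p ^ (-47 / 20 : ℝ) = S.G1 p := rfl
    cases a
    · simp only [cond_true, cond_false] at m1 m2 m3 m4 ⊢
      refine ⟨_, _, 0,
        (2 * (S.q : ℝ) + 119 / 10 - (47 / 20) ^ 2 * (S.β p ^ 2 * S.ρ p ^ 2)) / S.ρ p ^ 2,
        (ev.jU2.const_mul (cond b 1 (-1))).sub jG, ?_, by simp, hcc⟩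
      have hz : |cond b 1 (-1) * S.U1 p| ≤ cond b 1 (-1) * S.U2 p := by
        rw [hsa, abs_le]; constructor <;> linarith
      have r := row (k := 2 * (S.A p / S.φ p) ^ 2) (by positivity) hz (pow_pos hρ 2)
        (coef2 hqR hqK g t al)
      rw [mul_div_cancel_left₀ _ (pow_pos hρ 2).ne', mul_div_cancel_left₀ _ (pow_pos hρ 2).ne'] at r
      rw [eG]
      linarith
    · simp only [cond_true, cond_false] at m1 m2 m3 m4 ⊢
      refine ⟨_, _, 0,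
        (2 * (S.q : ℝ) + 119 / 10 - (47 / 20) ^ 2 * (S.β p ^ 2 * S.ρ p ^ 2)) / S.ρ p ^ 2,
        (ev.jU1.const_mul (cond b 1 (-1))).sub jG, ?_, by simp, hcc⟩
      have hz : |cond b 1 (-1) * S.U2 p| ≤ cond b 1 (-1) * S.U1 p := by
        rw [hsa, abs_le]; constructor <;> linarith
      have r := row (k := 2 * (S.q : ℝ) * (S.A p / S.φ p) ^ 2) (by positivity) hz (pow_pos hρ 2)
        (coef1 hqR hqK g t al)
      rw [mul_div_cancel_left₀ _ (pow_pos hρ 2).ne', mul_div_cancel_left₀ _ (pow_pos hρ 2).ne'] at r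
      rw [eG]
      linarith

end Vale.Agent.P244Z.W
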