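import Vale.Agent.N244X.QD
import Vale.Agent.N244X.QR
import Vale.Agent.N244X.QU1
import Vale.Agent.N244X.QU2

/-!
# P244, large `q` design: the bootstrap bounds improve, given the control of the modes
-/

open Set Real Filter Topology

namespace Vale.Agent.P244Z.W

theorem grad (K : Consts) : Ev K (fun S _ t1 => ∀ p ∈ strip t1, Grad K S p ∧ |S.P p| ≤ 2) :=
  grad_of K (geo0 K) (trap K)

theorem rbound (K : Consts) : Ev K (fun S _ t1 => ∀ p ∈ strip t1, |S.R p| ≤ K.N) :=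
  rbound_of K (geo0 K)

theorem ubound (K : Consts) : Ev K (fun S _ t1 => ∀ p ∈ strip t1,
    |S.U1 p| ≤ K.M * (S.G1 p + S.G2 p) ∧ |S.U2 p| ≤ K.M * (S.G1 p + S.G2 p)) :=
  ubound_of K (geo0 K) (trap K) (ubound_out K)

theorem dbound (K : Consts) : Ev K (fun S _ t1 => (∀ p ∈ strip t1, Mid K S p) →
    ∀ p ∈ strip t1, |S.E p| ≤ 2 * K.am * (S.F1 K p + S.F2 K p) ∧ -(1 / 20) ≤ S.E p ∧
      K.am * S.σ p ^ 3 ≤ 2 * S.ρ p ^ 2 ∧ (S.X p ≤ 1 → S.E p ≤ 2 * K.am * S.F1 K p)) :=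
  (((geo0 K).and (trap K)).and ((Ev.small_one K (1 / K.δ ^ 2) one_pos).and (grad K))).mono
    fun _ _ _ _ h h1 hm => dbound_of h h1.1.1 h1.1.2 (by
      have h2 := h1.2.1
      rwa [one_div, inv_mul_le_iff₀ (pow_pos h.boot.ok.δ_pos 2), mul_one] at h2)
      (fun p hp => (h1.2.2 p hp).1) hm

/-- The improvement of the bounds for one set of constants. -/
theorem improve_one (K : Consts) {Pr : Data → Set ℝ → ℝ → Prop}
    (hm : Ev K (fun S J t1 => (∀ p ∈ strip t1, Mid K S p) ∧ Pr S J t1)) :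
    Ev K (fun S J t1 => (∀ p ∈ strip t1, Bds K S 1 p ∧ Geo0 K S p ∧
        (S.φ p ≤ K.δ → Trap K S p) ∧ (S.X p ≤ 1 → S.E p ≤ 2 * K.am * S.F1 K p)) ∧
      (∀ t ∈ Icc 0 t1, Mono K S t) ∧ Pr S J t1) := by
  refine ((((geo0 K).and (trap K)).and ((mono K).and (grad K))).and
    (((rbound K).and (ubound K)).and ((dbound K).and hm))).mono ?_
  rintro S J t1 d _ ⟨⟨⟨hg, ht⟩, hmo, hG⟩, ⟨hR, hU⟩, hD, hM, hP⟩
  refine ⟨fun p hp => ?_, hmo, hP⟩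
  obtain ⟨d1, d2, d3, d4⟩ := hD hM p hp
  refine ⟨⟨?_, ?_, ?_, ?_, d2, ?_, ?_, (hg p hp).A_le⟩, hg p hp, ht p hp, d4⟩
  · rw [one_mul]; exact (hU p hp).1
  · rw [one_mul]; exact (hU p hp).2
  · rw [one_mul]; exact hR p hp
  · rw [mul_one]; exact d1
  · rw [mul_one]; exact d3
  · linarith [(hG p hp).2]

theorem improve_of (q : ℕ) (th : ℝ)
    (hm : ∃ ε0 > 0, ∀ K : Consts, K.q = q → K.th = th → K.ε ≤ ε0 →
      Ev K (fun S _ t1 => (∀ p ∈ strip t1, Mid K S p) ∧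
        ∀ t ∈ Ioc 0 t1, (K.ε * K.am / 2) ^ 2 ≤ S.Eu K t →
          ∃ e' > 0, HasDerivAt (S.Eu K) e' t)) :
    ∃ ε0 > 0, ∀ K : Consts, K.q = q → K.th = th → K.ε ≤ ε0 →
      Ev K (fun S _ t1 => (∀ p ∈ strip t1, Bds K S 1 p ∧ Geo0 K S p ∧
          (S.φ p ≤ K.δ → Trap K S p) ∧ (S.X p ≤ 1 → S.E p ≤ 2 * K.am * S.F1 K p)) ∧
        (∀ t ∈ Icc 0 t1, Mono K S t) ∧
        ∀ t ∈ Ioc 0 t1, (K.ε * K.am / 2) ^ 2 ≤ S.Eu K t →
          ∃ e' > 0, HasDerivAt (S.Eu K) e' t) := by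
  obtain ⟨ε0, h0, h⟩ := hm
  exact ⟨ε0, h0, fun K h1 h2 h3 => improve_one K (h K h1 h2 h3)⟩

end Vale.Agent.P244Z.W
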