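import Vale.Agent.N244X.QLag
import Vale.Agent.P244Z.QGap

/-!
# P244, large `q` design: integration by parts, the spectral gap, and the pointwise estimate
-/

open Set Real Filter Topology MeasureTheory

namespace Vale.Agent.P244Z.W

variable {K : Consts} {V V1 V2 : ℝ → ℝ}

namespace Ma

open Q.Gap

/-- first derivative of the modes -/
noncomputable def L1 (K : Consts) (j : ℕ) (X : ℝ) : ℝ :=
  K.lc j 1 + 2 * K.lc j 2 * X + 3 * K.lc j 3 * X ^ 2

/-- second derivative of the modes -/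
noncomputable def L2 (K : Consts) (j : ℕ) (X : ℝ) : ℝ := 2 * K.lc j 2 + 6 * K.lc j 3 * X

theorem hd_lag (K : Consts) (j : ℕ) (X : ℝ) : HasDerivAt (K.Lag j) (L1 K j X) X := by
  rw [funext (Lag_eq K j)]
  have h := ((((hasDerivAt_id X).const_mul (K.lc j 1)).const_add (K.lc j 0)).add
    ((hasDerivAt_pow 2 X).const_mul (K.lc j 2))).add ((hasDerivAt_pow 3 X).const_mul (K.lc j 3))
  refine HasDerivAt.congr_deriv h ?_
  unfold L1
  push_cast
  ring

theorem hd_L1 (K : Consts) (j : ℕ) (X : ℝ) : HasDerivAt (L1 K j) (L2 K j X) X := by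
  have h := (((hasDerivAt_id X).const_mul (2 * K.lc j 2)).const_add (K.lc j 1)).add
    ((hasDerivAt_pow 2 X).const_mul (3 * K.lc j 3))
  refine HasDerivAt.congr_deriv h ?_
  unfold L2
  push_cast
  ring

theorem eigen (hK : K.OK) {j : ℕ} (hj : j < 4) (X : ℝ) :
    X * L2 K j X + (K.nu - K.cc * X) * L1 K j X = -K.cc * j * K.Lag j X := by
  have h0 := hK.nu_pos
  rw [Lag_eq]
  unfold L1 L2
  interval_cases j <;> simp only [Consts.lc] <;> field_simp <;> ring

theorem pb_lag (K : Consts) (j : ℕ) : PB (K.Lag j) :=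
  ((((PB.const _).add (PB.id.cmul _)).add ((PB.id.pow 2).cmul _)).add
    ((PB.id.pow 3).cmul _)).congr fun X _ => Lag_eq K j X

theorem pb_L1 (K : Consts) (j : ℕ) : PB (L1 K j) :=
  ((PB.const _).add (PB.id.cmul _)).add ((PB.id.pow 2).cmul _)

theorem pb_sum {F : ℕ → ℝ → ℝ} (hF : ∀ j, PB (F j)) (β : ℕ → ℝ) (n : ℕ) :
    PB fun X => ∑ j ∈ Finset.range n, β j * F j X := by
  induction n with
  | zero => simpa using PB.const 0
  | succ n ih => simpa only [Finset.sum_range_succ] using ih.add ((hF n).cmul _)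

theorem pb_V (hV : Adm V V1 V2) : PB V := by
  obtain ⟨C, hC⟩ := hV.bd
  exact PB.of_bdd (fun X hX => (hV.d1 X hX).continuousAt.continuousWithinAt)
    fun X hX => (hC X hX).1

theorem pb_V1 (hV : Adm V V1 V2) : PB fun X => X * V1 X := by
  obtain ⟨C, hC⟩ := hV.bd
  refine PB.of_bdd (C := C)
    (fun X hX => (continuousAt_id.mul (hV.d2 X hX).continuousAt).continuousWithinAt) fun X hX => ?_
  have := (hC X hX).2
  rw [le_div_iff₀ hX] at this
  rwa [abs_mul, abs_of_pos hX, mul_comm]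

theorem pg_L (K : Consts) (hV : Adm V V1 V2) :
    PG fun X => X * V2 X + (K.nu - K.cc * X) * V1 X := by
  obtain ⟨C, hC⟩ := hV.bd
  obtain ⟨C2, hC2⟩ := hV.bd2
  obtain ⟨X0, hX0⟩ := hV.supp
  have c1 : ContinuousOn V1 (Ioi 0) := fun X hX => (hV.d2 X hX).continuousAt.continuousWithinAt
  have hC0 : 0 ≤ C := (abs_nonneg _).trans (hC 1 one_pos).1
  refine PG.add ⟨?_, |X0| * C2, fun X hX => ?_⟩
    ⟨(ContinuousOn.mul (by fun_prop) c1).aestronglyMeasurable measurableSet_Ioi,
      |K.nu| * C + |K.cc| * C, fun X hX => ?_⟩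
  · refine continuous_id.aestronglyMeasurable.mul
      ((measurable_deriv V1).aestronglyMeasurable.congr ?_)
    filter_upwards [ae_restrict_mem measurableSet_Ioi] with X hX using (hV.d2 X hX).deriv
  · have := hC2.nonneg
    rcases le_total X0 X with h | h
    · simp only [(hX0 X h).2.2, mul_zero, abs_zero]; positivity
    · rw [abs_mul, mul_assoc]
      exact mul_le_mul (abs_le_abs_of_nonneg hX.le h) (hC2 X hX) (abs_nonneg _) (abs_nonneg _)
  · have h1 := inv_pow_le_grow hX (k := 1) (by norm_num)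
    have h2 := one_le_grow hX
    have h3 : |K.nu - K.cc * X| ≤ |K.nu| + |K.cc| * X := by
      refine (abs_sub _ _).trans (le_of_eq ?_)
      rw [abs_mul, abs_of_pos hX]
    rw [pow_one] at h1
    calc |(K.nu - K.cc * X) * V1 X| ≤ (|K.nu| + |K.cc| * X) * (C / X) := by
          rw [abs_mul]; gcongr; exact (hC X hX).2
      _ = |K.nu| * C * X⁻¹ + |K.cc| * C * 1 := by field_simp
      _ ≤ |K.nu| * C * ((X ^ 8)⁻¹ + X ^ 12) + |K.cc| * C * ((X ^ 8)⁻¹ + X ^ 12) := by gcongr
      _ = _ := by ring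

theorem nu_gt (hK : K.OK) : 1 < K.nu := by linarith [hK.nu_big]

theorem comb_eq (hK : K.OK) (γ : ℕ → ℝ) (X : ℝ) : ∑ j ∈ Finset.range 4, γ j * K.Lag j X =
    ∑ j ∈ Finset.range 4, γ j * √(K.hL j) * K.en j X :=
  Finset.sum_congr rfl fun j hj => by
    have := sqrt_pos.2 (hL_pos hK (Finset.mem_range.1 hj))
    unfold Consts.en
    field_simp

theorem pow_comb (hK : K.OK) {j : ℕ} (hj : j < 4) :
    ∃ γ : ℕ → ℝ, ∀ X : ℝ, X ^ j = ∑ i ∈ Finset.range 4, γ i * K.Lag i X := by
  have h0 := hK.nu_pos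
  have hc := hK.cc_pos
  refine ⟨fun i => (∏ k ∈ Finset.range j, (K.nu + k)) / K.cc ^ j * ((-1) ^ i * j.choose i),
    fun X => ?_⟩
  interval_cases j <;>
    simp [Finset.sum_range_succ, Finset.prod_range_succ, Consts.Lag, Nat.choose] <;>
    field_simp <;> ring

end Ma

open Ma Q.Gap

theorem ibp_mode (hK : K.OK) (hV : Adm V V1 V2) {j : ℕ} (hj : j < 4) :
    K.pr j (fun X => X * V2 X + (K.nu - K.cc * X) * V1 X) = -K.cc * j * K.pr j V := by
  have hν := nu_gt hK
  have hc := hK.cc_pos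
  have h1 := green hν hc (fun X _ => hd_lag K j X) hV.d2
    (((pb_lag K j).mul (pb_V1 hV)).congr fun X _ => by ring)
    ((((pb_L1 K j).mul (pb_V1 hV)).congr fun X _ => by ring).integrable (by linarith) hc)
    ((PG.lag K j).integrable hK (pg_L K hV))
  have h2 := green hν hc hV.d1 (fun X _ => hd_L1 K j X) (PB.id.mul ((pb_V hV).mul (pb_L1 K j)))
    (((pb_V1 hV).mul (pb_L1 K j)).integrable (by linarith) hc)
    ((((pb_V hV).mul ((pb_lag K j).cmul (-K.cc * j))).congr
      fun X _ => by rw [eigen hK hj]).integrable (by linarith) hc)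
  rw [Q.Gap.W_congr (g := fun X => X * L1 K j X * V1 X) (f := fun X => X * V1 X * L1 K j X)
    fun X _ => by ring, ← h1] at h2
  change K.W _ = K.W _ at h2
  unfold Consts.pr
  rw [← mul_div_assoc, ← W_const_mul, W.W_congr K (fun X _ => mul_comm _ _), ← h2]
  congr 1
  exact W.W_congr K fun X _ => by rw [eigen hK hj]; ring

/-- the spectral gap, after integration by parts -/
theorem gap (hK : K.OK) (hV : Adm V V1 V2) :
    K.W (fun X => V X * (X * V2 X + (K.nu - K.cc * X) * V1 X)) ≤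
      -(∑ j ∈ Finset.range 4, K.cc * j * K.pr j V ^ 2) - 4 * K.cc * K.st V := by
  have hν := nu_gt hK
  have hν0 := hK.nu_pos
  have hc := hK.cc_pos
  set β : ℕ → ℝ := fun j => K.pr j V * (√(K.hL j))⁻¹ with hβ
  set P : ℝ → ℝ := fun X => ∑ j ∈ Finset.range 4, K.pr j V * K.en j X with hP
  set P1 : ℝ → ℝ := fun X => ∑ j ∈ Finset.range 4, β j * L1 K j X with hP1
  set P2 : ℝ → ℝ := fun X => ∑ j ∈ Finset.range 4, β j * L2 K j X with hP2
  have eP : P = fun X => ∑ j ∈ Finset.range 4, β j * K.Lag j X :=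
    funext fun X => Finset.sum_congr rfl fun j _ => (mul_assoc _ _ _).symm
  have dP : ∀ X, HasDerivAt P (P1 X) X := fun X => by
    rw [eP]; exact HasDerivAt.fun_sum fun j _ => (hd_lag K j X).const_mul _
  have dP1 : ∀ X, HasDerivAt P1 (P2 X) X := fun X =>
    HasDerivAt.fun_sum fun j _ => (hd_L1 K j X).const_mul _
  have bP : PB P := eP ▸ pb_sum (pb_lag K) β 4
  have bP1 : PB P1 := pb_sum (pb_L1 K) β 4
  have eL : ∀ X, X * P2 X + (K.nu - K.cc * X) * P1 X =
      ∑ j ∈ Finset.range 4, -K.cc * j * K.pr j V * K.en j X := fun X => by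
    simp only [hP1, hP2, Finset.mul_sum, ← Finset.sum_add_distrib]
    refine Finset.sum_congr rfl fun j hj => ?_
    have := eigen hK (Finset.mem_range.1 hj) X
    unfold Consts.en
    linear_combination β j * this
  have bL : PB fun X => X * P2 X + (K.nu - K.cc * X) * P1 X :=
    (pb_sum (fun j => (pb_lag K j).cmul (√(K.hL j))⁻¹) _ 4).congr fun X _ => eL X
  have gr : ∀ f f1 : ℝ → ℝ, (∀ X, 0 < X → HasDerivAt f (f1 X) X) → PB f →
      PB (fun X => X * f1 X) → PG f → Q.Gap.W K.nu K.cc (fun X => X * f1 X * P1 X) =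
        ∑ j ∈ Finset.range 4, K.cc * j * K.pr j V * K.pr j f := by
    intro f f1 hd bf bf1 gf
    have h1 := green hν hc hd (fun X _ => dP1 X) (PB.id.mul (bf.mul bP1))
      ((bf1.mul bP1).integrable hν0 hc) ((bf.mul bL).integrable hν0 hc)
    have h2 := ip_comb hK (fun j => -K.cc * j * K.pr j V) gf
    rw [ip_comm] at h2
    simp only [eL] at h1
    change K.ip f _ = _ at h1
    rw [h2] at h1
    simp only [neg_mul, Finset.sum_neg_distrib] at h1
    linarith
  have gf : PG (K.sp V) := hV.pg.sp K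
  have df : ∀ X, 0 < X → HasDerivAt (K.sp V) (V1 X - P1 X) X := fun X hX => (hV.d1 X hX).sub (dP X)
  have bf : PB (K.sp V) := (pb_V hV).sub bP
  have bf1 : PB fun X => X * (V1 X - P1 X) :=
    ((pb_V1 hV).sub (PB.id.mul bP1)).congr fun X _ => by ring
  have h1 := ladder hc 4 K.nu _ _ hν df bf bf1 fun j hj => by
    obtain ⟨γ, hγ⟩ := pow_comb hK hj
    simp only [hγ, comb_eq hK]
    refine (ip_comb hK _ gf).trans (Finset.sum_eq_zero fun i hi => ?_)
    rw [pr_sp hK hV.pg (Finset.mem_range.1 hi), mul_zero]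
  have h2 := gr _ _ df bf bf1 gf
  rw [Finset.sum_eq_zero fun i hi => by
    rw [pr_sp hK hV.pg (Finset.mem_range.1 hi), mul_zero]] at h2
  have h3 := gr _ _ (fun X _ => dP X) bP (PB.id.mul bP1) (PG.comb K fun j => K.pr j V)
  rw [Finset.sum_congr rfl fun i hi => by
    rw [hP, pr_comb hK (fun j => K.pr j V) (Finset.mem_range.1 hi), mul_assoc, ← sq]] at h3
  have h4 := green hν hc hV.d1 hV.d2 (((pb_V hV).mul (pb_V1 hV)).congr fun X _ => by ring)
    (PB.integrable' (((pb_V1 hV).pow 2).congr fun X _ => by ring) hν hc)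
    (hV.pg.integrable hK (pg_L K hV))
  have h5 := W_lin3 (f := fun X => X * (V1 X - P1 X) ^ 2) (g := fun X => X * (V1 X - P1 X) * P1 X)
    (h := fun X => X * P1 X * P1 X) hν hc ((bf1.pow 2).congr fun X _ => by ring)
    (PB.id.mul (bf1.mul bP1)) (PB.id.mul ((PB.id.mul bP1).mul bP1)) 1 2 1
  rw [Q.Gap.W_congr (g := fun X => X * V1 X * V1 X) fun X _ => by ring, h2, h3] at h5
  rw [st_eq hK hV.pg, ip_self]
  change Q.Gap.W K.nu K.cc _ ≤ _ - 4 * K.cc * Q.Gap.W K.nu K.cc _
  push_cast at h1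
  linarith

/-- from the mean square to the pointwise estimate -/
theorem pointwise (q : ℕ) (th C6 : ℝ) : ∃ ε0 > 0, ∀ (K : Consts) (V V1 V2 : ℝ → ℝ), K.OK →
    K.q = q → K.th = th → K.ε ≤ ε0 → Adm V V1 V2 →
    (∀ X ∈ Icc (1 / 2) (32 * (q : ℝ)), |V1 X| ≤ C6 * K.am) →
    ∑ j ∈ Finset.range 3, K.pr j V ^ 2 ≤ (3 * K.ε * K.am) ^ 2 →
    |K.pr 3 V - K.am * √(K.hL 3)| ≤ K.ε * K.am / 5 → K.st V ≤ (K.ε * K.am / 5) ^ 2 →
    ∀ X ∈ Icc 1 (16 * (q : ℝ)), |V X - K.am * K.Lag 3 X| ≤ K.am / 10 := by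
  set K0 : Consts := ⟨q, th, 0, 0, 0, 0, 0⟩ with hK0
  have hq0 : (0 : ℝ) ≤ q := Nat.cast_nonneg q
  obtain ⟨C7, hC7⟩ := (isCompact_Icc (a := (1 : ℝ)) (b := 16 * q + 1)).exists_bound_of_continuousOn
    (f := L1 K0 3) fun X _ => (hd_L1 K0 3 X).continuousAt.continuousWithinAt
  obtain ⟨Y, hY, hmin⟩ := (isCompact_Icc (a := (1 : ℝ)) (b := 16 * q + 1)).exists_isMinOn
    (f := K0.wgt) (nonempty_Icc.2 (by linarith))
    ((w_cont K0.nu K0.cc).mono fun X hX => lt_of_lt_of_le one_pos hX.1)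
  have hm : 0 < K0.wgt Y := wgt_pos K0 (lt_of_lt_of_le one_pos hY.1)
  obtain ⟨L, hL⟩ : ∃ L, L = |C6| + |C7| + 1 := ⟨_, rfl⟩
  have hL1 : 1 ≤ L := by linarith [abs_nonneg C6, abs_nonneg C7]
  obtain ⟨h, hh⟩ : ∃ h, h = 1 / (20 * L) := ⟨_, rfl⟩
  have hh0 : 0 < h := by rw [hh]; positivity
  have hLh : L * h = 1 / 20 := by rw [hh]; field_simp
  have hh1 : h ≤ 1 := by nlinarith
  refine ⟨h * K0.wgt Y / 8000, by positivity, ?_⟩
  intro K V V1 V2 hK hq hth hε hV hV1 h3 h4 h5 X hX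
  have ham := hK.am_pos
  have hε0 := hK.ε_pos
  have enu : K.nu = K0.nu := by unfold Consts.nu; rw [hq, hth]
  have ecc : K.cc = K0.cc := by unfold Consts.cc; rw [hq]
  have ew : K.wgt = K0.wgt := by funext X; unfold Consts.wgt; rw [enu, ecc]
  have eL : L1 K 3 = L1 K0 3 := by funext X; simp only [L1, Consts.lc, enu, ecc]
  have hq1 := hK.q_ge'
  rw [hq] at hq1
  set r : ℝ → ℝ := fun X => V X - K.am * K.Lag 3 X with hr
  have gr : PG r := hV.pg.sub ((PG.lag K 3).const_mul _)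
  have hs := sqrt_pos.2 (hL_pos hK (j := 3) (by norm_num))
  set α : ℕ → ℝ := fun j => if j = 3 then -(K.am * √(K.hL 3)) else 0 with hα
  have er : r = fun X => ∑ j ∈ Finset.range 4, α j * K.en j X + V X := by
    funext X
    simp only [hr, hα, Finset.sum_range_succ, Finset.sum_range_zero, Consts.en]
    norm_num
    field_simp
    ring
  have n1 : K.ip r r ≤ 10 * (K.ε * K.am) ^ 2 := by
    have a1 : K.st r = K.st V := by rw [er]; exact st_comb_add hK α hV.pg
    have a2 : ∀ j < 4, K.pr j r = α j + K.pr j V := fun j hj => by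
      rw [er, pr_add hK j (PG.comb K α) hV.pg, pr_comb hK α hj]
    have a3 : K.st r = K.ip r r - ∑ j ∈ Finset.range 4, K.pr j r ^ 2 := by rw [ip_self]; rfl
    rw [Finset.sum_congr rfl fun j hj => by rw [a2 j (Finset.mem_range.1 hj)]] at a3
    simp only [hα, Finset.sum_range_succ, Finset.sum_range_zero] at a3 h3
    norm_num at a3 h3
    have a4 := pow_le_pow_left₀ (abs_nonneg _) h4 2
    rw [sq_abs] at a4
    nlinarith [sq_nonneg (K.ε * K.am)]
  by_contra hc
  push Not at hc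
  change K.am / 10 < |r X| at hc
  have sub : Icc X (X + h) ⊆ Icc 1 (16 * q + 1) := Icc_subset_Icc hX.1 (by linarith [hX.2])
  have lip : ∀ s ∈ Icc X (X + h), K.am / 20 ≤ |r s| := fun s hs => by
    have k1 := norm_image_sub_le_of_norm_deriv_le_segment' (f := r)
      (f' := fun s => V1 s - K.am * L1 K 3 s) (a := X) (b := X + h) (C := L * K.am)
      (fun s hs => ((hV.d1 s (lt_of_lt_of_le one_pos (sub hs).1)).sub
        ((hd_lag K 3 s).const_mul _)).hasDerivWithinAt)
      (fun s hs => by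
        have hs' := sub (Ico_subset_Icc_self hs)
        have b1 := hV1 s ⟨by linarith [hs'.1], by linarith [hs'.2]⟩
        have b2 := hC7 s hs'
        rw [Real.norm_eq_abs] at b2 ⊢
        refine (abs_sub _ _).trans ?_
        rw [abs_mul, abs_of_pos ham, eL, hL]
        nlinarith [mul_le_mul_of_nonneg_left (b2.trans (le_abs_self C7)) ham.le,
          mul_le_mul_of_nonneg_right (le_abs_self C6) ham.le]) s hs
    rw [Real.norm_eq_abs] at k1
    have k2 : L * K.am * (s - X) ≤ L * K.am * h := by gcongr; linarith [hs.2]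
    have k3 := abs_sub_abs_le_abs_sub (r X) (r s)
    have k4 : L * K.am * h = K.am / 20 := by linear_combination K.am * hLh
    rw [abs_sub_comm (r X)] at k3
    linarith
  have sub0 : Icc X (X + h) ⊆ Ioi 0 := fun s hs => lt_of_lt_of_le one_pos (sub hs).1
  have i1 := gr.integrable hK gr
  have n2 := setIntegral_ge_of_const_le (μ := volume) (c := (K.am / 20) ^ 2 * K0.wgt Y)
    measurableSet_Icc (by simp) (fun s hs => by
      have b1 := pow_le_pow_left₀ (by positivity) (lip s hs) 2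
      rw [sq_abs, sq (r s)] at b1
      rw [ew]
      exact mul_le_mul b1 (hmin (sub hs)) hm.le (mul_self_nonneg _)) (i1.mono_set sub0)
  have n3 := setIntegral_mono_set i1 (by
    filter_upwards [ae_restrict_mem measurableSet_Ioi] with s hs
    exact mul_nonneg (mul_self_nonneg _) (wgt_pos K hs).le) sub0.eventuallyLE
  change _ ≤ K.ip r r at n3
  rw [Real.volume_real_Icc_of_le (by linarith), add_sub_cancel_left, smul_eq_mul] at n2
  have n4 : K.ε ^ 2 ≤ h * K0.wgt Y / 8000 := by nlinarith [hK.ε_le]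
  have n5 := mul_le_mul_of_nonneg_right n4 (sq_nonneg K.am)
  have n6 : 0 < h * K0.wgt Y * K.am ^ 2 := by positivity
  nlinarith

end Vale.Agent.P244Z.W
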