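import Vale.Agent.N244X.QMd
import Mathlib.MeasureTheory.Function.JacobianOneDim
import Mathlib.Analysis.Calculus.Deriv.Inverse
import Mathlib.Topology.Order.MonotoneContinuity

/-!
# P244, large `q` design: the coordinate `X`
-/

open Set Real Filter Topology MeasureTheory
open scoped ContDiff

namespace Vale.Agent.P244Z.W

variable {S : Data} {J : Set ℝ} {K : Consts} {t : ℝ}

namespace MbAux

open EvolAux MdAux

theorem A_pos (h : Slice K S J t) {θ : ℝ} (hθ : θ ∈ Ioc 0 (π / 2)) (hδ : S.φ (θ, t) ≤ K.δ)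
    {x : ℝ} (hx : x ∈ Icc 0 θ) : 0 < S.A (x, t) := by
  have h1 := ((h.mono θ hθ hδ).2 x hx).2
  have hq : (47 : ℝ) ≤ K.q := by exact_mod_cast h.ok.q_ge
  have h2 : 21 / (K.q : ℝ) < 1 := by rw [div_lt_one (by linarith)]; linarith
  linarith

theorem φ_mono (h : Slice K S J t) {θ : ℝ} (hθ : θ ∈ Ioc 0 (π / 2)) (hδ : S.φ (θ, t) ≤ K.δ) :
    StrictMonoOn (fun x => S.φ (x, t)) (Icc 0 θ) := by
  have hd := fun x => h.sol.hasDerivAt_slice h.sol.sm_φ x h.mem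
  refine strictMonoOn_of_deriv_pos (convex_Icc _ _)
    (fun x _ => (hd x).continuousAt.continuousWithinAt) fun x hx => ?_
  rw [(hd x).deriv]
  exact mul_pos (h.sol.l_pos t h.mem) (A_pos h hθ hδ (interior_subset hx))

theorem hasDerivAt_X (h : Slice K S J t) (θ : ℝ) :
    HasDerivAt (fun x => S.X (x, t)) (d1 S.X (θ, t)) θ ∧
      d1 S.X (θ, t) = 2 * S.φ (θ, t) * (S.l t * S.A (θ, t)) / S.sg t := by
  have h1 := ((h.sol.hasDerivAt_slice h.sol.sm_φ θ h.mem).pow 2).div_const (S.sg t)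
  exact ⟨h1.differentiableAt.hasDerivAt, h1.deriv.trans (by simp [Data.A])⟩

theorem φ_pos' (h : Slice K S J t) {θ : ℝ} (hθ : θ ∈ Ioc 0 (π / 2)) : 0 < S.φ (θ, t) :=
  h.sol.φ_pos θ ⟨hθ.1, by linarith [hθ.2, pi_pos]⟩ t h.mem

theorem dX_pos (h : Slice K S J t) {θ : ℝ} (hθ : θ ∈ Ioc 0 (π / 2)) (hδ : S.φ (θ, t) ≤ K.δ) :
    0 < d1 S.X (θ, t) := by
  rw [(hasDerivAt_X h θ).2]
  have := φ_pos' h hθ
  have := h.sol.l_pos t h.mem
  have := A_pos h hθ hδ ⟨hθ.1.le, le_rfl⟩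
  have := h.sg_pos
  positivity

theorem exists_star (h : Slice K S J t) : ∃ b ∈ Ioo 0 (π / 2), S.φ (b, t) = K.δ ∧
    ∀ θ ∈ Ioc 0 (π / 2), (S.φ (θ, t) < K.δ ↔ θ < b) := by
  have hπ : (0 : ℝ) < π / 2 := by positivity
  have h1 : K.δ < S.φ (π / 2, t) := not_le.1 fun h1 => lt_irrefl _ (h.mono _ ⟨hπ, le_rfl⟩ h1).1
  have hc : ContinuousOn (fun x => S.φ (x, t)) (Icc 0 (π / 2)) := fun x _ =>
    (h.sol.hasDerivAt_slice h.sol.sm_φ x h.mem).continuousAt.continuousWithinAt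
  obtain ⟨b, hb, e⟩ := intermediate_value_Ioo hπ.le hc
    (show K.δ ∈ Ioo _ _ from ⟨by simpa [h.sol.φ_zero h.mem] using h.ok.δ_pos, h1⟩)
  dsimp only at e
  refine ⟨b, hb, e, fun θ hθ => ⟨fun h2 => ?_, fun h2 => ?_⟩⟩
  · by_contra h3
    have := (φ_mono h hθ h2.le).monotoneOn ⟨hb.1.le, not_lt.1 h3⟩ ⟨hθ.1.le, le_rfl⟩ (not_lt.1 h3)
    linarith
  · rw [← e]
    exact φ_mono h ⟨hb.1, hb.2.le⟩ e.le ⟨hθ.1.le, h2.le⟩ ⟨hb.1.le, le_rfl⟩ h2

theorem sm_slice {F : ℝ × ℝ → ℝ} (hF : ContDiffOn ℝ ∞ F (univ ×ˢ J)) (ht : t ∈ J) :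
    ContDiff ℝ ∞ fun x => F (x, t) :=
  contDiffOn_univ.1 (hF.comp (f := fun x : ℝ => (x, t)) (by fun_prop) fun _ _ => ⟨trivial, ht⟩)

theorem sm_v_slice (h : Slice K S J t) {θ : ℝ} (hθ : θ ∈ Ioc 0 (π / 2)) :
    ContDiffAt ℝ ∞ (fun x => S.v K (x, t)) θ :=
  (sm_slice (sm_cut h.sol) h.mem).contDiffAt.mul
    ((((sm_slice h.sol.sm_φ h.mem).contDiffAt.rpow_const_of_ne (φ_pos' h hθ).ne').mul
      (sm_slice h.sol.sm_D h.mem).contDiffAt).div_const (S.sg t ^ 3))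

theorem vX_slice (h : Slice K S J t) {θ : ℝ} (hθ : θ ∈ Ioc 0 (π / 2)) (hδ : S.φ (θ, t) ≤ K.δ) :
    DifferentiableAt ℝ (fun x => S.vX K (x, t)) θ := by
  have h1 : ContDiffAt ℝ ∞ (deriv fun x => S.v K (x, t)) θ :=
    (sm_v_slice h hθ).derivWithin (by simp)
  have h2 : ContDiff ℝ ∞ fun x => S.X (x, t) :=
    ((sm_slice h.sol.sm_φ h.mem).pow 2).div_const (S.sg t)
  have h3 : ContDiffAt ℝ ∞ (deriv fun x => S.X (x, t)) θ := h2.contDiffAt.derivWithin (by simp)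
  exact ((h1.differentiableAt (by simp)).div_const (S.l t)).div
    ((h3.differentiableAt (by simp)).div_const (S.l t))
    (div_pos (dX_pos h hθ hδ) (h.sol.l_pos t h.mem)).ne'

theorem zero_near (h : Slice K S J t) {θ : ℝ} (hδ : K.δ / 2 < S.φ (θ, t)) :
    S.v K (θ, t) = 0 ∧ d1 (S.v K) (θ, t) = 0 ∧ S.vX K (θ, t) = 0 := by
  have hc := (h.sol.hasDerivAt_slice h.sol.sm_φ θ h.mem).continuousAt
  have h1 : (fun x => S.v K (x, t)) =ᶠ[𝓝 θ] fun _ => 0 := by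
    filter_upwards [hc.eventually (lt_mem_nhds hδ)] with x hx
    exact v_zero h.ok hx.le
  have h2 : d1 (S.v K) (θ, t) = 0 := h1.deriv_eq.trans (deriv_const _ _)
  exact ⟨v_zero h.ok hδ.le, h2, by simp only [Data.vX, Data.Ds, h2, zero_div]⟩

theorem hasDerivAt_pull (h : Slice K S J t) {Θ : ℝ → ℝ} (hΘ : IsInv K S t Θ) {Y : ℝ}
    (hY : Y ∈ Ioo 0 (K.δ ^ 2 / S.sg t)) {F : ℝ × ℝ → ℝ}
    (hF : DifferentiableAt ℝ (fun x => F (x, t)) (Θ Y)) :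
    HasDerivAt (pull K S t Θ F) (S.Ds F (Θ Y, t) / S.Ds S.X (Θ Y, t)) Y := by
  obtain ⟨h1, -, h3⟩ := hΘ.right Y hY
  have hn : Ioo 0 (K.δ ^ 2 / S.sg t) ∈ 𝓝 Y := isOpen_Ioo.mem_nhds hY
  have hX := (dX_pos h ⟨h1.1, h1.2.le⟩ h3.le).ne'
  have h4 : HasDerivAt Θ (d1 S.X (Θ Y, t))⁻¹ Y :=
    (hasDerivAt_X h (Θ Y)).1.of_local_left_inverse (hΘ.cont.continuousAt hn) hX
      (Eventually.mono hn fun y hy => (hΘ.right y hy).2.1)
  refine ((hF.hasDerivAt.comp Y h4).congr_of_eventuallyEq ?_).congr_deriv ?_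
  · filter_upwards [hn] with y hy
    simp only [pull, hy.2, if_true, Function.comp_apply]
  · have hl := (h.sol.l_pos t h.mem).ne'
    simp only [Data.Ds]
    show d1 F (Θ Y, t) * _ = _
    field_simp

end MbAux

open EvolAux MdAux MbAux

theorem Slice.exists_inv (h : Slice K S J t) : ∃ Θ, IsInv K S t Θ := by
  obtain ⟨b, hb, e, hlt⟩ := exists_star h
  have hm := φ_mono h ⟨hb.1, hb.2.le⟩ e.le
  have hsub : ∀ θ ∈ Ioo 0 b, θ ∈ Ioc 0 (π / 2) := fun θ hθ => ⟨hθ.1, (hθ.2.trans hb.2).le⟩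
  have hn : ∀ θ ∈ Icc 0 b, 0 ≤ S.φ (θ, t) := fun θ hθ =>
    φ_nonneg h.sol (by rw [uIcc_of_le (by positivity)]; exact ⟨hθ.1, hθ.2.trans hb.2.le⟩) h.mem
  have hXm : StrictMonoOn (fun x => S.X (x, t)) (Icc 0 b) := fun x hx y hy hxy =>
    div_lt_div_of_pos_right (pow_lt_pow_left₀ (hm hx hy hxy) (hn x hx) two_ne_zero) h.sg_pos
  have X0 : S.X (0, t) = 0 := by simp [Data.X, h.sol.φ_zero h.mem]
  have Xb : S.X (b, t) = K.δ ^ 2 / S.sg t := by simp only [Data.X, e]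
  have him : (fun x => S.X (x, t)) '' Ioo 0 b = Ioo 0 (K.δ ^ 2 / S.sg t) := by
    refine Subset.antisymm ?_ ?_
    · rintro _ ⟨x, hx, rfl⟩
      rw [← X0, ← Xb]
      exact ⟨hXm (left_mem_Icc.2 hb.1.le) (Ioo_subset_Icc_self hx) hx.1,
        hXm (Ioo_subset_Icc_self hx) (right_mem_Icc.2 hb.1.le) hx.2⟩
    · have := intermediate_value_Ioo (f := fun x => S.X (x, t)) hb.1.le
        fun x _ => (hasDerivAt_X h x).1.continuousAt.continuousWithinAt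
      rwa [X0, Xb] at this
  have hinj : InjOn (fun x => S.X (x, t)) (Ioo 0 b) := (hXm.mono Ioo_subset_Icc_self).injOn
  set Θ := Function.invFunOn (fun x => S.X (x, t)) (Ioo 0 b)
  have hl : ∀ θ ∈ Ioo 0 b, Θ (S.X (θ, t)) = θ := fun θ hθ => hinj.leftInvOn_invFunOn hθ
  have hr : ∀ Y ∈ Ioo 0 (K.δ ^ 2 / S.sg t), Θ Y ∈ Ioo 0 b ∧ S.X (Θ Y, t) = Y := fun Y hY =>
    Function.invFunOn_pos (f := fun x => S.X (x, t)) (him.symm ▸ hY :
      Y ∈ (fun x => S.X (x, t)) '' Ioo 0 b)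
  refine ⟨Θ, fun θ hθ h1 => hl θ ⟨hθ.1, (hlt θ hθ).1 h1⟩, fun Y hY =>
    ⟨⟨(hr Y hY).1.1, (hr Y hY).1.2.trans hb.2⟩, (hr Y hY).2,
      (hlt _ (hsub _ (hr Y hY).1)).2 (hr Y hY).1.2⟩, fun Y hY => ?_, fun F hF => ?_⟩
  · refine (continuousAt_of_monotoneOn_of_image_mem_nhds (s := Ioo 0 (K.δ ^ 2 / S.sg t))
      (fun x hx y hy hxy => ?_) (isOpen_Ioo.mem_nhds hY) ?_).continuousWithinAt
    · refine (hXm.le_iff_le (Ioo_subset_Icc_self (hr x hx).1)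
        (Ioo_subset_Icc_self (hr y hy).1)).1 ?_
      rwa [(hr x hx).2, (hr y hy).2]
    · refine mem_of_superset (isOpen_Ioo.mem_nhds (hr Y hY).1) fun θ hθ => ?_
      exact ⟨_, him ▸ mem_image_of_mem _ hθ, hl θ hθ⟩
  · have e1 := integral_image_eq_integral_abs_deriv_smul (s := Ioo 0 b) measurableSet_Ioo
      (fun x _ => (hasDerivAt_X h x).1.hasDerivWithinAt) hinj (fun Y => F (Θ Y, t) * K.wgt Y)
    rw [him] at e1
    rw [Data.I, Consts.W, intervalIntegral.integral_of_le (by positivity),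
      setIntegral_eq_of_subset_of_forall_sdiff_eq_zero measurableSet_Ioc hsub,
      setIntegral_eq_of_subset_of_forall_sdiff_eq_zero measurableSet_Ioi
        (show Ioo 0 (K.δ ^ 2 / S.sg t) ⊆ Ioi 0 from Ioo_subset_Ioi_self)]
    · refine Eq.trans ?_ (e1.symm.trans ?_)
      · refine setIntegral_congr_fun measurableSet_Ioo fun θ hθ => ?_
        simp only [hl θ hθ, smul_eq_mul,
          abs_of_pos (dX_pos h (hsub θ hθ) ((hlt θ (hsub θ hθ)).2 hθ.2).le)]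
        ring
      · refine setIntegral_congr_fun measurableSet_Ioo fun Y hY => ?_
        simp only [pull, hY.2, if_true]
    · intro Y hY
      have : ¬ Y < K.δ ^ 2 / S.sg t := fun h1 => hY.2 ⟨hY.1, h1⟩
      simp only [pull, this, if_false, zero_mul]
    · intro θ hθ
      rw [hF θ hθ.1 (not_lt.1 fun h1 => hθ.2 ⟨hθ.1.1, (hlt θ hθ.1).1 h1⟩), zero_mul, zero_mul]

theorem Slice.vanish (h : Slice K S J t) {θ : ℝ} (_hθ : θ ∈ Ioc 0 (π / 2))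
    (hδ : K.δ / 2 < S.φ (θ, t)) :
    S.v K (θ, t) = 0 ∧ S.vX K (θ, t) = 0 ∧ S.vXX K (θ, t) = 0 ∧
      (0 < t → S.vdot K (θ, t) = 0) := by
  obtain ⟨h1, h2, h3⟩ := zero_near h hδ
  refine ⟨h1, h3, ?_, fun h0 => ?_⟩
  · have hc := (h.sol.hasDerivAt_slice h.sol.sm_φ θ h.mem).continuousAt
    have h4 : (fun x => S.vX K (x, t)) =ᶠ[𝓝 θ] fun _ => 0 := by
      filter_upwards [hc.eventually (lt_mem_nhds hδ)] with x hx
      exact (zero_near h hx).2.2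
    have h5 : d1 (S.vX K) (θ, t) = 0 := h4.deriv_eq.trans (deriv_const _ _)
    simp only [Data.vXX, Data.Ds, h5, zero_div]
  · have hc := (hd2 (diffAt (h.sol.contDiffAt h.sol.sm_φ (p := (θ, t)) h.mem h0))).continuousAt
    have h4 : (fun s => S.v K (θ, s)) =ᶠ[𝓝 t] fun _ => 0 := by
      filter_upwards [hc.eventually (lt_mem_nhds hδ)] with x hx
      exact v_zero h.ok hx.le
    have h5 : d2 (S.v K) (θ, t) = 0 := h4.deriv_eq.trans (deriv_const _ _)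
    simp only [Data.vdot, Data.Dt, h2, h3, h5, mul_zero, sub_zero, zero_div, zero_mul]

theorem Slice.pull_deriv (h : Slice K S J t) {Θ : ℝ → ℝ} (hΘ : IsInv K S t Θ) {Y : ℝ}
    (hY : 0 < Y) :
    HasDerivAt (pull K S t Θ (S.v K)) (pull K S t Θ (S.vX K) Y) Y ∧
    HasDerivAt (pull K S t Θ (S.vX K)) (pull K S t Θ (S.vXX K) Y) Y := by
  by_cases h1 : Y < K.δ ^ 2 / S.sg t
  · obtain ⟨h2, -, h3⟩ := hΘ.right Y ⟨hY, h1⟩
    simp only [pull, h1, if_true]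
    exact ⟨hasDerivAt_pull h hΘ ⟨hY, h1⟩
        ((sm_v_slice h ⟨h2.1, h2.2.le⟩).differentiableAt (by simp)),
      hasDerivAt_pull h hΘ ⟨hY, h1⟩ (vX_slice h ⟨h2.1, h2.2.le⟩ h3.le)⟩
  · have hδ := h.ok.δ_pos
    have hs := h.sg_pos
    have h2 : (K.δ / 2) ^ 2 / S.sg t < Y :=
      (div_lt_div_of_pos_right (by nlinarith) hs).trans_le (not_lt.1 h1)
    have h3 : ∀ᶠ y in 𝓝 Y, pull K S t Θ (S.v K) y = 0 ∧ pull K S t Θ (S.vX K) y = 0 := by
      filter_upwards [lt_mem_nhds h2, lt_mem_nhds hY] with y y1 y0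
      by_cases y2 : y < K.δ ^ 2 / S.sg t
      · obtain ⟨k1, k2, -⟩ := hΘ.right y ⟨y0, y2⟩
        rw [← k2, Data.X, div_lt_div_iff_of_pos_right hs] at y1
        have k3 := zero_near h (lt_of_pow_lt_pow_left₀ 2 (φ_pos' h ⟨k1.1, k1.2.le⟩).le y1)
        simp only [pull, y2, if_true, k3.1, k3.2.2, and_self]
      · simp only [pull, y2, if_false, and_self]
    have h4 : ∀ F, pull K S t Θ F Y = 0 := fun F => by simp only [pull, h1, if_false]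
    rw [h4, h4]
    exact ⟨(hasDerivAt_const Y 0).congr_of_eventuallyEq (h3.mono fun y hy => hy.1),
      (hasDerivAt_const Y 0).congr_of_eventuallyEq (h3.mono fun y hy => hy.2)⟩

theorem Slice.pull_meas (h : Slice K S J t) (h0 : 0 < t) {Θ : ℝ → ℝ} (hΘ : IsInv K S t Θ) :
    AEStronglyMeasurable (pull K S t Θ (S.err K)) (volume.restrict (Ioi 0)) := by
  have e1 : pull K S t Θ (S.err K) =
      (Iio (K.δ ^ 2 / S.sg t)).indicator fun Y => S.err K (Θ Y, t) := by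
    funext Y
    simp only [pull, indicator, mem_Iio]
  rw [e1, aestronglyMeasurable_indicator_iff measurableSet_Iio,
    Measure.restrict_restrict measurableSet_Iio, inter_comm, Ioi_inter_Iio]
  refine ContinuousOn.aestronglyMeasurable (fun Y hY => ?_) measurableSet_Ioo
  obtain ⟨h1, -, h3⟩ := hΘ.right Y hY
  have hθ : Θ Y ∈ Ioc 0 (π / 2) := ⟨h1.1, h1.2.le⟩
  have hS := h.sol
  have hp : (Θ Y, t) ∈ Om J := ⟨⟨h1.1, by linarith [h1.2, pi_pos]⟩, h.mem, h0⟩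
  have aσ := at_of_on hS hp hS.sm_σ
  have aφ := at_of_on hS hp hS.sm_φ
  have aX : ContDiffAt ℝ ∞ S.X (Θ Y, t) := (aφ.pow 2).div aσ h.sg_pos.ne'
  have a1 : ContDiffAt ℝ ∞ (fun p => S.φ p ^ K.th * S.D p / S.σ p ^ 3) (Θ Y, t) :=
    ((aφ.rpow_const_of_ne (φ_pos' h hθ).ne').mul (at_of_on hS hp hS.sm_D)).div (aσ.pow 3)
      (pow_ne_zero 3 h.sg_pos.ne')
  have av : ContDiffAt ℝ ∞ (S.v K) (Θ Y, t) := (at_of_on hS hp (sm_cut hS)).mul a1
  have hX : S.Ds S.X (Θ Y, t) ≠ 0 := (div_pos (dX_pos h hθ h3.le) (hS.l_pos t h.mem)).ne'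
  have a2 : ContDiffAt ℝ ∞ (S.vX K) (Θ Y, t) := (sm_Ds hS hp av).div (sm_Ds hS hp aX) hX
  have a3 : ContDiffAt ℝ ∞ (S.vXX K) (Θ Y, t) := (sm_Ds hS hp a2).div (sm_Ds hS hp aX) hX
  have a4 : ContDiffAt ℝ ∞ (S.err K) (Θ Y, t) :=
    (aσ.mul ((sm_Dt hS hp av).sub (a2.mul (sm_Dt hS hp aX)))).sub
      ((((aX.mul a3).add ((contDiffAt_const.sub (contDiffAt_const.mul aX)).mul a2)).div_const _).add
        (contDiffAt_const.mul av))
  exact ContinuousAt.comp_continuousWithinAt (f := fun Y => (Θ Y, t)) a4.continuousAt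
    ((hΘ.cont Y hY).prodMk continuousWithinAt_const)

end Vale.Agent.P244Z.W
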