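import Vale.Agent.N244X.QDefs2
import Mathlib.Analysis.Calculus.FDeriv.Symmetric
import Mathlib.Analysis.Calculus.ContDiff.Comp

/-!
# P244, large `q` design: calculus for the evolution equations
-/

open Set Real Filter Topology
open scoped ContDiff

namespace Vale.Agent.P244Z.W.EvolAux

variable {F G : ℝ × ℝ → ℝ} {p : ℝ × ℝ} {S : Data} {J : Set ℝ}

theorem slice1 (hF : DifferentiableAt ℝ F p) :
    HasDerivAt (fun x => F (x, p.2)) (fderiv ℝ F p (1, 0)) p.1 := by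
  have h : HasDerivAt (fun x : ℝ => (x, p.2)) ((1 : ℝ), (0 : ℝ)) p.1 :=
    (hasDerivAt_id p.1).prodMk (hasDerivAt_const p.1 p.2)
  exact HasFDerivAt.comp_hasDerivAt (l := F) (f := fun x : ℝ => (x, p.2)) p.1 hF.hasFDerivAt h

theorem slice2 (hF : DifferentiableAt ℝ F p) :
    HasDerivAt (fun t => F (p.1, t)) (fderiv ℝ F p (0, 1)) p.2 := by
  have h : HasDerivAt (fun t : ℝ => (p.1, t)) ((0 : ℝ), (1 : ℝ)) p.2 :=
    (hasDerivAt_const p.2 p.1).prodMk (hasDerivAt_id p.2)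
  exact HasFDerivAt.comp_hasDerivAt (l := F) (f := fun t : ℝ => (p.1, t)) p.2 hF.hasFDerivAt h

theorem d1_eq (hF : DifferentiableAt ℝ F p) : d1 F p = fderiv ℝ F p (1, 0) := (slice1 hF).deriv

theorem d2_eq (hF : DifferentiableAt ℝ F p) : d2 F p = fderiv ℝ F p (0, 1) := (slice2 hF).deriv

theorem hd1 (hF : DifferentiableAt ℝ F p) : HasDerivAt (fun x => F (x, p.2)) (d1 F p) p.1 := by
  rw [d1_eq hF]; exact slice1 hF

theorem hd2 (hF : DifferentiableAt ℝ F p) : HasDerivAt (fun t => F (p.1, t)) (d2 F p) p.2 := by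
  rw [d2_eq hF]; exact slice2 hF

theorem diffAt (hF : ContDiffAt ℝ ∞ F p) : DifferentiableAt ℝ F p :=
  hF.differentiableAt (by simp)

theorem ev_diff (hF : ContDiffAt ℝ ∞ F p) : ∀ᶠ y in 𝓝 p, DifferentiableAt ℝ F y := by
  have h1 : ContDiffAt ℝ 1 F p := hF.of_le (by exact_mod_cast le_top)
  filter_upwards [h1.eventually (by simp)] with y hy using hy.differentiableAt (by simp)

theorem d1_ev (hF : ContDiffAt ℝ ∞ F p) : d1 F =ᶠ[𝓝 p] fun y => fderiv ℝ F y (1, 0) := by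
  filter_upwards [ev_diff hF] with y hy using d1_eq hy

theorem d2_ev (hF : ContDiffAt ℝ ∞ F p) : d2 F =ᶠ[𝓝 p] fun y => fderiv ℝ F y (0, 1) := by
  filter_upwards [ev_diff hF] with y hy using d2_eq hy

theorem sm_fderiv (hF : ContDiffAt ℝ ∞ F p) : ContDiffAt ℝ ∞ (fderiv ℝ F) p :=
  hF.fderiv_right (by simp)

theorem sm_d1 (hF : ContDiffAt ℝ ∞ F p) : ContDiffAt ℝ ∞ (d1 F) p :=
  ((sm_fderiv hF).clm_apply contDiffAt_const).congr_of_eventuallyEq (d1_ev hF)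

theorem sm_d2 (hF : ContDiffAt ℝ ∞ F p) : ContDiffAt ℝ ∞ (d2 F) p :=
  ((sm_fderiv hF).clm_apply contDiffAt_const).congr_of_eventuallyEq (d2_ev hF)

theorem fderiv_apply_const (hF : ContDiffAt ℝ ∞ F p) (v w : ℝ × ℝ) :
    fderiv ℝ (fun y => fderiv ℝ F y v) p w = fderiv ℝ (fderiv ℝ F) p w v := by
  rw [fderiv_clm_apply ((sm_fderiv hF).differentiableAt (by simp)) (differentiableAt_const v)]
  simp

theorem d2_d1 (hF : ContDiffAt ℝ ∞ F p) : d2 (d1 F) p = d1 (d2 F) p := by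
  rw [d2_eq (diffAt (sm_d1 hF)), d1_eq (diffAt (sm_d2 hF)), (d1_ev hF).fderiv_eq,
    (d2_ev hF).fderiv_eq, fderiv_apply_const hF, fderiv_apply_const hF]
  have h2 : ContDiffAt ℝ 2 F p := hF.of_le (WithTop.coe_le_coe.2 le_top)
  exact (h2.isSymmSndFDerivAt (by simp)).eq _ _

theorem d1_congr (h : F =ᶠ[𝓝 p] G) : d1 F p = d1 G p := by
  have : Tendsto (fun x : ℝ => (x, p.2)) (𝓝 p.1) (𝓝 p) :=
    (continuous_id.prodMk continuous_const).continuousAt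
  exact Filter.EventuallyEq.deriv_eq (this.eventually h)

theorem Ds_congr (h : F =ᶠ[𝓝 p] G) : S.Ds F p = S.Ds G p := by
  simp only [Data.Ds, d1_congr h]

/-- the open strip -/
def Om (J : Set ℝ) : Set (ℝ × ℝ) := {p | p.1 ∈ Ioo 0 π ∧ p.2 ∈ J ∧ 0 < p.2}

theorem J_nhds (hJ : TimeSet J) {t : ℝ} (ht : t ∈ J) (h0 : 0 < t) : J ∈ 𝓝 t := by
  obtain ⟨t', ht', h⟩ := hJ.up t ht
  exact mem_of_superset (Icc_mem_nhds h0 h) (hJ.down t' ht')

theorem Om_nhds (hJ : TimeSet J) (hp : p ∈ Om J) : Om J ∈ 𝓝 p := by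
  have h1 : ∀ᶠ y : ℝ × ℝ in 𝓝 p, y.1 ∈ Ioo 0 π :=
    continuous_fst.continuousAt.eventually (Ioo_mem_nhds hp.1.1 hp.1.2)
  have h2 : ∀ᶠ y : ℝ × ℝ in 𝓝 p, y.2 ∈ J :=
    continuous_snd.continuousAt.eventually (J_nhds hJ hp.2.1 hp.2.2)
  have h3 : ∀ᶠ y : ℝ × ℝ in 𝓝 p, 0 < y.2 :=
    continuous_snd.continuousAt.eventually (lt_mem_nhds hp.2.2)
  filter_upwards [h1, h2, h3] with y a b c using ⟨a, b, c⟩

theorem at_of_on (hS : Sol S J) (hp : p ∈ Om J) (hF : ContDiffOn ℝ ∞ F (univ ×ˢ J)) :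
    ContDiffAt ℝ ∞ F p :=
  hF.contDiffAt (mem_of_superset (Om_nhds hS.time hp) fun _ hy => ⟨trivial, hy.2.1⟩)

theorem sm_l (hS : Sol S J) (hp : p ∈ Om J) : ContDiffAt ℝ ∞ S.l p.2 :=
  hS.sm_l.contDiffAt (J_nhds hS.time hp.2.1 hp.2.2)

theorem l_ne (hS : Sol S J) (hp : p ∈ Om J) : S.l p.2 ≠ 0 := (hS.l_pos _ hp.2.1).ne'

theorem sm_Ds (hS : Sol S J) (hp : p ∈ Om J) (hF : ContDiffAt ℝ ∞ F p) :
    ContDiffAt ℝ ∞ (S.Ds F) p :=
  (sm_d1 hF).div ((sm_l hS hp).comp p contDiffAt_snd) (l_ne hS hp)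

/-- the heat operator -/
noncomputable def box (S : Data) (F : ℝ × ℝ → ℝ) (p : ℝ × ℝ) : ℝ :=
  S.Dt F p - S.Ds (S.Ds F) p - ((S.q : ℝ) * (S.A p / S.φ p) + 2 * S.β p) * S.Ds F p

theorem DsDs (hF : ContDiffAt ℝ ∞ F p) : S.Ds (S.Ds F) p = d1 (d1 F) p / S.l p.2 ^ 2 := by
  have h := (hd1 (diffAt (sm_d1 hF))).div_const (S.l p.2)
  have : d1 (S.Ds F) p = d1 (d1 F) p / S.l p.2 := h.deriv
  rw [Data.Ds, this, div_div, sq]

theorem jet (hF : ContDiffAt ℝ ∞ F p) : S.Jet F p (S.Ds F p) (box S F p) := by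
  have ht : Tendsto (fun x : ℝ => (x, p.2)) (𝓝 p.1) (𝓝 p) :=
    (continuous_id.prodMk continuous_const).continuousAt
  refine ⟨fun x => d1 F (x, p.2), d1 (d1 F) p, d2 F p, ?_, hd1 (diffAt (sm_d1 hF)),
    (hd2 (diffAt hF)).hasDerivWithinAt, rfl, ?_⟩
  · filter_upwards [ht.eventually (ev_diff hF)] with x hx using hd1 hx
  · rw [box, DsDs hF]; rfl

theorem Ds_of_jet {s b : ℝ} (h : S.Jet F p s b) : S.Ds F p = s := by
  obtain ⟨f1, f2, ft, h1, -, -, rfl, -⟩ := h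
  have : d1 F p = f1 p.1 := h1.self_of_nhds.deriv
  rw [Data.Ds, this]; rfl

theorem jet_Ds {s b : ℝ} (h : S.Jet F p s b) : S.Jet F p (S.Ds F p) b :=
  HasJet.of_eq h (Ds_of_jet h).symm rfl

/-- the commutator -/
theorem comm (hS : Sol S J) (hp : p ∈ Om J) (hF : ContDiffAt ℝ ∞ F p) :
    S.Dt (S.Ds F) p = S.Ds (S.Dt F) p + S.a p * S.Ds F p := by
  have hl := l_ne hS hp
  have hl' : HasDerivAt S.l (deriv S.l p.2) p.2 :=
    ((sm_l hS hp).differentiableAt (by simp)).hasDerivAt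
  have hV := at_of_on hS hp hS.sm_V
  have e1 : d1 (S.Ds F) p = d1 (d1 F) p / S.l p.2 :=
    ((hd1 (diffAt (sm_d1 hF))).div_const (S.l p.2)).deriv
  have e2 : d2 (S.Ds F) p =
      (d2 (d1 F) p * S.l p.2 - d1 F p * deriv S.l p.2) / S.l p.2 ^ 2 :=
    ((hd2 (diffAt (sm_d1 hF))).div hl' hl).deriv
  have e3 : d1 (S.Dt F) p =
      (d1 (d2 F) p - (d1 S.V p * d1 F p + S.V p * d1 (d1 F) p)) / S.l p.2 ^ 2 :=
    (((hd1 (diffAt (sm_d2 hF))).sub ((hd1 (diffAt hV)).mul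
      (hd1 (diffAt (sm_d1 hF))))).div_const (S.l p.2 ^ 2)).deriv
  have e4 : d1 S.V p = S.l p.2 ^ 2 * S.a p + deriv S.l p.2 / S.l p.2 :=
    hS.eq_V p.1 hp.1 p.2 hp.2.1 hp.2.2
  rw [Data.Dt, Data.Ds, Data.Ds, e1, e2, e3, e4, d2_d1 hF]
  field_simp
  ring

theorem sm_Dt (hS : Sol S J) (hp : p ∈ Om J) (hF : ContDiffAt ℝ ∞ F p) :
    ContDiffAt ℝ ∞ (S.Dt F) p :=
  ((sm_d2 hF).sub ((at_of_on hS hp hS.sm_V).mul (sm_d1 hF))).div
    (((sm_l hS hp).comp p contDiffAt_snd).pow 2) (pow_ne_zero 2 (l_ne hS hp))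

theorem φ_pos (hS : Sol S J) (hp : p ∈ Om J) : 0 < S.φ p := hS.φ_pos p.1 hp.1 p.2 hp.2.1

theorem sm_φ (hS : Sol S J) (hp : p ∈ Om J) : ContDiffAt ℝ ∞ S.φ p := at_of_on hS hp hS.sm_φ
theorem sm_u (hS : Sol S J) (hp : p ∈ Om J) : ContDiffAt ℝ ∞ S.u p := at_of_on hS hp hS.sm_u
theorem sm_A (hS : Sol S J) (hp : p ∈ Om J) : ContDiffAt ℝ ∞ S.A p := sm_Ds hS hp (sm_φ hS hp)
theorem sm_β (hS : Sol S J) (hp : p ∈ Om J) : ContDiffAt ℝ ∞ S.β p := sm_Ds hS hp (sm_u hS hp)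

theorem kk_eq (hS : Sol S J) (hp : p ∈ Om J) : S.kk p = (1 - S.A p ^ 2) / S.φ p ^ 2 := by
  rw [eq_div_iff (pow_ne_zero 2 (φ_pos hS hp).ne'), mul_comm]; exact hS.kk_eq p.1 p.2 hp.2.1

theorem vv_eq (hS : Sol S J) (hp : p ∈ Om J) : S.vv p = S.β p / S.φ p := by
  rw [eq_div_iff (φ_pos hS hp).ne', mul_comm]; exact hS.vv_eq p.1 p.2 hp.2.1

theorem hh_eq (hS : Sol S J) (hp : p ∈ Om J) : S.hh p = S.Ds S.A p / S.φ p := by
  rw [eq_div_iff (φ_pos hS hp).ne', mul_comm]; exact hS.hh_eq p.1 p.2 hp.2.1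

/-- the heat operator of an arclength derivative -/
theorem box_Ds (hS : Sol S J) (hp : p ∈ Om J) (hF : ContDiffAt ℝ ∞ F p) :
    box S (S.Ds F) p = S.Ds (box S F) p
      - ((S.q : ℝ) * (S.A p / S.φ p) ^ 2 + 2 * S.β p ^ 2) * S.Ds F p := by
  have hφ := (φ_pos hS hp).ne'
  have j1 := jet (S := S) (sm_Dt hS hp hF)
  have j2 := jet (S := S) (sm_Ds hS hp (sm_Ds hS hp hF))
  have j3 := jet (S := S) (sm_Ds hS hp hF)
  have jA := jet (S := S) (sm_A hS hp)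
  have jφ := jet (S := S) (sm_φ hS hp)
  have jβ := jet (S := S) (sm_β hS hp)
  have j := HasJet.sub (HasJet.sub j1 j2)
    (HasJet.mul (HasJet.add (HasJet.const_mul (S.q : ℝ) (HasJet.div jA jφ hφ))
      (HasJet.const_mul 2 jβ)) j3)
  have e : S.Ds (box S F) p = _ := Ds_of_jet (S := S) (F := box S F) j
  rw [e, box, comm hS hp hF, Data.a, hh_eq hS hp]
  change _ = _ - _ - (((S.q : ℝ) * (S.Ds S.A p / S.φ p - S.A p * S.A p / S.φ p ^ 2)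
    + 2 * S.Ds S.β p) * S.Ds F p + _) - _
  field_simp
  ring

/-- jets of an arclength derivative from a formula for the heat operator near the point -/
theorem jet_step (hS : Sol S J) (hp : p ∈ Om J) (hF : ContDiffAt ℝ ∞ F p)
    (hG : ∀ y ∈ Om J, box S F y = G y) {s b : ℝ} (j : S.Jet G p s b) :
    box S (S.Ds F) p = s - ((S.q : ℝ) * (S.A p / S.φ p) ^ 2 + 2 * S.β p ^ 2) * S.Ds F p := by
  have h : box S F =ᶠ[𝓝 p] G := by
    filter_upwards [Om_nhds hS.time hp] with y hy using hG y hy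
  rw [box_Ds hS hp hF, Ds_congr h, Ds_of_jet j]

end Vale.Agent.P244Z.W.EvolAux
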