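import Vale.Agent.N244X.QMDefs
import Vale.Agent.N244X.QJets
import Vale.Agent.N244X.QEvol0
import Mathlib.Analysis.Calculus.ParametricIntervalIntegral
import Mathlib.MeasureTheory.Integral.DominatedConvergence
import Mathlib.MeasureTheory.Integral.IntervalIntegral.FundThmCalculus
import Mathlib.Analysis.SpecialFunctions.Pow.Deriv

/-!
# P244, large `q` design: time derivatives of the modes
-/

open Set Real Filter Topology MeasureTheory
open scoped ContDiff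

namespace Vale.Agent.P244Z.W

namespace MdAux

open EvolAux

variable {U : Set ℝ} {t b : ℝ} {G H X : ℝ × ℝ → ℝ}

theorem cont_slice {F : Type} [TopologicalSpace F] {f : ℝ × ℝ → F}
    (hf : ContinuousOn f (univ ×ˢ U)) (ht : t ∈ U) : Continuous fun θ => f (θ, t) :=
  hf.comp_continuous (by fun_prop) fun _ => ⟨trivial, ht⟩

theorem diff_of_one (hU : IsOpen U) (hH : ContDiffOn ℝ 1 H (univ ×ˢ U)) {p : ℝ × ℝ}
    (hp : p.2 ∈ U) : DifferentiableAt ℝ H p :=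
  (hH.contDiffAt ((isOpen_univ.prod hU).mem_nhds ⟨trivial, hp⟩)).differentiableAt one_ne_zero

theorem contOn_d (hU : IsOpen U) (hH : ContDiffOn ℝ 1 H (univ ×ˢ U)) :
    ContinuousOn (d1 H) (univ ×ˢ U) ∧ ContinuousOn (d2 H) (univ ×ˢ U) := by
  have h := hH.continuousOn_fderiv_of_isOpen (isOpen_univ.prod hU) le_rfl
  exact ⟨(h.clm_apply continuousOn_const).congr fun p hp => d1_eq (diff_of_one hU hH hp.2),
    (h.clm_apply continuousOn_const).congr fun p hp => d2_eq (diff_of_one hU hH hp.2)⟩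

theorem hasDerivAt_int (hU : IsOpen U) (ht : t ∈ U) (hH : ContDiffOn ℝ 1 H (univ ×ˢ U)) :
    HasDerivAt (fun s => ∫ θ in (0 : ℝ)..b, H (θ, s)) (∫ θ in (0 : ℝ)..b, d2 H (θ, t)) t := by
  obtain ⟨ε, hε, hb⟩ := Metric.nhds_basis_closedBall.mem_iff.1 (hU.mem_nhds ht)
  have hc := (contOn_d hU hH).2
  obtain ⟨C, hC⟩ := ((isCompact_uIcc (a := (0 : ℝ)) (b := b)).prod
    (isCompact_closedBall t ε)).exists_bound_of_continuousOn
    (hc.mono (prod_mono (subset_univ _) hb))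
  refine (intervalIntegral.hasDerivAt_integral_of_dominated_loc_of_deriv_le
    (F := fun s θ => H (θ, s)) (F' := fun s θ => d2 H (θ, s)) (bound := fun _ => C)
    (Metric.closedBall_mem_nhds t hε) ?_ ?_ ?_ ?_ intervalIntegrable_const ?_).2
  · filter_upwards [hU.mem_nhds ht] with s hs
    exact (cont_slice hH.continuousOn hs).aestronglyMeasurable
  · exact (cont_slice hH.continuousOn ht).intervalIntegrable _ _
  · exact (cont_slice hc ht).aestronglyMeasurable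
  · exact Eventually.of_forall fun θ hθ s hs => hC (θ, s) ⟨uIoc_subset_uIcc hθ, hs⟩
  · exact Eventually.of_forall fun θ _ s hs => hd2 (p := (θ, s)) (diff_of_one hU hH (hb hs))

theorem jac_deriv (hU : IsOpen U) (ht : t ∈ U) (hG : ContDiffOn ℝ 1 G (univ ×ˢ U))
    (hX : ContDiffOn ℝ ∞ X (univ ×ˢ U)) (h0 : G (0, t) = 0) (hb : G (b, t) = 0) :
    HasDerivAt (fun s => ∫ θ in (0 : ℝ)..b, G (θ, s) * d1 X (θ, s))
      (∫ θ in (0 : ℝ)..b, (d2 G (θ, t) * d1 X (θ, t) - d1 G (θ, t) * d2 X (θ, t))) t := by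
  have hO := (isOpen_univ (X := ℝ)).prod hU
  have hXa : ∀ p : ℝ × ℝ, p.2 ∈ U → ContDiffAt ℝ ∞ X p := fun p hp =>
    hX.contDiffAt (hO.mem_nhds ⟨trivial, hp⟩)
  have one : (1 : WithTop ℕ∞) ≤ ∞ := by exact_mod_cast le_top
  have hX1 : ContDiffOn ℝ 1 (d1 X) (univ ×ˢ U) := fun p hp =>
    ((sm_d1 (hXa p hp.2)).of_le one).contDiffWithinAt
  have hX2 : ContDiffOn ℝ 1 (d2 X) (univ ×ˢ U) := fun p hp =>
    ((sm_d2 (hXa p hp.2)).of_le one).contDiffWithinAt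
  refine (hasDerivAt_int hU ht (hG.mul hX1)).congr_deriv ?_
  have c1 := cont_slice (contOn_d hU hG).1 ht
  have c2 := cont_slice (contOn_d hU hG).2 ht
  have c3 := cont_slice hX1.continuousOn ht
  have c4 := cont_slice hX2.continuousOn ht
  have c5 := cont_slice hG.continuousOn ht
  have c6 := cont_slice (contOn_d hU hX2).1 ht
  have k1 : ∀ θ, HasDerivAt (fun x => G (x, t) * d2 X (x, t))
      (d1 G (θ, t) * d2 X (θ, t) + G (θ, t) * d1 (d2 X) (θ, t)) θ := fun θ =>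
    (hd1 (p := (θ, t)) (diff_of_one hU hG ht)).mul (hd1 (p := (θ, t)) (diff_of_one hU hX2 ht))
  have k2 := intervalIntegral.integral_eq_sub_of_hasDerivAt (a := 0) (b := b) (fun θ _ => k1 θ)
    (((c1.mul c4).add (c5.mul c6)).intervalIntegrable _ _)
  rw [h0, hb, zero_mul, zero_mul, sub_zero] at k2
  have k3 : ∀ θ, d2 (fun p => G p * d1 X p) (θ, t) =
      (d2 G (θ, t) * d1 X (θ, t) - d1 G (θ, t) * d2 X (θ, t)) +
      (d1 G (θ, t) * d2 X (θ, t) + G (θ, t) * d1 (d2 X) (θ, t)) := by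
    intro θ
    have := ((hd2 (p := (θ, t)) (diff_of_one hU hG ht)).mul
      (hd2 (p := (θ, t)) (diff_of_one hU hX1 ht))).deriv
    rw [d2_d1 (hXa (θ, t) ht)] at this
    exact this.trans (by ring)
  simp only [k3]
  exact (intervalIntegral.integral_add (((c2.mul c3).sub (c1.mul c4)).intervalIntegrable _ _)
    (((c1.mul c4).add (c5.mul c6)).intervalIntegrable _ _)).trans
    ((congrArg _ k2).trans (add_zero _))

theorem jac_local {v : ℝ × ℝ → ℝ} {m : ℝ → ℝ} {m' : ℝ} {p : ℝ × ℝ} (k : ℕ)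
    (h : G =ᶠ[𝓝 p] fun y => v y ^ k * m (X y)) (hv : DifferentiableAt ℝ v p)
    (hX : DifferentiableAt ℝ X p) (hm : HasDerivAt m m' (X p)) :
    d2 G p * d1 X p - d1 G p * d2 X p =
      k * v p ^ (k - 1) * m (X p) * (d2 v p * d1 X p - d1 v p * d2 X p) := by
  have t2 : Tendsto (fun x : ℝ => (p.1, x)) (𝓝 p.2) (𝓝 p) :=
    (continuous_const.prodMk continuous_id).continuousAt
  have e1 : d1 G p = _ := (d1_congr h).trans
    (((hd1 hv).pow k).mul (HasDerivAt.comp (h := fun x => X (x, p.2)) p.1 hm (hd1 hX))).deriv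
  have e0 : d2 G p = d2 (fun y => v y ^ k * m (X y)) p :=
    Filter.EventuallyEq.deriv_eq (t2.eventually h)
  have e2 : d2 G p = _ := e0.trans
    (((hd2 hv).pow k).mul (HasDerivAt.comp (h := fun x => X (p.1, x)) p.2 hm (hd2 hX))).deriv
  rw [e1, e2]
  simp only [Pi.pow_apply, Function.comp_apply]
  ring

theorem contDiff_Lag (K : Consts) (j : ℕ) : ContDiff ℝ ∞ (K.Lag j) := by
  match j with
  | 0 => exact contDiff_const
  | 1 => show ContDiff ℝ ∞ fun X => 1 - K.cc * X / K.nu; fun_prop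
  | 2 =>
    show ContDiff ℝ ∞ fun X => 1 - 2 * K.cc * X / K.nu + (K.cc * X) ^ 2 / (K.nu * (K.nu + 1))
    fun_prop
  | 3 =>
    show ContDiff ℝ ∞ fun X => 1 - 3 * K.cc * X / K.nu + 3 * (K.cc * X) ^ 2 / (K.nu * (K.nu + 1))
      - (K.cc * X) ^ 3 / (K.nu * (K.nu + 1) * (K.nu + 2))
    fun_prop
  | _ + 4 => exact contDiff_const

variable {S : Data} {J : Set ℝ} {K : Consts}

theorem nu_ge (hK : K.OK) : 3 ≤ K.nu := by
  have h1 : (47 : ℝ) ≤ K.q := by exact_mod_cast hK.q_ge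
  have h2 : K.th ≤ 1 := hK.th_le.trans (by rw [div_le_one (by linarith)]; linarith)
  unfold Consts.nu
  linarith

/-- `v ^ k * L (X) * wgt (X)`, written so that it is of class `C^1` at the pole. -/
noncomputable def Gx (K : Consts) (S : Data) (k : ℕ) (L : ℝ → ℝ) (p : ℝ × ℝ) : ℝ :=
  ((1 - cut (4 * S.φ p / K.δ)) * S.D p / S.sg p.2 ^ 3) ^ k * L (S.X p) * exp (-K.cc * S.X p) /
    S.sg p.2 ^ (K.nu - 1) * S.φ p ^ (K.th * k + 2 * (K.nu - 1))

theorem Gx_eq (hK : K.OK) (k : ℕ) (L : ℝ → ℝ) {p : ℝ × ℝ} (hφ : 0 ≤ S.φ p) (hσ : 0 < S.sg p.2) :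
    Gx K S k L p = S.v K p ^ k * (L (S.X p) * K.wgt (S.X p)) := by
  have h1 := nu_ge hK
  have h2 : K.th * k + 2 * (K.nu - 1) ≠ 0 := by
    have := mul_nonneg hK.th_pos.le (Nat.cast_nonneg (α := ℝ) k)
    linarith
  have h3 : S.X p ^ (K.nu - 1) = S.φ p ^ (2 * (K.nu - 1)) / S.sg p.2 ^ (K.nu - 1) := by
    rw [Data.X, div_rpow (sq_nonneg _) hσ.le, rpow_mul hφ, rpow_two]
  rw [Gx, Data.v, Consts.wgt, h3, rpow_add' hφ h2, rpow_mul_natCast hφ]
  simp only [div_eq_mul_inv, mul_pow]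
  ring

theorem sm_cut (hS : Sol S J) :
    ContDiffOn ℝ ∞ (fun p => 1 - cut (4 * S.φ p / K.δ)) (univ ×ˢ J) :=
  contDiffOn_const.sub (smoothTransition.contDiff.comp_contDiffOn
    (((contDiffOn_const.mul hS.sm_φ).div_const _).sub contDiffOn_const))

theorem sm_X (hS : Sol S J) (hU : U ⊆ J) (hσ : ∀ t ∈ U, 0 < S.sg t) :
    ContDiffOn ℝ ∞ S.X (univ ×ˢ U) :=
  ((hS.sm_φ.mono (prod_mono le_rfl hU)).pow 2).div (hS.sm_σ.mono (prod_mono le_rfl hU))
    fun _ hp => (hσ _ hp.2).ne'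

theorem sm_Gx (hK : K.OK) (hS : Sol S J) (hU : U ⊆ J) (hσ : ∀ t ∈ U, 0 < S.sg t) (k : ℕ)
    {L : ℝ → ℝ} (hL : ContDiff ℝ ∞ L) : ContDiffOn ℝ 1 (Gx K S k L) (univ ×ˢ U) := by
  have hm : (univ : Set ℝ) ×ˢ U ⊆ univ ×ˢ J := prod_mono le_rfl hU
  have one : (1 : WithTop ℕ∞) ≤ ∞ := by exact_mod_cast le_top
  have h1 := hS.sm_σ.mono hm
  have h2 := sm_X hS hU hσ
  have h3 : ∀ p ∈ (univ : Set ℝ) ×ˢ U, S.σ p ≠ 0 := fun p hp => (hσ _ hp.2).ne'
  have h4 : ContDiffOn ℝ ∞ (fun p : ℝ × ℝ => ((1 - cut (4 * S.φ p / K.δ)) * S.D p /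
      S.sg p.2 ^ 3) ^ k * L (S.X p) * exp (-K.cc * S.X p) / S.sg p.2 ^ (K.nu - 1)) (univ ×ˢ U) :=
    ((((((((sm_cut hS).mul hS.sm_D).mono hm).div (h1.pow 3)
      fun p hp => pow_ne_zero 3 (h3 p hp)).pow k).mul (hL.comp_contDiffOn h2)).mul
      (contDiffOn_const.mul h2).exp).div (h1.rpow_const_of_ne h3)
      fun p hp => (rpow_pos_of_pos (hσ _ hp.2) _).ne')
  have h5 : ((1 : ℕ) : ℝ) ≤ K.th * k + 2 * (K.nu - 1) := by
    have := mul_nonneg hK.th_pos.le (Nat.cast_nonneg (α := ℝ) k)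
    have := nu_ge hK
    push_cast
    linarith
  exact (h4.of_le one).mul ((contDiff_rpow_const_of_le h5).comp_contDiffOn
    ((hS.sm_φ.mono hm).of_le one))

theorem φ_nonneg (hS : Sol S J) {θ : ℝ} (hθ : θ ∈ uIcc 0 (π / 2)) (ht : t ∈ J) :
    0 ≤ S.φ (θ, t) := by
  rw [uIcc_of_le (by positivity)] at hθ
  rcases hθ.1.eq_or_lt with h | h
  · rw [← h, hS.φ_zero ht]
  · exact (hS.φ_pos θ ⟨h, by linarith [hθ.2, pi_pos]⟩ t ht).le

theorem int_eq (hK : K.OK) (hS : Sol S J) (ht : t ∈ J) (hσ : 0 < S.sg t) (k : ℕ) (L : ℝ → ℝ) :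
    ∫ θ in (0 : ℝ)..(π / 2), S.v K (θ, t) ^ k * (L (S.X (θ, t)) * K.wgt (S.X (θ, t))) *
      d1 S.X (θ, t) = ∫ θ in (0 : ℝ)..(π / 2), Gx K S k L (θ, t) * d1 S.X (θ, t) :=
  intervalIntegral.integral_congr fun θ hθ => by
    simp only [Gx_eq hK k L (p := (θ, t)) (φ_nonneg hS hθ ht) hσ]

theorem md_eq (hK : K.OK) (hS : Sol S J) (ht : t ∈ J) (hσ : 0 < S.sg t) (j : ℕ) : S.md K j t =
    (∫ θ in (0 : ℝ)..(π / 2), Gx K S 1 (K.Lag j) (θ, t) * d1 S.X (θ, t)) / √(K.hL j) := by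
  rw [← int_eq hK hS ht hσ, Data.md]
  simp only [pow_one, mul_assoc]

theorem En_eq (hK : K.OK) (hS : Sol S J) (ht : t ∈ J) (hσ : 0 < S.sg t) : S.En K t =
    ∫ θ in (0 : ℝ)..(π / 2), Gx K S 2 (fun _ => 1) (θ, t) * d1 S.X (θ, t) := by
  rw [← int_eq hK hS ht hσ, Data.En]
  simp only [one_mul]

theorem cont_int (hK : K.OK) (hS : Sol S J) {t1 : ℝ} (ht1 : t1 ∈ J) (hσ : 0 < S.sg t1) (k : ℕ)
    {L : ℝ → ℝ} (hL : ContDiff ℝ ∞ L) : ContinuousOn
      (fun t => ∫ θ in (0 : ℝ)..(π / 2), Gx K S k L (θ, t) * d1 S.X (θ, t)) (Icc 0 t1) := by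
  have hU := hS.time.down t1 ht1
  have hp : ∀ t ∈ Icc 0 t1, 0 < S.sg t := fun t ht =>
    hσ.trans_le (hS.sg_strictAnti.antitoneOn (hU ht) ht1 ht.2)
  have hm : (univ : Set ℝ) ×ˢ Icc 0 t1 ⊆ univ ×ˢ J := prod_mono le_rfl hU
  have h1 : ContinuousOn (d1 S.X) (univ ×ˢ Icc 0 t1) := by
    have h2 : ContinuousOn (fun p => 2 * S.φ p * d1 S.φ p / S.σ p) (univ ×ˢ Icc 0 t1) :=
      (((continuousOn_const.mul hS.sm_φ.continuousOn).mul
        (contDiffOn_d1 hS.time hS.sm_φ).continuousOn).mono hm).div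
        (hS.sm_σ.continuousOn.mono hm) fun p hp' => (hp _ hp'.2).ne'
    refine h2.congr fun p hp' => ?_
    have := (((hasDerivAt_d1 hS.sm_φ p.1 (hU hp'.2)).pow 2).div_const (S.sg p.2)).deriv
    exact this.trans (by simp [Data.σ])
  have h3 := (sm_Gx hK hS hU hp k hL).continuousOn.mul h1
  rw [continuousOn_iff_continuous_domRestrict]
  refine intervalIntegral.continuous_parametric_intervalIntegral_of_continuous'
    (f := fun (t : Icc 0 t1) θ => Gx K S k L (θ, t) * d1 S.X (θ, t)) ?_ _ _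
  exact h3.comp_continuous (f := fun z : Icc 0 t1 × ℝ => (z.2, (z.1 : ℝ))) (by fun_prop)
    fun z => ⟨trivial, z.1.2⟩

theorem v_zero (hK : K.OK) {p : ℝ × ℝ} (h : K.δ / 2 ≤ S.φ p) : S.v K p = 0 := by
  have h1 : cut (4 * S.φ p / K.δ) = 1 := by
    refine smoothTransition.one_of_one_le ?_
    rw [le_sub_iff_add_le, le_div_iff₀ hK.δ_pos]
    linarith
  rw [Data.v, h1, sub_self, zero_mul]

theorem vX_mul (h : Slice K S J t) {θ : ℝ} (hθ : θ ∈ Ioo 0 (π / 2)) :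
    S.vX K (θ, t) * d1 S.X (θ, t) = d1 (S.v K) (θ, t) := by
  have hl := (h.sol.l_pos t h.mem).ne'
  by_cases hδ : S.φ (θ, t) ≤ K.δ
  · have h1 := ((h.mono θ ⟨hθ.1, hθ.2.le⟩ hδ).2 θ ⟨hθ.1.le, le_rfl⟩).2
    have hq : (47 : ℝ) ≤ K.q := by exact_mod_cast h.ok.q_ge
    have h2 : 21 / (K.q : ℝ) < 1 := by rw [div_lt_one (by linarith)]; linarith
    have h3 : S.A (θ, t) ≠ 0 := by linarith [h1, h2] |> ne_of_gt
    have h4 := (h.sol.φ_pos θ ⟨hθ.1, by linarith [hθ.2, pi_pos]⟩ t h.mem).ne'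
    have h5 : d1 S.X (θ, t) = _ :=
      (((h.sol.hasDerivAt_slice h.sol.sm_φ θ h.mem).pow 2).div_const (S.sg t)).deriv
    have h6 : d1 S.X (θ, t) ≠ 0 := by
      rw [h5]
      have h7 : S.Ds S.φ (θ, t) ≠ 0 := h3
      have := h.sg_pos.ne'
      simp [h4, h7, hl, this]
    simp only [Data.vX, Data.Ds]
    field_simp
  · have hc := (h.sol.hasDerivAt_slice h.sol.sm_φ θ h.mem).continuousAt
    have h1 : (fun x => S.v K (x, t)) =ᶠ[𝓝 θ] fun _ => 0 := by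
      filter_upwards [hc.eventually (lt_mem_nhds (not_le.1 hδ))] with x hx
      exact v_zero h.ok (by linarith [h.ok.δ_pos])
    have h2 : d1 (S.v K) (θ, t) = 0 := h1.deriv_eq.trans (deriv_const _ _)
    simp only [Data.vX, Data.Ds, h2, zero_div, zero_mul]

theorem deriv_int (h : Slice K S J t) (h0 : 0 < t) (k : ℕ) (hk : k ≠ 0) {L : ℝ → ℝ}
    (hL : ContDiff ℝ ∞ L) :
    HasDerivAt (fun s => ∫ θ in (0 : ℝ)..(π / 2), Gx K S k L (θ, s) * d1 S.X (θ, s))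
      (S.l t ^ 2 / S.sg t *
        S.I K (fun p => k * S.v K p ^ (k - 1) * S.vdot K p * L (S.X p)) t) t ∧
    ∀ᶠ s in 𝓝 t, s ∈ J ∧ 0 < S.sg s := by
  have hS := h.sol
  have hJ := hS.time.mem_nhds h.mem h0
  have hev : ∀ᶠ s in 𝓝 t, s ∈ J ∧ 0 < S.sg s :=
    (show ∀ᶠ s in 𝓝 t, s ∈ J from hJ).and
      ((hS.sm_sg.continuousOn.continuousAt hJ).eventually (lt_mem_nhds h.sg_pos))
  refine ⟨?_, hev⟩
  obtain ⟨U, hU1, hU, htU⟩ := mem_nhds_iff.1 hev
  have hUJ : U ⊆ J := fun s hs => (hU1 hs).1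
  have hσ : ∀ s ∈ U, 0 < S.sg s := fun s hs => (hU1 hs).2
  have hO := (isOpen_univ (X := ℝ)).prod hU
  have hX := sm_X hS hUJ hσ
  have hπ : (0 : ℝ) < π / 2 := by positivity
  have b0 : Gx K S k L (0, t) = 0 := by
    have := mul_nonneg h.ok.th_pos.le (Nat.cast_nonneg (α := ℝ) k)
    have := nu_ge h.ok
    rw [Gx, hS.φ_zero h.mem, zero_rpow (by linarith : 0 < K.th * k + 2 * (K.nu - 1)).ne', mul_zero]
  have b1 : Gx K S k L (π / 2, t) = 0 := by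
    have h1 : K.δ < S.φ (π / 2, t) :=
      not_le.1 fun h1 => lt_irrefl _ (h.mono _ ⟨hπ, le_rfl⟩ h1).1
    rw [Gx_eq h.ok k L (φ_nonneg hS right_mem_uIcc h.mem) h.sg_pos,
      v_zero h.ok (by linarith [h.ok.δ_pos]), zero_pow hk, zero_mul]
  refine (jac_deriv hU htU (sm_Gx h.ok hS hUJ hσ k hL) hX b0 b1).congr_deriv ?_
  rw [Data.I, ← intervalIntegral.integral_const_mul]
  refine intervalIntegral.integral_congr_ae ?_
  filter_upwards [Measure.ae_ne volume (π / 2)] with θ hne hθ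
  rw [uIoc_of_le hπ.le] at hθ
  have hθ' : θ ∈ Ioo 0 (π / 2) := ⟨hθ.1, lt_of_le_of_ne hθ.2 hne⟩
  have hφ := hS.φ_pos θ ⟨hθ.1, by linarith [hθ.2, pi_pos]⟩ t h.mem
  have hp : univ ×ˢ U ∈ 𝓝 (θ, t) := hO.mem_nhds ⟨trivial, htU⟩
  have aφ := hS.contDiffAt hS.sm_φ (p := (θ, t)) h.mem h0
  have hXp : 0 < S.X (θ, t) := div_pos (pow_pos hφ 2) h.sg_pos
  have dv : DifferentiableAt ℝ (S.v K) (θ, t) := by
    have a1 : ContDiffAt ℝ ∞ (fun p => S.φ p ^ K.th * S.D p / S.σ p ^ 3) (θ, t) :=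
      ((aφ.rpow_const_of_ne hφ.ne').mul (hS.contDiffAt hS.sm_D h.mem h0)).div
        ((hS.contDiffAt hS.sm_σ (p := (θ, t)) h.mem h0).pow 3) (pow_ne_zero 3 h.sg_pos.ne')
    exact diffAt ((hS.contDiffAt (sm_cut hS) h.mem h0).mul a1)
  have dm : DifferentiableAt ℝ (fun y => L y * K.wgt y) (S.X (θ, t)) :=
    (hL.differentiable (by simp) _).mul ((differentiableAt_id.rpow_const (Or.inl hXp.ne')).mul
      (differentiableAt_id.const_mul _).exp)
  rw [jac_local (v := S.v K) k ?_ dv (diffAt (hX.contDiffAt hp)) dm.hasDerivAt]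
  · have hl := (hS.l_pos t h.mem).ne'
    have hs := h.sg_pos.ne'
    rw [← vX_mul h hθ']
    simp only [Data.vdot, Data.Dt, Data.σ, ← vX_mul h hθ']
    field_simp
    ring
  · filter_upwards [hp, aφ.continuousAt.eventually (lt_mem_nhds hφ)] with y h1 h2
    exact Gx_eq h.ok k L h2.le (hσ _ h1.2)

end MdAux

open MdAux

variable {S : Data} {J : Set ℝ} {K : Consts} {t t1 : ℝ}

theorem modes_cont (hK : K.OK) (_hq : S.q = K.q) (hS : Sol S J) (ht1 : t1 ∈ J)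
    (hσ : 0 < S.sg t1) :
    (∀ j, ContinuousOn (S.md K j) (Icc 0 t1)) ∧ ContinuousOn (S.En K) (Icc 0 t1) := by
  have hU := hS.time.down t1 ht1
  have hp : ∀ t ∈ Icc 0 t1, 0 < S.sg t := fun t ht =>
    hσ.trans_le (hS.sg_strictAnti.antitoneOn (hU ht) ht1 ht.2)
  exact ⟨fun j => ((cont_int hK hS ht1 hσ 1 (contDiff_Lag K j)).div_const _).congr
      fun t ht => md_eq hK hS (hU ht) (hp t ht) j,
    (cont_int hK hS ht1 hσ 2 contDiff_const).congr fun t ht => En_eq hK hS (hU ht) (hp t ht)⟩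

theorem Slice.time_deriv (h : Slice K S J t) (h0 : 0 < t) :
    (∀ j < 4, HasDerivAt (S.md K j)
      (S.l t ^ 2 / S.sg t * (S.I K (fun p => S.vdot K p * K.Lag j (S.X p)) t / √(K.hL j))) t) ∧
    HasDerivAt (S.En K) (S.l t ^ 2 / S.sg t * (2 * S.I K (fun p => S.v K p * S.vdot K p) t)) t := by
  constructor
  · intro j _
    obtain ⟨h1, h2⟩ := deriv_int h h0 1 one_ne_zero (contDiff_Lag K j)
    refine ((h1.div_const _).congr_of_eventuallyEq
      (h2.mono fun s hs => md_eq h.ok h.sol hs.1 hs.2 j)).congr_deriv ?_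
    simp [mul_div_assoc]
  · obtain ⟨h1, h2⟩ := deriv_int h h0 2 two_ne_zero (L := fun _ => 1) contDiff_const
    refine (h1.congr_of_eventuallyEq
      (h2.mono fun s hs => En_eq h.ok h.sol hs.1 hs.2)).congr_deriv ?_
    simp only [Data.I, ← intervalIntegral.integral_const_mul]
    congr 1
    funext θ
    simp only [Nat.cast_ofNat, Nat.add_one_sub_one, pow_one]
    ring

end Vale.Agent.P244Z.W
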