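import Vale.Agent.N244X.QMb
import Vale.Agent.N244X.QGrad
import Vale.Agent.N244X.QScale

/-!
# P244, large `q` design: the Lipschitz bound for `v` in the parabolic region
-/

open Set Real Filter Topology
open scoped ContDiff

namespace Vale.Agent.P244Z.W

variable {S : Data} {J : Set ℝ} {K : Consts} {t : ℝ}

open MdAux MbAux

/-- the formula for `v_X` where the cut-off is not active -/
theorem Slice.vX_eq (h : Slice K S J t) {θ : ℝ} (hθ : θ ∈ Ioc 0 (π / 2))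
    (hδ : S.φ (θ, t) < K.δ / 4) : S.vX K (θ, t) = S.φ (θ, t) ^ K.th * S.ρ (θ, t) ^ 2 *
      ((K.th + 2) * S.E (θ, t) + 2 * S.P (θ, t) / S.A (θ, t)) / (2 * S.X (θ, t) * S.sg t ^ 3) := by
  have hδ0 := h.ok.δ_pos
  have hφ := φ_pos' h hθ
  have hA := (A_pos h hθ (by linarith) ⟨hθ.1.le, le_rfl⟩).ne'
  have hl := (h.sol.l_pos t h.mem).ne'
  have hs := h.sg_pos.ne'
  have hq : 2 ≤ S.q := by rw [h.q_eq]; exact le_trans (by norm_num) h.ok.q_ge
  have hρ := (S.ρ_pos hq (θ, t)).ne'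
  have dφ := h.sol.hasDerivAt_slice h.sol.sm_φ θ h.mem
  have du := h.sol.hasDerivAt_slice h.sol.sm_u θ h.mem
  have dρ : HasDerivAt (fun x => S.ρ (x, t)) (S.ρ (θ, t) * (S.l t * S.β (θ, t))) θ :=
    (du.exp.const_mul _).congr_deriv (by simp only [Data.ρ, Data.β]; ring)
  have d1v := (((dφ.rpow_const (p := K.th) (Or.inl hφ.ne')).mul
    ((dρ.pow 2).sub (dφ.pow 2))).div_const (S.sg t ^ 3))
  have ev : (fun x => S.v K (x, t)) =ᶠ[𝓝 θ] fun x => S.φ (x, t) ^ K.th *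
      (S.ρ (x, t) ^ 2 - S.φ (x, t) ^ 2) / S.sg t ^ 3 := by
    filter_upwards [dφ.continuousAt.eventually (gt_mem_nhds hδ)] with x hx
    have : cut (4 * S.φ (x, t) / K.δ) = 0 := by
      refine smoothTransition.zero_of_nonpos ?_
      rw [sub_nonpos, div_le_one hδ0]
      linarith
    simp only [Data.v, Data.D, this, sub_zero, one_mul]
  have e1 : d1 (S.v K) (θ, t) = _ := ev.deriv_eq.trans d1v.deriv
  rw [Data.vX, Data.Ds, Data.Ds, e1, (hasDerivAt_X h θ).2, rpow_sub hφ, rpow_one]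
  simp only [Data.E, Data.P, Data.X, Pi.sub_apply, Pi.pow_apply]
  rw [show S.Ds S.φ (θ, t) = S.A (θ, t) from rfl]
  norm_num
  field_simp
  ring

theorem vX_alg {q am th lam σ X y E P A φ ρ : ℝ} (hq : 47 ≤ q) (ham : 0 < am) (h0 : 0 < th)
    (h1 : th ≤ 1) (hlam : lam = 2 - th / 2) (hσ : 0 < σ) (hX : 1 / 2 ≤ X) (hX' : X ≤ 32 * q)
    (hy : X ≤ 11 / 10 * y) (hy' : y ≤ 2 * X ∨ y ≤ 1) (hφ : 0 < φ) (eφ : φ ^ 2 = σ * X)
    (eρ : ρ ^ 2 = σ * y) (hA : 1 / 2 ≤ A)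
    (hE : |E| ≤ 2 * 2 * am * (σ ^ lam * y ^ (-47 / 40 : ℝ) + σ ^ lam * y ^ lam))
    (hP : P ^ 2 ≤ 4400 * q * am ^ 2 *
      ((σ ^ lam * y ^ (-47 / 40 : ℝ)) ^ 2 + (σ ^ lam * y ^ lam) ^ 2)) :
    |φ ^ th * ρ ^ 2 * ((th + 2) * E + 2 * P / A) / (2 * X * σ ^ 3)| ≤
      32 * q * (64 * q) * (12 + 40 * q) * (5 + (64 * q) ^ 2) * am := by
  have y0 : 5 / 11 ≤ y := by linarith
  have y1 : y ≤ 64 * q := by rcases hy' with h | h <;> linarith
  have yp : 0 < y := by linarith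
  have Xp : 0 < X := by linarith
  have a1 : y ^ (-47 / 40 : ℝ) ≤ 5 := by
    rcases le_total y 1 with h | h
    · refine (rpow_le_rpow_of_exponent_ge yp h (show (-2 : ℝ) ≤ -47 / 40 by norm_num)).trans ?_
      rw [rpow_neg yp.le, rpow_two, inv_le_comm₀ (by positivity) (by norm_num)]
      nlinarith
    · exact (rpow_le_one_of_one_le_of_nonpos h (by norm_num)).trans (by norm_num)
  have a2 : y ^ lam ≤ (64 * q) ^ 2 := by
    refine (rpow_le_rpow yp.le y1 (by linarith)).trans ?_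
    rw [← rpow_two]
    exact rpow_le_rpow_of_exponent_le (by linarith) (by linarith)
  have a3 : X ^ (th / 2) ≤ 32 * q := by
    refine (rpow_le_rpow Xp.le hX' (by linarith)).trans ?_
    nth_rewrite 2 [← rpow_one (32 * q)]
    exact rpow_le_rpow_of_exponent_le (by linarith) (by linarith)
  set s := σ ^ lam with hs
  have sp : 0 < s := rpow_pos_of_pos hσ _
  have p1 : 0 < y ^ (-47 / 40 : ℝ) := rpow_pos_of_pos yp _
  have p2 : 0 < y ^ lam := rpow_pos_of_pos yp _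
  set w := 5 + (64 * q) ^ 2 with hw
  have b0 : s * y ^ (-47 / 40 : ℝ) + s * y ^ lam ≤ s * w := by
    rw [← mul_add]
    exact mul_le_mul_of_nonneg_left (add_le_add a1 a2) sp.le
  have b1 : |E| ≤ 4 * am * (s * w) := hE.trans (by nlinarith)
  have b2 : |P| ≤ 10 * q * am * (s * w) := by
    refine abs_le_of_sq_le_sq' ?_ (by positivity) |> abs_le.2
    refine hP.trans ?_
    have c1 : (s * y ^ (-47 / 40 : ℝ)) ^ 2 + (s * y ^ lam) ^ 2 ≤ (s * w) ^ 2 := by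
      refine le_trans ?_ (pow_le_pow_left₀ (by positivity) b0 2)
      nlinarith [mul_pos (mul_pos sp p1) (mul_pos sp p2)]
    calc 4400 * q * am ^ 2 * ((s * y ^ (-47 / 40 : ℝ)) ^ 2 + (s * y ^ lam) ^ 2)
        ≤ 100 * q * q * am ^ 2 * (s * w) ^ 2 := by gcongr; linarith
      _ = (10 * q * am * (s * w)) ^ 2 := by ring
  have b3 : |(th + 2) * E + 2 * P / A| ≤ (12 + 40 * q) * am * (s * w) := by
    refine (abs_add_le _ _).trans ?_
    rw [abs_mul, abs_div, abs_mul, abs_of_pos (by linarith : 0 < th + 2),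
      abs_of_pos (by linarith : 0 < A), abs_two]
    have c1 : (th + 2) * |E| ≤ 3 * (4 * am * (s * w)) := by gcongr; linarith
    have c2 : 2 * |P| / A ≤ 4 * (10 * q * am * (s * w)) := by
      rw [div_le_iff₀ (by linarith)]
      nlinarith [abs_nonneg P]
    linarith
  have e1 : φ ^ th = σ ^ (th / 2) * X ^ (th / 2) := by
    rw [← mul_rpow hσ.le Xp.le, ← eφ, ← rpow_two, ← rpow_mul hφ.le]
    congr 1
    ring
  have e2 : σ ^ (th / 2) * s = σ ^ 2 := by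
    rw [hs, ← rpow_add hσ, ← rpow_two]
    congr 1
    rw [hlam]
    ring
  have p3 : 0 < σ ^ (th / 2) := rpow_pos_of_pos hσ _
  have p4 : 0 < X ^ (th / 2) := rpow_pos_of_pos Xp _
  rw [abs_div, abs_mul, e1, eρ,
    abs_of_pos (by positivity : 0 < σ ^ (th / 2) * X ^ (th / 2) * (σ * y)),
    abs_of_pos (by positivity : 0 < 2 * X * σ ^ 3), div_le_iff₀ (by positivity)]
  calc σ ^ (th / 2) * X ^ (th / 2) * (σ * y) * |(th + 2) * E + 2 * P / A|
      ≤ σ ^ (th / 2) * (32 * q) * (σ * (64 * q)) * ((12 + 40 * q) * am * (s * w)) := by gcongr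
    _ = 32 * q * (64 * q) * (12 + 40 * q) * w * am * (1 * (σ ^ (th / 2) * s * σ)) := by ring
    _ ≤ 32 * q * (64 * q) * (12 + 40 * q) * w * am * (2 * X * σ ^ 3) := by
      rw [e2, ← pow_succ]
      gcongr
      linarith

theorem vX_bound (q : ℕ) : ∃ C6, ∀ K : Consts, K.q = q → Ev K (fun S _ t1 => ∀ p ∈ strip t1,
    p.1 ≤ π / 2 → 1 / 2 ≤ S.X p → S.X p ≤ 32 * (q : ℝ) →
      |S.vX K p| ≤ C6 * K.am ∧ S.φ p < K.δ / 4) := by
  refine ⟨32 * q * (64 * q) * (12 + 40 * q) * (5 + (64 * q) ^ 2), fun K hq => ?_⟩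
  by_cases hK : K.OK
  swap
  · exact Eventually.of_forall fun s0 S J t1 d _ hc => absurd hc.boot.ok hK
  have hδ := hK.δ_pos
  refine ((((geo0 K).and (mono K)).and (grad_of K (geo0 K) (trap K))).and
    (Ev.small_one K (32 * q) (η := (K.δ / 8) ^ 2) (by positivity))).mono ?_
  rintro S J t1 d hc ⟨⟨⟨h1, h2⟩, h3⟩, h4⟩ ⟨θ, t⟩ hp hθ hX hX'
  have hg := h1 _ hp
  have hS : Slice K S J t := ⟨hK, hc.boot.q_eq, hc.boot.sol, hc.memJ hp.2, hg.σ_pos, h2 t hp.2⟩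
  have hθ' : θ ∈ Ioc 0 (π / 2) := ⟨hp.1.1, hθ⟩
  have hφ := φ_pos' hS hθ'
  have e1 := S.φ_sq_eq hg.σ_pos
  have hq' : (47 : ℝ) ≤ q := by rw [← hq]; exact hK.q_ge'
  have hlt : S.φ (θ, t) < K.δ / 4 := by
    have k1 : S.σ (θ, t) * S.X (θ, t) ≤ S.sg 0 * (32 * q) :=
      mul_le_mul hg.σ_le hX' (by linarith) (hg.σ_pos.le.trans hg.σ_le)
    refine lt_of_pow_lt_pow_left₀ 2 (by positivity) ?_
    nlinarith
  refine ⟨?_, hlt⟩
  have hρ := hc.ρ_pos (θ, t)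
  have hA := ((h2 t hp.2 θ hθ' (by linarith)).2 θ ⟨hθ'.1.le, le_rfl⟩).2
  have hA' : 21 / (K.q : ℝ) ≤ 1 / 2 := by
    rw [hq, div_le_iff₀ (by linarith)]
    linarith
  have hE := (hc.boot.bds _ hp).E
  have hP := (h3 _ hp).1
  rw [Grad, hq] at hP
  rw [S.F1_eq K hρ hg.σ_pos, S.F2_eq K hρ hg.σ_pos] at hE hP
  rw [hS.vX_eq hθ' hlt]
  exact vX_alg hq' hK.am_pos hK.th_pos (hK.th_le'.trans (by norm_num)) rfl hg.σ_pos hX hX' hg.X_le
    hg.y_le hφ e1 (S.ρ_sq_eq hg.σ_pos) (by linarith) hE hP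

end Vale.Agent.P244Z.W
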