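import Vale.Agent.P244Z.BubbleQ
import Vale.Agent.N244X.QDat0

/-!
# P244, large `q` design: the bubble at a small scale
-/

open Set Real Filter Topology
open scoped ContDiff

namespace Vale.Agent.P244Z.W

open Bubble

/-- the normalised radius of `S^2` as a function of `x = φ` -/
noncomputable def rB (q : ℝ) (U : ℝ → ℝ) (x : ℝ) : ℝ := √(q - 1) * exp (U x)

/-- `x ^ 2 / ρ ^ 2` -/
noncomputable def eB (q : ℝ) (U : ℝ → ℝ) (x : ℝ) : ℝ := x ^ 2 / rB q U x ^ 2

/-- `ρ ^ 2 - x ^ 2` -/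
noncomputable def dB (q : ℝ) (U : ℝ → ℝ) (x : ℝ) : ℝ := rB q U x ^ 2 - x ^ 2

/-- The bubble `dx ^ 2 / Z + x ^ 2 g_{S^q} + exp (2 U) g_{S^2}` at an arbitrary scale. -/
structure SB (q : ℝ) (U Y Z : ℝ → ℝ) : Prop where
  q_ge : 47 ≤ q
  sm_U : ContDiff ℝ ∞ U
  sm_Z : ContDiff ℝ ∞ Z
  U_even : ∀ x, U (-x) = U x
  Z_even : ∀ x, Z (-x) = Z x
  Z_zero : Z 0 = 1
  Z_le : ∀ x, Z x ≤ 1
  Z_ge : ∀ x, (q - 1) / (q + 1) ≤ Z x
  Z_sub : ∀ x, Z x - (q - 1) / (q + 1) ≤ 1 - Y x
  dU : ∀ x, x ≠ 0 → HasDerivAt U (Y x / x) x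
  dY : ∀ x, x ≠ 0 → HasDerivAt Y ((q - 1) * (eB q U x - Y x) / Z x / x) x
  dZ : ∀ x, x ≠ 0 → HasDerivAt Z ((2 * (q - 1) * (1 - Z x) - 4 * Z x * Y x) / x) x
  constraint : ∀ x, Z x * (q * (q - 1) + 4 * q * Y x + 2 * Y x ^ 2) = (q - 1) * (q + 2 * eB q U x)
  Y_nonneg : ∀ x, 0 ≤ Y x
  Y_le : ∀ x, Y x ≤ eB q U x
  e_lt : ∀ x, eB q U x < 1
  xi_le : ∀ x, 1 - Y x ≤ 2 * (1 - eB q U x)
  forty : ∀ x, 0 ≤ x → 40 * (eB q U x - Y x) ≤ 7 * (Y x * (1 - eB q U x))

theorem rB_pos {q : ℝ} (hq : 1 < q) (U : ℝ → ℝ) (x : ℝ) : 0 < rB q U x :=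
  mul_pos (sqrt_pos.2 (by linarith)) (exp_pos _)

theorem rB_sq {q : ℝ} (hq : 1 < q) (U : ℝ → ℝ) (x : ℝ) :
    rB q U x ^ 2 = (q - 1) * exp (2 * U x) := by
  rw [rB, mul_pow, sq_sqrt (by linarith), ← exp_nat_mul]
  norm_num

theorem dB_eq {q : ℝ} (hq : 1 < q) (U : ℝ → ℝ) (x : ℝ) :
    dB q U x = rB q U x ^ 2 * (1 - eB q U x) := by
  have := (rB_pos hq U x).ne'
  rw [dB, eB]
  field_simp

theorem ev_rpow (C : ℝ) {κ η : ℝ} (hκ : 0 < κ) (hη : 0 < η) :
    ∀ᶠ s in 𝓝[>] (0 : ℝ), C * s ^ κ ≤ η := by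
  have h : Tendsto (fun s : ℝ => C * s ^ κ) (𝓝[>] 0) (𝓝 (C * 0 ^ κ)) :=
    (((continuousAt_rpow_const 0 κ (Or.inr hκ.le)).tendsto).mono_left
      nhdsWithin_le_nhds).const_mul C
  rw [zero_rpow hκ.ne', mul_zero] at h
  exact h.eventually (ge_mem_nhds hη)

namespace SB

variable {q : ℝ} {U Y Z : ℝ → ℝ} (h : SB q U Y Z)
include h

theorem one_lt : 1 < q := by linarith [h.q_ge]

theorem r_pos (x : ℝ) : 0 < rB q U x := rB_pos h.one_lt U x

theorem Z_pos (x : ℝ) : 0 < Z x :=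
  (div_pos (by linarith [h.q_ge]) (by linarith [h.q_ge])).trans_le (h.Z_ge x)

theorem r_cont : Continuous (rB q U) := by
  have := h.sm_U.continuous
  unfold rB
  fun_prop

theorem dr {x : ℝ} (hx : x ≠ 0) : HasDerivAt (rB q U) (rB q U x * (Y x / x)) x :=
  ((h.dU x hx).exp.const_mul _).congr_deriv (by rw [rB]; ring)

theorem D_pos (x : ℝ) : 0 < dB q U x := by
  rw [dB_eq h.one_lt]
  exact mul_pos (pow_pos (h.r_pos x) 2) (sub_pos.2 (h.e_lt x))

theorem D_anti : AntitoneOn (dB q U) (Ici 0) := by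
  have hc := h.r_cont
  have := monotoneOn_Ici_of_hasDerivAt (a := 0) (F := fun x => x ^ 2 - rB q U x ^ 2)
    (F' := fun x => 2 * rB q U x ^ 2 * (eB q U x - Y x) / x) (by fun_prop)
    (fun x hx => by
      have h1 := (h.r_pos x).ne'
      have h2 := hx.ne'
      refine ((hasDerivAt_pow 2 x).fun_sub ((h.dr h2).fun_pow 2)).congr_deriv ?_
      rw [eB]
      push_cast
      field_simp)
    (fun x hx => div_nonneg (mul_nonneg (by positivity) (sub_nonneg.2 (h.Y_le x))) hx.le)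
  intro x hx y hy hxy
  have := this hx hy hxy
  simp only [dB] at this ⊢
  linarith

theorem E_mono : MonotoneOn (fun x => (1 - eB q U x) * rB q U x ^ (47 / 20 : ℝ)) (Ici 0) := by
  have hc := h.r_cont
  refine monotoneOn_Ici_of_hasDerivAt (F' := fun x => rB q U x ^ (47 / 20 : ℝ) *
    (7 * (Y x * (1 - eB q U x)) - 40 * (eB q U x - Y x)) / 20 / x) ?_ (fun x hx => ?_) fun x hx => ?_
  · refine Continuous.continuousOn (Continuous.mul (continuous_const.sub ?_)
      (hc.rpow_const fun x => Or.inl (h.r_pos x).ne'))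
    exact Continuous.div (by fun_prop) (by fun_prop) fun x => (pow_pos (h.r_pos x) 2).ne'
  · have h1 := (h.r_pos x).ne'
    have h2 := hx.ne'
    refine ((((hasDerivAt_pow 2 x).fun_div ((h.dr h2).fun_pow 2) (pow_ne_zero 2 h1)).const_sub
      1).fun_mul ((h.dr h2).rpow_const (p := 47 / 20) (Or.inl h1))).congr_deriv ?_
    rw [rpow_sub_one h1, eB]
    push_cast
    field_simp
    ring
  · have := rpow_pos_of_pos (h.r_pos x) (47 / 20)
    exact div_nonneg (div_nonneg (mul_nonneg this.le (sub_nonneg.2 (h.forty x hx.le)))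
      (by norm_num)) hx.le

end SB

/-- The trap `40 (e - Y) ≤ 7 Y (1 - e)`. -/
theorem forty_seven {q : ℝ} {P : ℝ → ℝ} (h : IsBubble q P) (hq : 47 ≤ q) {x : ℝ} (hx : 0 ≤ x) :
    40 * (bE q P x - bY P x) ≤ 7 * (bY P x * (1 - bE q P x)) := by
  have key := nonneg_of_deriv (a := 0)
    (F := fun x => 47 * bY P x - 7 * (bE q P x * bY P x) - 40 * bE q P x)
    (F' := fun x => ((47 - 7 * bE q P x) * ((q - 1) * (bE q P x - bY P x) / bZ q P x) -
      (7 * bY P x + 40) * (2 * bE q P x * (1 - bY P x))) / x)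
    (by
      have h1 := h.bY_smooth.continuous
      have h2 := h.bE_smooth.continuous
      fun_prop)
    (by simp [bY_zero, bE_zero])
    (fun x hx => by
      refine ((((h.bY_hasDerivAt hx.ne').const_mul 47).fun_sub
        (((h.bE_hasDerivAt hx.ne').fun_mul (h.bY_hasDerivAt hx.ne')).const_mul 7)).fun_sub
        ((h.bE_hasDerivAt hx.ne').const_mul 40)).congr_deriv ?_
      ring)
    (fun x hx hneg => by
      refine div_nonneg (sub_nonneg.2 ?_) hx.le
      have e1 := h.bE_lt_one x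
      have y0 := h.bY_nonneg x
      have y1 := h.bY_lt_one x
      have hz := h.bZ_pos x
      have z1 := h.bZ_le_one x
      have t1 := h.bY_le_bE x
      have t2 := h.xi_lt x
      have t3 := h.two_bE_le x
      set e := bE q P x
      set Y := bY P x
      set Z := bZ q P x
      have a1 : (q - 1) * (e - Y) ≤ (q - 1) * (e - Y) / Z :=
        le_div_self (mul_nonneg (by linarith) (by linarith)) hz z1
      have a2 : 40 * ((q - 1) * (e - Y)) ≤ (47 - 7 * e) * ((q - 1) * (e - Y) / Z) :=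
        mul_le_mul (by linarith) a1 (mul_nonneg (by linarith) (by linarith)) (by linarith)
      have a3 : 2 * e * (1 - Y) ≤ 3 * Y * (2 * (1 - e)) :=
        mul_le_mul t3 t2.le (by linarith) (by linarith)
      have a4 : (7 * Y + 40) * (2 * e * (1 - Y)) ≤ 47 * (3 * Y * (2 * (1 - e))) :=
        mul_le_mul (by linarith) a3 (mul_nonneg (by linarith) (by linarith)) (by norm_num)
      have a5 : 0 ≤ Y * (1 - e) := mul_nonneg y0 (by linarith)
      have a6 : (q - 1) * (7 * (Y * (1 - e))) ≤ (q - 1) * (40 * (e - Y)) :=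
        mul_le_mul_of_nonneg_left (by linarith) (by linarith)
      linarith [mul_le_mul_of_nonneg_right (show 46 ≤ q - 1 by linarith) a5])
    x hx
  linarith

theorem sb_scale {q : ℝ} {P : ℝ → ℝ} (h : IsBubble q P) (hq : 47 ≤ q) {l : ℝ} (hl : 0 < l) :
    (∀ x, eB q (fun x => log l + bU P (x / l)) x = bE q P (x / l)) ∧
    SB q (fun x => log l + bU P (x / l)) (fun x => bY P (x / l)) (fun x => bZ q P (x / l)) := by
  have hq1 : 1 < q := by linarith
  have he : ∀ x, eB q (fun x => log l + bU P (x / l)) x = bE q P (x / l) := by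
    intro x
    have h1 := h.q_sub_one_pos.ne'
    rw [eB, rB_sq hq1, bE_eq, mul_add, exp_add, two_mul (log l), exp_add, exp_log hl, neg_mul,
      exp_neg]
    field_simp
  have hd : ∀ x, HasDerivAt (fun x : ℝ => x / l) (1 / l) x := fun x =>
    (hasDerivAt_id' x).div_const l
  have hne : ∀ x : ℝ, x ≠ 0 → x / l ≠ 0 := fun x hx => div_ne_zero hx hl.ne'
  refine ⟨he, hq, ?_, ?_, fun x => ?_, fun x => ?_, ?_, fun x => h.bZ_le_one _,
    fun x => (h.z0_lt_bZ _).le, fun x => h.bZ_sub_le _, fun x hx => ?_, fun x hx => ?_,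
    fun x hx => ?_, fun x => ?_, fun x => h.bY_nonneg _, fun x => ?_, fun x => ?_, fun x => ?_,
    fun x hx => ?_⟩
  · exact contDiff_const.add (h.bU_smooth.comp (contDiff_id.div_const l))
  · exact h.bZ_smooth.comp (contDiff_id.div_const l)
  · rw [neg_div, bU_neg]
  · rw [neg_div, bZ_neg]
  · rw [zero_div, h.bZ_zero]
  · refine (((h.bU_hasDerivAt (hne x hx)).comp x (hd x)).const_add _).congr_deriv ?_
    field_simp
  · refine ((h.bY_hasDerivAt (hne x hx)).comp x (hd x)).congr_deriv ?_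
    rw [he]
    field_simp
  · refine ((h.bZ_hasDerivAt (hne x hx)).comp x (hd x)).congr_deriv ?_
    field_simp
  · rw [he]
    exact h.constraint _
  · rw [he]
    exact h.bY_le_bE _
  · rw [he]
    exact h.bE_lt_one _
  · rw [he]
    exact (h.xi_lt _).le
  · rw [he]
    exact forty_seven h hq (div_nonneg hx hl.le)

/-- The bubble at the scale that matches the amplitude `am * s ^ 3`. -/
theorem exists_sb {K : Consts} (hK : K.OK) {η τ : ℝ} (hη : 0 < η) (hτ : 0 < τ) :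
    ∀ᶠ s in 𝓝[>] (0 : ℝ), ∃ U Y Z, SB K.q U Y Z ∧ dB K.q U 0 ≤ η * s ∧
      ∀ x, 0 < x → η * s ≤ x ^ 2 →
        |x ^ K.th * dB K.q U x - K.am * s ^ 3| ≤ τ * (K.am * s ^ 3) := by
  have hq : (47 : ℝ) ≤ K.q := by exact_mod_cast hK.q_ge
  have hth := hK.th_pos
  have hth1 : K.th ≤ 1 := hK.th_le.trans (by rw [div_le_one (by linarith)]; linarith)
  have ham := hK.am_pos
  obtain ⟨P, hP⟩ := exists_isBubble K.q (by linarith [hK.q_ge])
  obtain ⟨c, hc, hlim⟩ := hP.E_asym (α := 2 + K.th) (by linarith)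
    (by linear_combination hK.th_eq) (by linarith) (by linarith)
  obtain ⟨R, hR⟩ := eventually_atTop.1 (hlim.eventually
    (Metric.closedBall_mem_nhds c (show 0 < τ * c by positivity)))
  obtain ⟨κ, hκ⟩ : ∃ κ, κ = η / (K.q + R ^ 2) := ⟨_, rfl⟩
  have hκ0 : 0 < κ := by rw [hκ]; positivity
  have hα : 0 < 2 + K.th := by linarith
  have hex : 0 < 6 / (2 + K.th) - 1 := by
    rw [sub_pos, lt_div_iff₀ hα]; linarith
  filter_upwards [ev_rpow ((K.am / c) ^ (2 / (2 + K.th))) hex hκ0, self_mem_nhdsWithin]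
    with s hs hs0
  have hs0 : 0 < s := hs0
  obtain ⟨l, hl⟩ : ∃ l, l = (K.am / c * s ^ 3) ^ (1 / (2 + K.th)) := ⟨_, rfl⟩
  have hl0 : 0 < l := by rw [hl]; positivity
  have hlα : l ^ (2 + K.th) = K.am / c * s ^ 3 := by
    rw [hl, ← rpow_mul (by positivity), one_div, inv_mul_cancel₀ hα.ne', rpow_one]
  have hl2 : l ^ 2 ≤ κ * s := by
    have e1 : l ^ 2 = (K.am / c) ^ (2 / (2 + K.th)) * s ^ (6 / (2 + K.th) - 1) * s := by
      rw [rpow_sub_one hs0.ne', hl, ← rpow_natCast, ← rpow_mul (by positivity),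
        mul_rpow (by positivity) (by positivity), ← rpow_natCast s, ← rpow_mul hs0.le]
      push_cast
      rw [show 1 / (2 + K.th) * 2 = 2 / (2 + K.th) by ring,
        show 3 * (2 / (2 + K.th)) = 6 / (2 + K.th) by ring]
      field_simp
    rw [e1]
    exact mul_le_mul_of_nonneg_right hs hs0.le
  have hl3 : l ^ 2 * (K.q + R ^ 2) ≤ η * s := by
    have := mul_le_mul_of_nonneg_right hl2 (show 0 ≤ (K.q : ℝ) + R ^ 2 by positivity)
    rwa [hκ, mul_right_comm, div_mul_cancel₀ _ (by positivity)] at this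
  obtain ⟨he, hsb⟩ := sb_scale hP (by linarith) hl0
  refine ⟨_, _, _, hsb, ?_, fun x hx hx2 => ?_⟩
  · rw [dB, rB_sq hsb.one_lt, zero_div, hP.bU_zero, add_zero, two_mul, exp_add, exp_log hl0]
    nlinarith [sq_nonneg (l * R)]
  · have hy : R ≤ x / l := by
      rw [le_div_iff₀ hl0]
      refine (le_abs_self _).trans (abs_le_of_sq_le_sq ?_ hx.le)
      nlinarith [sq_nonneg l]
    have h1 := hR _ hy
    rw [Real.dist_eq] at h1
    have hE := hP.bE_pos (div_pos hx hl0).ne'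
    have h2 : dB K.q (fun x => log l + bU P (x / l)) x =
        x ^ 2 * ((1 - bE K.q P (x / l)) / bE K.q P (x / l)) := by
      have hr := (hsb.r_pos x).ne'
      rw [dB, ← he, eB]
      field_simp
    have h3 : x ^ K.th * x ^ 2 = K.am / c * s ^ 3 * (x / l) ^ (2 + K.th) := by
      rw [← hlα, ← mul_rpow hl0.le (by positivity), mul_div_cancel₀ _ hl0.ne', rpow_add hx,
        rpow_two, mul_comm]
    rw [h2, ← mul_assoc, h3, mul_assoc]
    have h4 : K.am * s ^ 3 = K.am / c * s ^ 3 * c := by field_simp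
    calc _ = K.am / c * s ^ 3 * |(x / l) ^ (2 + K.th) *
          ((1 - bE K.q P (x / l)) / bE K.q P (x / l)) - c| := by
          rw [← abs_of_pos (show 0 < K.am / c * s ^ 3 by positivity), ← abs_mul,
            abs_of_pos (show 0 < K.am / c * s ^ 3 by positivity), mul_sub, ← h4]
      _ ≤ K.am / c * s ^ 3 * (τ * c) := mul_le_mul_of_nonneg_left h1 (by positivity)
      _ = _ := by field_simp

end Vale.Agent.P244Z.W
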