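import Vale.Agent.N244X.QDatBub

/-!
# P244, large `q` design: the perturbation of the bubble
-/

open Set Real Filter Topology
open scoped ContDiff

namespace Vale.Agent.P244Z.W

/-- the weight `X (X + η) ^ (-p)` -/
noncomputable def om (p η X : ℝ) : ℝ := X * (X + η) ^ (-p)

/-- the perturbation of `u`, as a function of `x = φ` -/
noncomputable def gP (c p η s : ℝ) (Q : ℝ → ℝ) (x : ℝ) : ℝ :=
  c * (om p η (x ^ 2 / s) * Q (x ^ 2 / s))

theorem om_nonneg (p : ℝ) {η X : ℝ} (hη : 0 < η) (hX : 0 ≤ X) : 0 ≤ om p η X :=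
  mul_nonneg hX (rpow_nonneg (by linarith) _)

theorem gP_even (c p η s : ℝ) (Q : ℝ → ℝ) (x : ℝ) : gP c p η s Q (-x) = gP c p η s Q x := by
  simp [gP]

theorem gP_smooth (c p : ℝ) {η s : ℝ} (hη : 0 < η) (hs : 0 < s) {Q : ℝ → ℝ}
    (hQ : ContDiff ℝ ∞ Q) : ContDiff ℝ ∞ (gP c p η s Q) := by
  have h1 : ContDiff ℝ ∞ fun x : ℝ => x ^ 2 / s := (contDiff_id.pow 2).div_const s
  have h2 : ContDiff ℝ ∞ fun x : ℝ => (x ^ 2 / s + η) ^ (-p) :=
    (h1.add contDiff_const).rpow_const_of_ne fun x => by positivity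
  exact contDiff_const.mul ((h1.mul h2).mul (hQ.comp h1))

theorem cubic_bounds {p0 p1 p2 p3 X : ℝ} (h0 : |p0| ≤ 1 / 25) (h1 : |p1| ≤ 1 / 25)
    (h2 : |p2| ≤ 1 / 25) (h3 : |p3| ≤ 1 / 25) (hX : 0 ≤ X) :
    |p0 + p1 * X + p2 * X ^ 2 + p3 * X ^ 3| ≤ 2 / 25 * (1 + X ^ 3) ∧
    |p1 * X + 2 * p2 * X ^ 2 + 3 * p3 * X ^ 3| ≤ 5 / 25 * (1 + X ^ 3) ∧
    |p1 * X + 4 * p2 * X ^ 2 + 9 * p3 * X ^ 3| ≤ 13 / 25 * (1 + X ^ 3) := by
  have a : X + X ^ 2 ≤ 1 + X ^ 3 := by nlinarith [mul_nonneg (sq_nonneg (X - 1)) hX, sq_nonneg (X - 1)]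
  have b1 : |p1 * X| ≤ 1 / 25 * X := by
    rw [abs_mul, abs_of_nonneg hX]; exact mul_le_mul_of_nonneg_right h1 hX
  have b2 : |p2 * X ^ 2| ≤ 1 / 25 * X ^ 2 := by
    rw [abs_mul, abs_of_nonneg (sq_nonneg X)]; exact mul_le_mul_of_nonneg_right h2 (sq_nonneg X)
  have hX3 : 0 ≤ X ^ 3 := by positivity
  have b3 : |p3 * X ^ 3| ≤ 1 / 25 * X ^ 3 := by
    rw [abs_mul, abs_of_nonneg hX3]; exact mul_le_mul_of_nonneg_right h3 hX3
  have hX2 := sq_nonneg X
  rw [abs_le] at h0 b1 b2 b3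
  refine ⟨abs_le.2 ⟨?_, ?_⟩, abs_le.2 ⟨?_, ?_⟩, abs_le.2 ⟨?_, ?_⟩⟩ <;> nlinarith

/-- The derivatives of `om * cubic` with respect to `log X`. -/
theorem exists_om_deriv {p η p0 p1 p2 p3 : ℝ} (hη : 0 < η) (hp0 : 0 ≤ p) (hp : p ≤ 3)
    (h0 : |p0| ≤ 1 / 25) (h1 : |p1| ≤ 1 / 25) (h2 : |p2| ≤ 1 / 25) (h3 : |p3| ≤ 1 / 25) :
    ∃ g1 g2 : ℝ → ℝ, ∀ X, 0 < X →
      HasDerivAt (fun X => om p η X * (p0 + p1 * X + p2 * X ^ 2 + p3 * X ^ 3)) (g1 X / X) X ∧
      HasDerivAt g1 (g2 X / X) X ∧ |g1 X| ≤ 9 / 25 * (om p η X * (1 + X ^ 3)) ∧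
      |g2 X| ≤ 41 / 25 * (om p η X * (1 + X ^ 3)) := by
  refine ⟨fun X => om p η X * ((1 - p * (X / (X + η))) * (p0 + p1 * X + p2 * X ^ 2 + p3 * X ^ 3) +
      (p1 * X + 2 * p2 * X ^ 2 + 3 * p3 * X ^ 3)),
    fun X => om p η X * (((1 - p * (X / (X + η))) ^ 2 - p * (X / (X + η)) * (1 - X / (X + η))) *
      (p0 + p1 * X + p2 * X ^ 2 + p3 * X ^ 3) +
      2 * (1 - p * (X / (X + η))) * (p1 * X + 2 * p2 * X ^ 2 + 3 * p3 * X ^ 3) +
      (p1 * X + 4 * p2 * X ^ 2 + 9 * p3 * X ^ 3)), fun X hX => ?_⟩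
  have hXη : 0 < X + η := by linarith
  have hi := hasDerivAt_id' X
  have hom : HasDerivAt (om p η) (om p η X * (1 - p * (X / (X + η))) / X) X := by
    refine (hi.fun_mul ((hi.add_const η).rpow_const (p := -p) (Or.inl hXη.ne'))).congr_deriv ?_
    rw [rpow_sub_one hXη.ne', om]
    field_simp
    ring
  have hQ : HasDerivAt (fun X => p0 + p1 * X + p2 * X ^ 2 + p3 * X ^ 3)
      (p1 + 2 * p2 * X + 3 * p3 * X ^ 2) X := by
    refine ((((hi.const_mul p1).const_add p0).fun_add ((hi.fun_pow 2).const_mul p2)).fun_add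
      ((hi.fun_pow 3).const_mul p3)).congr_deriv ?_
    push_cast
    ring
  have hQ1 : HasDerivAt (fun X => p1 * X + 2 * p2 * X ^ 2 + 3 * p3 * X ^ 3)
      (p1 + 4 * p2 * X + 9 * p3 * X ^ 2) X := by
    refine (((hi.const_mul p1).fun_add ((hi.fun_pow 2).const_mul (2 * p2))).fun_add
      ((hi.fun_pow 3).const_mul (3 * p3))).congr_deriv ?_
    push_cast
    ring
  have hμ : HasDerivAt (fun X => 1 - p * (X / (X + η))) (-(p * (η / (X + η) ^ 2))) X := by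
    refine (((hi.fun_div (hi.add_const η) hXη.ne').const_mul p).const_sub 1).congr_deriv ?_
    ring
  obtain ⟨c0, c1, c2⟩ := cubic_bounds h0 h1 h2 h3 hX.le
  have ho := om_nonneg p hη hX.le
  have m0 : 0 ≤ X / (X + η) := by positivity
  have m1 : X / (X + η) ≤ 1 := (div_le_one hXη).2 (by linarith)
  refine ⟨(hom.fun_mul hQ).congr_deriv ?_,
    (hom.fun_mul ((hμ.fun_mul hQ).fun_add hQ1)).congr_deriv ?_, ?_, ?_⟩
  · field_simp
  · field_simp
    ring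
  · beta_reduce
    generalize X / (X + η) = μ at *
    have a1 : |1 - p * μ| ≤ 2 := abs_le.2 ⟨by nlinarith, by nlinarith⟩
    rw [abs_mul, abs_of_nonneg ho, mul_left_comm]
    refine mul_le_mul_of_nonneg_left ((abs_add_le _ _).trans ?_) ho
    rw [abs_mul]
    have := mul_le_mul a1 c0 (abs_nonneg _) (by norm_num)
    linarith
  · beta_reduce
    generalize X / (X + η) = μ at *
    have a1 : |1 - p * μ| ≤ 2 := abs_le.2 ⟨by nlinarith, by nlinarith⟩
    have a2 : |(1 - p * μ) ^ 2 - p * μ * (1 - μ)| ≤ 4 := by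
      have b1 : (1 - p * μ) ^ 2 ≤ 4 := by
        rw [← sq_abs]; nlinarith [abs_nonneg (1 - p * μ)]
      have b2 : 0 ≤ p * μ * (1 - μ) := mul_nonneg (mul_nonneg hp0 m0) (by linarith)
      have b3 : p * μ * (1 - μ) ≤ 3 * 1 * 1 :=
        mul_le_mul (mul_le_mul hp m1 m0 (by norm_num)) (by linarith) (by linarith) (by norm_num)
      exact abs_le.2 ⟨by nlinarith [sq_nonneg (1 - p * μ)], by linarith⟩
    rw [abs_mul, abs_of_nonneg ho, mul_left_comm]
    refine mul_le_mul_of_nonneg_left ((abs_add_three _ _ _).trans ?_) ho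
    rw [abs_mul, abs_mul, abs_mul, abs_two]
    have d1 := mul_le_mul a2 c0 (abs_nonneg _) (by norm_num)
    have d2 := mul_le_mul a1 c1 (abs_nonneg _) (by norm_num)
    linarith

/-- the size of the perturbation -/
noncomputable def gam (am th η s x : ℝ) : ℝ :=
  40 * am * s ^ (2 - th / 2) * (om (2 + th / 2) η (x ^ 2 / s) * (1 + (x ^ 2 / s) ^ 3))

/-- The derivatives of the perturbation with respect to `log x`. -/
theorem exists_pert {am th η s p0 p1 p2 p3 : ℝ} (ham : 0 < am) (hth0 : 0 < th) (hth : th ≤ 1)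
    (hη : 0 < η) (hs : 0 < s) (h0 : |p0| ≤ 1 / 25) (h1 : |p1| ≤ 1 / 25)
    (h2 : |p2| ≤ 1 / 25) (h3 : |p3| ≤ 1 / 25) {Q : ℝ → ℝ}
    (hQ : ∀ X, Q X = p0 + p1 * X + p2 * X ^ 2 + p3 * X ^ 3) :
    ∃ y y1 : ℝ → ℝ, ∀ x, 0 < x →
      HasDerivAt (gP (am / 2 * s ^ (2 - th / 2)) (2 + th / 2) η s Q) (y x / x) x ∧
      HasDerivAt y (y1 x / x) x ∧
      |gP (am / 2 * s ^ (2 - th / 2)) (2 + th / 2) η s Q x| ≤ gam am th η s x / 1000 ∧
      |y x| ≤ gam am th η s x / 100 ∧ |y1 x| ≤ gam am th η s x / 10 := by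
  obtain rfl : Q = fun X => p0 + p1 * X + p2 * X ^ 2 + p3 * X ^ 3 := funext hQ
  obtain ⟨g1, g2, hg⟩ := exists_om_deriv (p := 2 + th / 2) hη (by linarith) (by linarith)
    h0 h1 h2 h3
  obtain ⟨c, hc⟩ : ∃ c, c = am * s ^ (2 - th / 2) := ⟨_, rfl⟩
  have hc0 : 0 < c := by rw [hc]; positivity
  have hc2 : am / 2 * s ^ (2 - th / 2) = c / 2 := by rw [hc]; ring
  refine ⟨fun x => c * g1 (x ^ 2 / s), fun x => 2 * c * g2 (x ^ 2 / s), fun x hx => ?_⟩
  have hX : 0 < x ^ 2 / s := by positivity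
  have hd : HasDerivAt (fun x : ℝ => x ^ 2 / s) (2 * x / s) x :=
    ((hasDerivAt_pow 2 x).div_const s).congr_deriv (by push_cast; ring)
  obtain ⟨d1, d2, b1, b2⟩ := hg _ hX
  have b0 := (cubic_bounds h0 h1 h2 h3 hX.le).1
  have ho := om_nonneg (2 + th / 2) hη hX.le
  have hw : 0 ≤ om (2 + th / 2) η (x ^ 2 / s) * (1 + (x ^ 2 / s) ^ 3) := by positivity
  rw [hc2, gam, mul_assoc 40 am, ← hc]
  refine ⟨((d1.comp x hd).const_mul (c / 2)).congr_deriv ?_,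
    ((d2.comp x hd).const_mul c).congr_deriv ?_, ?_, ?_, ?_⟩
  · field_simp
  · field_simp
  · rw [gP, abs_mul, abs_mul, abs_of_pos (half_pos hc0), abs_of_nonneg ho]
    have := mul_le_mul_of_nonneg_left (mul_le_mul_of_nonneg_left b0 ho) (half_pos hc0).le
    linarith
  · rw [abs_mul, abs_of_pos hc0]
    have := mul_le_mul_of_nonneg_left b1 hc0.le
    nlinarith [mul_nonneg hc0.le hw]
  · rw [abs_mul, abs_of_pos (show 0 < 2 * c by linarith)]
    have := mul_le_mul_of_nonneg_left b2 hc0.le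
    nlinarith [mul_nonneg hc0.le hw]

theorem two_rpow_le {a : ℝ} (ha : a ≤ 7 / 40) : (2 : ℝ) ^ a ≤ 113 / 100 := by
  refine (rpow_le_rpow_of_exponent_le one_le_two ha).trans ?_
  rw [show (7 / 40 : ℝ) = ((7 : ℕ) : ℝ) * ((40 : ℕ) : ℝ)⁻¹ by norm_num, rpow_mul (by norm_num),
    rpow_inv_le_iff_of_pos (by positivity) (by norm_num) (by norm_num), rpow_natCast, rpow_natCast]
  norm_num

theorem sq_div_rpow {x s : ℝ} (hx : 0 < x) (hs : 0 < s) (a : ℝ) :
    (x ^ 2 / s) ^ a = x ^ (2 * a) / s ^ a := by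
  rw [div_rpow (by positivity) hs.le, ← rpow_natCast, ← rpow_mul hx.le]
  norm_num

theorem om_le {p η X : ℝ} (hη : 0 < η) (hX : 0 ≤ X) : om p η X ≤ (X + η) ^ (1 - p) := by
  have h : 0 < X + η := by linarith
  rw [sub_eq_add_neg, rpow_add h, rpow_one, om]
  exact mul_le_mul_of_nonneg_right (by linarith) (rpow_nonneg h.le _)

theorem om_le' {p η X : ℝ} (hp : 0 ≤ p) (hη : 0 < η) (hX : 0 < X) : om p η X ≤ X ^ (1 - p) := by
  rw [sub_eq_add_neg, rpow_add hX, rpow_one, om]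
  exact mul_le_mul_of_nonneg_left (rpow_le_rpow_of_nonpos hX (by linarith) (by linarith)) hX.le

section gam

variable {am th η s x : ℝ} (ham : 0 < am) (hth0 : 0 < th) (hη : 0 < η) (hs : 0 < s) (hx : 0 < x)
include ham hη hs

theorem gam_nonneg : 0 ≤ gam am th η s x := by
  have := om_nonneg (2 + th / 2) hη (show 0 ≤ x ^ 2 / s by positivity)
  unfold gam
  positivity

include hth0 hx

theorem gam_le_a (hsm : η ^ (-(2 + th / 2)) * s ^ (1 / 10 - th / 2) ≤ 1) :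
    gam am th η s x ≤ 40 * am * x ^ 2 * (s ^ (9 / 10 : ℝ) + x ^ (2 - th)) := by
  have hX : 0 < x ^ 2 / s := by positivity
  have e1 : gam am th η s x = 40 * am * x ^ 2 * (s ^ (1 - th / 2) * (x ^ 2 / s + η) ^ (-(2 + th / 2)) +
      s ^ (1 - th / 2) * ((x ^ 2 / s + η) ^ (-(2 + th / 2)) * (x ^ 2 / s) ^ 3)) := by
    rw [gam, om, show 2 - th / 2 = (1 - th / 2) + 1 by ring, rpow_add_one hs.ne']
    field_simp
  rw [e1]
  refine mul_le_mul_of_nonneg_left (add_le_add ?_ ?_) (by positivity)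
  · calc _ ≤ s ^ (1 - th / 2) * η ^ (-(2 + th / 2)) := mul_le_mul_of_nonneg_left
          (rpow_le_rpow_of_nonpos hη (by linarith) (by linarith)) (by positivity)
      _ = s ^ (9 / 10 : ℝ) * (η ^ (-(2 + th / 2)) * s ^ (1 / 10 - th / 2)) := by
          rw [show 1 - th / 2 = 9 / 10 + (1 / 10 - th / 2) by ring, rpow_add hs]; ring
      _ ≤ _ := mul_le_of_le_one_right (by positivity) hsm
  · calc _ ≤ s ^ (1 - th / 2) * ((x ^ 2 / s) ^ (-(2 + th / 2)) * (x ^ 2 / s) ^ 3) :=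
          mul_le_mul_of_nonneg_left (mul_le_mul_of_nonneg_right
            (rpow_le_rpow_of_nonpos hX (by linarith) (by linarith)) (by positivity))
            (by positivity)
      _ = _ := by
          rw [← rpow_natCast _ 3, ← rpow_add hX, sq_div_rpow hx hs]
          push_cast
          rw [show -(2 + th / 2) + 3 = 1 - th / 2 by ring, show 2 * (1 - th / 2) = 2 - th by ring]
          field_simp

theorem gam_le_c (hX : 1 ≤ x ^ 2 / s) : gam am th η s x ≤ 80 * am * x ^ (4 - th) := by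
  have hX0 : 0 < x ^ 2 / s := by positivity
  have h1 : 1 + (x ^ 2 / s) ^ 3 ≤ 2 * (x ^ 2 / s) ^ 3 := by
    linarith [one_le_pow₀ hX (n := 3)]
  have h2 := om_le' (p := 2 + th / 2) (by linarith) hη hX0
  calc _ ≤ 40 * am * s ^ (2 - th / 2) * ((x ^ 2 / s) ^ (1 - (2 + th / 2)) * (2 * (x ^ 2 / s) ^ 3)) :=
        mul_le_mul_of_nonneg_left (mul_le_mul h2 h1 (by positivity) (by positivity))
          (by positivity)
    _ = 80 * am * (s ^ (2 - th / 2) * ((x ^ 2 / s) ^ (1 - (2 + th / 2)) * (x ^ 2 / s) ^ 3)) := by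
        ring
    _ = _ := by
        rw [← rpow_natCast _ 3, ← rpow_add hX0, sq_div_rpow hx hs]
        push_cast
        rw [show 1 - (2 + th / 2) + 3 = 2 - th / 2 by ring, show 2 * (2 - th / 2) = 4 - th by ring]
        field_simp

omit hth0 in
theorem gam_le_inner (hX : x ^ 2 / s ≤ 1) :
    gam am th η s x ≤ 80 * am * s ^ (2 - th / 2) * om (2 + th / 2) η (x ^ 2 / s) := by
  have hX0 : 0 < x ^ 2 / s := by positivity
  have h1 : 1 + (x ^ 2 / s) ^ 3 ≤ 2 := by linarith [pow_le_one₀ hX0.le hX (n := 3)]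
  have h2 := om_nonneg (2 + th / 2) hη hX0.le
  calc _ ≤ 40 * am * s ^ (2 - th / 2) * (om (2 + th / 2) η (x ^ 2 / s) * 2) :=
        mul_le_mul_of_nonneg_left (mul_le_mul_of_nonneg_left h1 h2) (by positivity)
    _ = _ := by ring

theorem gam_le_b (hth : th ≤ 11 / 100) (hη1 : η ≤ 1) (hX : x ^ 2 / s ≤ 1) {r : ℝ} (hr : 0 < r)
    (hr2 : r ^ 2 ≤ x ^ 2 + η * s) :
    gam am th η s x ≤ 120 * am * (s ^ (2 - th / 2 + 47 / 40) * r ^ (-47 / 20 : ℝ)) := by
  have hX0 : 0 < x ^ 2 / s := by positivity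
  have hXη : 0 < x ^ 2 / s + η := by positivity
  have h1 : (x ^ 2 / s + η) ^ (-47 / 40 : ℝ) ≤ s ^ (47 / 40 : ℝ) * r ^ (-47 / 20 : ℝ) := by
    have h2 : r ^ 2 / s ≤ x ^ 2 / s + η := by
      rw [div_le_iff₀ hs, add_mul, div_mul_cancel₀ _ hs.ne']; exact hr2
    refine (rpow_le_rpow_of_nonpos (by positivity) h2 (by norm_num)).trans_eq ?_
    rw [sq_div_rpow hr hs, show (-47 / 40 : ℝ) = -(47 / 40) by norm_num, rpow_neg hs.le,
      div_inv_eq_mul, mul_comm]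
    norm_num
  have h3 : (x ^ 2 / s + η) ^ (7 / 40 - th / 2) ≤ 113 / 100 :=
    (rpow_le_rpow hXη.le (by linarith) (by linarith)).trans (two_rpow_le (by linarith))
  have h4 : om (2 + th / 2) η (x ^ 2 / s) ≤
      113 / 100 * (s ^ (47 / 40 : ℝ) * r ^ (-47 / 20 : ℝ)) := by
    refine (om_le hη hX0.le).trans ?_
    rw [show 1 - (2 + th / 2) = (7 / 40 - th / 2) + -47 / 40 by ring, rpow_add hXη]
    exact mul_le_mul h3 h1 (by positivity) (by norm_num)
  refine (gam_le_inner ham hη hs hx hX).trans ?_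
  rw [rpow_add hs]
  have h5 := mul_le_mul_of_nonneg_left h4 (show 0 ≤ 80 * am * s ^ (2 - th / 2) by positivity)
  have h6 : 0 ≤ am * s ^ (2 - th / 2) * (s ^ (47 / 40 : ℝ) * r ^ (-47 / 20 : ℝ)) := by positivity
  nlinarith

omit hth0 in
theorem gam_le_d (hX : x ^ 2 / s ≤ 1) : x ^ 2 * gam am th η s x ≤
    80 * am * (s ^ (1 + (2 - th / 2)) * (x ^ 2 / s + η) ^ (-(th / 2))) := by
  have hX0 : 0 < x ^ 2 / s := by positivity
  have hXη : 0 < x ^ 2 / s + η := by positivity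
  have h1 : x ^ 2 / s * om (2 + th / 2) η (x ^ 2 / s) ≤ (x ^ 2 / s + η) ^ (-(th / 2)) := by
    rw [show -(th / 2) = 1 + (1 - (2 + th / 2)) by ring, rpow_add hXη, rpow_one]
    exact mul_le_mul (by linarith) (om_le hη hX0.le) (om_nonneg _ hη hX0.le) hXη.le
  calc _ ≤ x ^ 2 * (80 * am * s ^ (2 - th / 2) * om (2 + th / 2) η (x ^ 2 / s)) :=
        mul_le_mul_of_nonneg_left (gam_le_inner ham hη hs hx hX) (by positivity)
    _ = 80 * am * (s * s ^ (2 - th / 2) * (x ^ 2 / s * om (2 + th / 2) η (x ^ 2 / s))) := by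
        field_simp
    _ ≤ _ := by
        rw [rpow_add hs, rpow_one]
        exact mul_le_mul_of_nonneg_left (mul_le_mul_of_nonneg_left h1 (by positivity))
          (by positivity)

end gam

end Vale.Agent.P244Z.W
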