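import Vale.Agent.N244X.QDatAlg

/-!
# P244, large `q` design: pointwise bounds for `E`, `P`, `D` of the initial data
-/

open Set Real Filter Topology
open scoped ContDiff

namespace Vale.Agent.P244Z.W

namespace Sizes

variable {K : Consts} {s x ρ EB Γ : ℝ} (h : Sizes K s x ρ EB Γ) (ham : 0 < K.am) (hs : 0 < s)
  (hρ : 0 < ρ) (hE : 0 ≤ EB)
include h ham hs hρ hE

theorem all : EB ≤ 6 / 5 * K.am * (s ^ (K.lam + 47 / 40) * ρ ^ (-47 / 20 : ℝ) + ρ ^ (2 * K.lam)) ∧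
    Γ ≤ 160 * K.am * (s ^ (K.lam + 47 / 40) * ρ ^ (-47 / 20 : ℝ) + ρ ^ (2 * K.lam)) := by
  have h1 : 0 ≤ K.am * (s ^ (K.lam + 47 / 40) * ρ ^ (-47 / 20 : ℝ)) := by positivity
  have h2 : 0 ≤ K.am * ρ ^ (2 * K.lam) := by positivity
  rcases le_total (x ^ 2 / s) 1 with hX | hX
  · obtain ⟨a, b⟩ := h.inner hX
    constructor <;> linarith
  · obtain ⟨a, b⟩ := h.outer hX
    have := le_mul_of_one_le_right hE (one_le_pow₀ hX (n := 3))
    constructor <;> linarith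

theorem out {E q : ℝ} (hq : 1 ≤ q) (hEE : |E - EB| ≤ Γ / 250) (hX : 16 * q ≤ x ^ 2 / s) :
    |E| ≤ 2 * K.am * ρ ^ (2 * K.lam) * (1 - 7 * q * s / ρ ^ 2) := by
  obtain ⟨a, b⟩ := h.outer (by linarith)
  have h2 : 0 ≤ K.am * ρ ^ (2 * K.lam) := by positivity
  have h3 : EB * 2 ^ 3 ≤ EB * (x ^ 2 / s) ^ 3 :=
    mul_le_mul_of_nonneg_left (pow_le_pow_left₀ (by norm_num) (by linarith) 3) hE
  have h4 : 7 * q * s / ρ ^ 2 ≤ 1 / 2 := by
    rw [le_div_iff₀ hs] at hX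
    rw [div_le_iff₀ (by positivity)]
    linarith [h.x_le, sq_nonneg ρ]
  have h5 := mul_le_mul_of_nonneg_left h4 h2
  rw [abs_le] at hEE ⊢
  constructor <;> linarith

end Sizes

namespace PC

variable {K : Consts} {η τ s : ℝ} {U Y Z : ℝ → ℝ} (h : PC K η τ s U Y Z) {x G : ℝ}
include h

theorem e_sub (hG : |G| ≤ 1 / 2) : |x ^ 2 / (rB K.q U x * exp G) ^ 2 - eB K.q U x| ≤ 4 * |G| := by
  have hr := (h.sb.r_pos x).ne'
  have h1 : x ^ 2 / (rB K.q U x * exp G) ^ 2 - eB K.q U x = eB K.q U x * (exp (-2 * G) - 1) := by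
    rw [eB, neg_mul, exp_neg, two_mul, exp_add]
    field_simp
  have h2 : |exp (-2 * G) - 1| ≤ 2 * |-2 * G| :=
    abs_exp_sub_one_le (by rw [abs_mul]; norm_num; linarith)
  have h3 : |eB K.q U x| ≤ 1 := abs_le.2 ⟨by linarith [h.sb.Y_nonneg x, h.sb.Y_le x],
    (h.sb.e_lt x).le⟩
  rw [h1]
  refine (abs_mul_le h3 h2).trans_eq ?_
  rw [abs_mul]
  norm_num
  ring

theorem D_eq (x G : ℝ) : (rB K.q U x * exp G) ^ 2 - x ^ 2 =
    dB K.q U x + dB K.q U x * (exp (2 * G) - 1) + x ^ 2 * (exp (2 * G) - 1) := by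
  have := h.ok
  rw [dB, two_mul, exp_add]
  ring

theorem D_low (hx : 0 < x) (hx2 : x ≤ 1 / 2) (hG : |G| ≤ gam K.am K.th η s x / 1000)
    (hX : x ^ 2 / s ≤ 1) :
    K.am / 2 * s ^ (1 + K.lam) ≤ (rB K.q U x * exp G) ^ 2 - x ^ 2 := by
  have hs := h.s_pos
  have ham := h.ok.am_pos
  have hΓ := h.gam_small hx hx2
  have h1 : |exp (2 * G) - 1| ≤ 4 * |G| := by
    have := abs_exp_sub_one_le (x := 2 * G) (by rw [abs_mul, abs_two]; linarith)
    rw [abs_mul, abs_two] at this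
    linarith
  have h2 := (abs_le.1 h1).1
  have h3 := h.D_inner hx
  have h4 := gam_le_d (th := K.th) ham h.η_pos hs hx hX
  have hD := h.sb.D_pos x
  have h5 : dB K.q U x * (-(1 / 100)) ≤ dB K.q U x * (exp (2 * G) - 1) :=
    mul_le_mul_of_nonneg_left (by linarith) hD.le
  have h6 : x ^ 2 * (-(gam K.am K.th η s x / 250)) ≤ x ^ 2 * (exp (2 * G) - 1) :=
    mul_le_mul_of_nonneg_left (by linarith) (sq_nonneg x)
  have h7 : 100 / 113 ≤ (x ^ 2 / s + η) ^ (-(K.th / 2)) := by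
    have hXη : 0 < x ^ 2 / s + η := by have := h.η_pos; positivity
    have := (rpow_le_rpow hXη.le (show x ^ 2 / s + η ≤ 2 by linarith [h.η_le])
      (show 0 ≤ K.th / 2 by linarith [h.ok.th_pos])).trans
      (two_rpow_le (by linarith [h.th_le]))
    rw [rpow_neg hXη.le, le_inv_comm₀ (by norm_num) (by positivity)]
    linarith
  have h8 := mul_le_mul_of_nonneg_left h7
    (show 0 ≤ K.am * s ^ (1 + (2 - K.th / 2)) by positivity)
  have h9 : 0 ≤ K.am * s ^ (1 + (2 - K.th / 2)) := by positivity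
  rw [h.D_eq, Consts.lam]
  linarith

theorem b_inner (hx : 0 < x) (hX : x ^ 2 / s ≤ 1) :
    x ^ K.th * dB K.q U x / s ^ 3 ≤ 23 / 20 * K.am * (x ^ 2 / s) ^ (-(1 / 2) : ℝ) := by
  have hs := h.s_pos
  have ham := h.ok.am_pos
  have hr := h.sb.r_pos x
  have h1 := mul_le_mul_of_nonneg_left (h.E_inner hx hX) (sq_nonneg (rB K.q U x))
  have h2 : rB K.q U x ^ 2 * rB K.q U x ^ (-47 / 20 : ℝ) ≤ x ^ (-7 / 20 : ℝ) := by
    rw [← rpow_natCast, ← rpow_add hr]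
    norm_num
    exact rpow_le_rpow_of_nonpos hx (h.le_r x) (by norm_num)
  have h3 : dB K.q U x ≤ 23 / 20 * K.am * (s ^ (2 - K.th / 2 + 47 / 40) * x ^ (-7 / 20 : ℝ)) := by
    rw [dB_eq h.sb.one_lt]
    have := mul_le_mul_of_nonneg_left h2
      (show 0 ≤ 23 / 20 * K.am * s ^ (2 - K.th / 2 + 47 / 40) by positivity)
    linarith
  have h4 : (x ^ 2 / s) ^ (K.th / 2 - 7 / 40) ≤ (x ^ 2 / s) ^ (-(1 / 2) : ℝ) :=
    rpow_le_rpow_of_exponent_ge (by positivity) hX (by linarith [h.ok.th_pos])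
  calc _ ≤ x ^ K.th * (23 / 20 * K.am * (s ^ (2 - K.th / 2 + 47 / 40) * x ^ (-7 / 20 : ℝ))) /
        s ^ 3 := div_le_div_of_nonneg_right (mul_le_mul_of_nonneg_left h3 (by positivity))
          (by positivity)
    _ = 23 / 20 * K.am * (x ^ 2 / s) ^ (K.th / 2 - 7 / 40) := by
        rw [sq_div_rpow hx hs, show 2 * (K.th / 2 - 7 / 40) = K.th + -7 / 20 by ring, rpow_add hx,
          show 2 - K.th / 2 + 47 / 40 = (3 : ℕ) - (K.th / 2 - 7 / 40) by push_cast; ring,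
          rpow_sub hs, rpow_natCast]
        field_simp
    _ ≤ _ := mul_le_mul_of_nonneg_left h4 (by positivity)

end PC

theorem one_le_lam {X : ℝ} (hX : 0 < X) :
    1 ≤ X⁻¹ + X ^ 6 ∧ X ≤ X⁻¹ + X ^ 6 ∧ X ^ 2 ≤ X⁻¹ + X ^ 6 ∧ X ^ 4 ≤ X⁻¹ + X ^ 6 := by
  have h0 : 0 < X⁻¹ := inv_pos.2 hX
  have h6 : 0 < X ^ 6 := by positivity
  rcases le_total X 1 with h | h
  · have h1 : 1 ≤ X⁻¹ := one_le_inv₀ hX |>.2 h
    exact ⟨by linarith, by linarith, by linarith [pow_le_one₀ hX.le h (n := 2)],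
      by linarith [pow_le_one₀ hX.le h (n := 4)]⟩
  · have h1 := pow_le_pow_right₀ h (show 1 ≤ 6 by norm_num)
    have h2 := pow_le_pow_right₀ h (show 2 ≤ 6 by norm_num)
    have h4 := pow_le_pow_right₀ h (show 4 ≤ 6 by norm_num)
    rw [pow_one] at h1
    exact ⟨by linarith, by linarith, by linarith, by linarith⟩

namespace PC

variable {K : Consts} {κ τ s : ℝ} {U Y Z : ℝ → ℝ} (h : PC K (κ ^ 2) τ s U Y Z) {x : ℝ}
include h

theorem b_close (hκ : 0 < κ) (hτ : 0 ≤ τ) (hx : 0 < x) :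
    |x ^ K.th * dB K.q U x / s ^ 3 - K.am| ≤
      K.am * (τ + 3 * κ) * ((x ^ 2 / s)⁻¹ + (x ^ 2 / s) ^ 6) ∧
    x ^ K.th * dB K.q U x / s ^ 3 * (x ^ 2 / s) ≤
      2 * K.am * ((x ^ 2 / s)⁻¹ + (x ^ 2 / s) ^ 6) := by
  have hs := h.s_pos
  have ham := h.ok.am_pos
  have hX : 0 < x ^ 2 / s := by positivity
  have hκ1 : κ ≤ 1 := by nlinarith [h.η_le]
  obtain ⟨l1, l2, -, -⟩ := one_le_lam hX
  have hb0 : 0 ≤ x ^ K.th * dB K.q U x / s ^ 3 := by have := h.sb.D_pos x; positivity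
  rcases le_total (κ ^ 2 * s) (x ^ 2) with hc | hc
  · have h1 : |x ^ K.th * dB K.q U x / s ^ 3 - K.am| ≤ τ * K.am := by
      have h2 := h.far x hx hc
      have h3 : x ^ K.th * dB K.q U x / s ^ 3 - K.am =
          (x ^ K.th * dB K.q U x - K.am * s ^ 3) / s ^ 3 := by field_simp
      rw [h3, abs_div, abs_of_pos (pow_pos hs 3), div_le_iff₀ (pow_pos hs 3)]
      linarith
    have h2 : x ^ K.th * dB K.q U x / s ^ 3 ≤ 2 * K.am := by
      nlinarith [(abs_le.1 h1).2, h.τ_le]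
    refine ⟨h1.trans ?_, mul_le_mul h2 l2 hX.le (by positivity)⟩
    have h3 : K.am * (τ + 3 * κ) * 1 ≤ K.am * (τ + 3 * κ) * ((x ^ 2 / s)⁻¹ + (x ^ 2 / s) ^ 6) :=
      mul_le_mul_of_nonneg_left l1 (by positivity)
    nlinarith [mul_pos ham hκ]
  · rw [← div_le_iff₀ hs] at hc
    have hX1 : x ^ 2 / s ≤ 1 := hc.trans h.η_le
    have h1 := h.b_inner hx hX1
    generalize x ^ 2 / s = X at *
    generalize x ^ K.th * dB K.q U x / s ^ 3 = b at *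
    have h2 : X ^ (-(1 / 2) : ℝ) ≤ κ * X⁻¹ := by
      rw [show (-(1 / 2) : ℝ) = 1 / 2 + -1 by norm_num, rpow_add hX, rpow_neg_one, ← sqrt_eq_rpow]
      exact mul_le_mul_of_nonneg_right (sqrt_le_iff.2 ⟨hκ.le, hc⟩) (inv_pos.2 hX).le
    have h3 : 1 ≤ κ * X⁻¹ := by
      rw [← div_eq_mul_inv, one_le_div hX]
      nlinarith
    have h4 : κ * X⁻¹ ≤ κ * (X⁻¹ + X ^ 6) :=
      mul_le_mul_of_nonneg_left (by linarith [pow_pos hX 6]) hκ.le
    have h5 : κ * (X⁻¹ + X ^ 6) ≤ 1 * (X⁻¹ + X ^ 6) :=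
      mul_le_mul_of_nonneg_right hκ1 (by linarith)
    have h6 := mul_le_mul_of_nonneg_left (h2.trans h4) ham.le
    have h7 := mul_le_mul_of_nonneg_left (h3.trans h4) ham.le
    have h8 := mul_le_mul_of_nonneg_left h5 ham.le
    have h9 : 0 ≤ K.am * τ * (X⁻¹ + X ^ 6) := by positivity
    refine ⟨abs_le.2 ⟨by linarith, by linarith⟩, ?_⟩
    have := mul_le_of_le_one_right hb0 hX1
    linarith

/-- The rescaled `D` is close to the prescribed polynomial. -/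
theorem close (hκ : 0 < κ) (hτ : 0 ≤ τ) (hx : 0 < x) (hx2 : x ≤ 1 / 2) {Q : ℝ → ℝ}
    (hQ : |Q (x ^ 2 / s)| ≤ 2 / 25 * (1 + (x ^ 2 / s) ^ 3)) {G : ℝ}
    (hG : G = gP (K.am / 2 * s ^ (2 - K.th / 2)) (2 + K.th / 2) (κ ^ 2) s Q x)
    (hG1 : |G| ≤ gam K.am K.th (κ ^ 2) s x / 1000) :
    |x ^ K.th * ((rB K.q U x * exp G) ^ 2 - x ^ 2) / s ^ 3 - K.am * (1 + Q (x ^ 2 / s))| ≤
      K.am * (τ + 4 * κ + 9 * s) * ((x ^ 2 / s)⁻¹ + (x ^ 2 / s) ^ 6) := by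
  have hs := h.s_pos
  have ham := h.ok.am_pos
  have hη := h.η_pos
  have hX : 0 < x ^ 2 / s := by positivity
  have hκ1 : κ ≤ 1 := by nlinarith [h.η_le]
  obtain ⟨b1, b2⟩ := h.b_close hκ hτ hx
  obtain ⟨l1, l2, l3, l4⟩ := one_le_lam hX
  have hb0 : 0 ≤ x ^ K.th * dB K.q U x / s ^ 3 := by have := h.sb.D_pos x; positivity
  have hΓ := h.gam_small hx hx2
  have hG2 : |G| ≤ s * (x ^ 2 / s) := by
    have h1 := h.gam_le hx hx2
    have h2 := mul_le_mul_of_nonneg_right h.am_le (sq_nonneg x)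
    rw [mul_div_cancel₀ _ hs.ne']
    linarith [sq_nonneg x]
  have h2G : |2 * G| ≤ 1 := by rw [abs_mul, abs_two]; linarith
  have e1 : |exp (2 * G) - 1| ≤ 4 * (s * (x ^ 2 / s)) := by
    have := abs_exp_sub_one_le h2G
    rw [abs_mul, abs_two] at this
    linarith
  have e2 := abs_exp_sub_one_sub_id_le h2G
  obtain ⟨w, hw⟩ : ∃ w, w = x ^ K.th * x ^ 2 / s ^ 3 := ⟨_, rfl⟩
  have hw0 : 0 < w := by rw [hw]; positivity
  obtain ⟨μ, hμ⟩ : ∃ μ, μ = (x ^ 2 / s / (x ^ 2 / s + κ ^ 2)) ^ (2 + K.th / 2) := ⟨_, rfl⟩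
  have hwG : w * (2 * G) = K.am * μ * Q (x ^ 2 / s) := by
    have e3 : (x ^ 2 / s) ^ (2 + K.th / 2) = (x ^ 2 / s) ^ 2 * (x ^ K.th / s ^ (K.th / 2)) := by
      rw [rpow_add hX, rpow_two, sq_div_rpow hx hs, show 2 * (K.th / 2) = K.th by ring]
    rw [hw, hG, hμ, gP, om, div_rpow hX.le (by positivity), e3, rpow_neg (by positivity),
      rpow_sub hs, rpow_two]
    field_simp
  have m0 : 0 ≤ x ^ 2 / s / (x ^ 2 / s + κ ^ 2) := by positivity
  have m1 : x ^ 2 / s / (x ^ 2 / s + κ ^ 2) ≤ 1 := (div_le_one (by positivity)).2 (by linarith)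
  have hμ0 : 0 ≤ μ := by rw [hμ]; positivity
  have hμ1 : μ ≤ 1 := by rw [hμ]; exact rpow_le_one m0 m1 (by linarith [h.ok.th_pos])
  have hμ2 : (1 - μ) * (x ^ 2 / s) ≤ 3 * κ := by
    have h1 : (x ^ 2 / s / (x ^ 2 / s + κ ^ 2)) ^ 3 ≤ μ := by
      rw [hμ, ← rpow_natCast]
      exact rpow_le_rpow_of_exponent_ge (by positivity) m1 (by push_cast; linarith [h.th_le])
    have h2 : (1 - x ^ 2 / s / (x ^ 2 / s + κ ^ 2)) * (x ^ 2 / s) ≤ κ ^ 2 := by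
      have : (1 - x ^ 2 / s / (x ^ 2 / s + κ ^ 2)) * (x ^ 2 / s) =
          κ ^ 2 * (x ^ 2 / s / (x ^ 2 / s + κ ^ 2)) := by
        field_simp
        ring
      rw [this]
      exact mul_le_of_le_one_right hη.le m1
    generalize x ^ 2 / s / (x ^ 2 / s + κ ^ 2) = m at *
    have h3 : 1 - μ ≤ 3 * (1 - m) := by
      nlinarith [mul_nonneg (sq_nonneg (1 - m)) m0, sq_nonneg (1 - m)]
    nlinarith [mul_le_mul_of_nonneg_right h3 hX.le]
  have e4 : x ^ K.th * ((rB K.q U x * exp G) ^ 2 - x ^ 2) / s ^ 3 - K.am * (1 + Q (x ^ 2 / s)) =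
      (x ^ K.th * dB K.q U x / s ^ 3 - K.am) +
        x ^ K.th * dB K.q U x / s ^ 3 * (exp (2 * G) - 1) + w * (exp (2 * G) - 1 - 2 * G) -
        K.am * ((1 - μ) * Q (x ^ 2 / s)) := by
    rw [h.D_eq]
    linear_combination hwG - (exp (2 * G) - 1) * hw
  rw [e4]
  generalize x ^ 2 / s = X at *
  generalize x ^ K.th * dB K.q U x / s ^ 3 = b at *
  have t2 : |b * (exp (2 * G) - 1)| ≤ K.am * (8 * s) * (X⁻¹ + X ^ 6) := by
    refine (abs_mul_le (abs_of_nonneg hb0).le e1).trans ?_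
    linarith [mul_le_mul_of_nonneg_left b2 hs.le]
  have t3 : |w * (exp (2 * G) - 1 - 2 * G)| ≤ K.am * s * (X⁻¹ + X ^ 6) := by
    have h1 : |w * (2 * G)| ≤ K.am * 1 * (2 / 25 * (1 + X ^ 3)) := by
      rw [hwG]
      exact abs_mul_le (abs_mul_le (abs_of_pos ham).le (by rwa [abs_of_nonneg hμ0])) hQ
    have h2 : |2 * G| ≤ 2 * (s * X) := by rw [abs_mul, abs_two]; linarith
    have h3 := (le_abs_self _).trans (abs_mul_le h1 h2)
    have h4 := abs_mul_le (abs_of_pos hw0).le e2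
    have h5 := mul_le_mul_of_nonneg_left (add_le_add l2 l4) (mul_pos ham hs).le
    have h6 : 0 ≤ K.am * s * (X⁻¹ + X ^ 6) := by positivity
    linarith
  have t4 : |K.am * ((1 - μ) * Q X)| ≤ K.am * κ * (X⁻¹ + X ^ 6) := by
    have h1 : |1 - μ| ≤ 3 * κ * X⁻¹ := by
      rw [abs_of_nonneg (by linarith), ← div_eq_mul_inv, le_div_iff₀ hX]
      exact hμ2
    refine (abs_mul_le (abs_of_pos ham).le (abs_mul_le h1 hQ)).trans ?_
    have h2 : X⁻¹ * X ^ 3 = X ^ 2 := by field_simp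
    have h3 : X⁻¹ ≤ X⁻¹ + X ^ 6 := by linarith [pow_pos hX 6]
    have h5 := mul_le_mul_of_nonneg_left (add_le_add h3 l3) (mul_pos ham hκ).le
    have h6 : 0 ≤ K.am * κ * (X⁻¹ + X ^ 6) := by positivity
    have h7 : K.am * (3 * κ * X⁻¹ * (2 / 25 * (1 + X ^ 3))) =
        6 / 25 * (K.am * κ * (X⁻¹ + X ^ 2)) := by
      rw [← h2]; ring
    linarith
  rw [abs_le] at b1 t2 t3 t4 ⊢
  constructor <;> linarith

end PC

end Vale.Agent.P244Z.W
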