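import Vale.Agent.N244X.QDatPert

/-!
# P244, large `q` design: sizes of the bubble and of the perturbation
-/

open Set Real Filter Topology
open scoped ContDiff

namespace Vale.Agent.P244Z.W

theorem exp_small {t : ℝ} (ht : |t| ≤ 1 / 200) : exp t ≤ 101 / 100 := by
  have := abs_exp_sub_one_le (x := t) (by linarith)
  linarith [(abs_le.1 this).2]

theorem rpow_le_pert {r G g : ℝ} (hr : 0 < r) (hG : |G| ≤ 1 / 1000) (hg : |g| ≤ 4) :
    r ^ g ≤ 101 / 100 * (r * exp G) ^ g := by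
  have h1 : exp (-(G * g)) ≤ 101 / 100 := by
    refine exp_small ?_
    rw [abs_neg, abs_mul]
    nlinarith [abs_nonneg G, abs_nonneg g]
  have h2 : r ^ g = exp (-(G * g)) * (r * exp G) ^ g := by
    rw [mul_rpow hr.le (exp_pos G).le, ← exp_mul, exp_neg]
    field_simp
  rw [h2]
  exact mul_le_mul_of_nonneg_right h1 (by positivity)

theorem G_sum_ge {s ρ : ℝ} (hs : 0 < s) (hρ : 0 < ρ) :
    s ^ (9 / 10 : ℝ) ≤ s ^ (83 / 40 : ℝ) * ρ ^ (-47 / 20 : ℝ) + ρ ^ (9 / 5 : ℝ) := by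
  have e : ∀ a : ℝ, (ρ ^ 2) ^ a = ρ ^ (2 * a) := fun a => by
    rw [← rpow_natCast, ← rpow_mul hρ.le]; norm_num
  rcases le_total (ρ ^ 2) s with h | h
  · have h1 := rpow_le_rpow_of_nonpos (by positivity) h (show (-47 / 40 : ℝ) ≤ 0 by norm_num)
    rw [e, show 2 * (-47 / 40 : ℝ) = -47 / 20 by norm_num] at h1
    have h2 := mul_le_mul_of_nonneg_left h1 (rpow_pos_of_pos hs (83 / 40)).le
    rw [← rpow_add hs, show (83 / 40 + -47 / 40 : ℝ) = 9 / 10 by norm_num] at h2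
    linarith [rpow_pos_of_pos hρ (9 / 5)]
  · have h1 := rpow_le_rpow hs.le h (show (0 : ℝ) ≤ 9 / 10 by norm_num)
    rw [e, show 2 * (9 / 10 : ℝ) = 9 / 5 by norm_num] at h1
    have : 0 < s ^ (83 / 40 : ℝ) * ρ ^ (-47 / 20 : ℝ) := by positivity
    linarith

/-- The standing assumptions on the bubble and on the small parameters. -/
structure PC (K : Consts) (η τ s : ℝ) (U Y Z : ℝ → ℝ) : Prop where
  ok : K.OK
  sb : SB K.q U Y Z
  η_pos : 0 < η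
  η_le : η ≤ 1
  τ_le : τ ≤ 1 / 100
  s_pos : 0 < s
  s_le : s ≤ 1 / 2
  D0 : dB K.q U 0 ≤ η * s
  far : ∀ x, 0 < x → η * s ≤ x ^ 2 →
    |x ^ K.th * dB K.q U x - K.am * s ^ 3| ≤ τ * (K.am * s ^ 3)
  small : η ^ (-(2 + K.th / 2)) * s ^ (1 / 10 - K.th / 2) ≤ 1

theorem Consts.OK.exists_pc {K : Consts} (hK : K.OK) {η τ : ℝ} (hη : 0 < η) (hη1 : η ≤ 1)
    (hτ : 0 < τ) (hτ1 : τ ≤ 1 / 100) : ∀ᶠ s in 𝓝[>] (0 : ℝ), ∃ U Y Z, PC K η τ s U Y Z := by
  have hq : (47 : ℝ) ≤ K.q := by exact_mod_cast hK.q_ge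
  have hth : K.th ≤ 11 / 100 := hK.th_le.trans (by rw [div_le_iff₀ (by linarith)]; linarith)
  filter_upwards [exists_sb hK hη hτ, ev_rpow (η ^ (-(2 + K.th / 2)))
    (show 0 < 1 / 10 - K.th / 2 by linarith) one_pos, self_mem_nhdsWithin,
    ev_rpow 1 one_pos (show (0 : ℝ) < 1 / 2 by norm_num)] with s ⟨U, Y, Z, h1, h2, h3⟩ h4 h5 h6
  exact ⟨U, Y, Z, hK, h1, hη, hη1, hτ1, h5, by simpa using h6, h2, h3, h4⟩

namespace PC

variable {K : Consts} {η τ s : ℝ} {U Y Z : ℝ → ℝ} (h : PC K η τ s U Y Z)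
include h

theorem q_ge : (47 : ℝ) ≤ K.q := by exact_mod_cast h.ok.q_ge

theorem th_le : K.th ≤ 11 / 100 :=
  h.ok.th_le.trans (by rw [div_le_iff₀ (by linarith [h.q_ge])]; linarith [h.q_ge])

theorem qam_le : (K.q : ℝ) * K.am ≤ 1 / 100000 := by
  have h1 := h.q_ge
  have h2 := h.ok.am_q0
  have h3 : (K.q : ℝ) ≤ (K.q : ℝ) ^ 3 := le_self_pow₀ (by linarith) (by norm_num)
  have h4 := mul_le_mul_of_nonneg_left h3 h.ok.am_pos.le
  linarith

theorem am_le : K.am ≤ 1 / 100000 := by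
  have := h.qam_le
  nlinarith [h.q_ge, h.ok.am_pos]

theorem D_le {x : ℝ} (hx : 0 ≤ x) : dB K.q U x ≤ η * s :=
  (h.sb.D_anti (le_refl (0 : ℝ)) hx hx).trans h.D0

theorem r_sq_le {x : ℝ} (hx : 0 ≤ x) : rB K.q U x ^ 2 ≤ x ^ 2 + η * s := by
  have := h.D_le hx
  rw [dB] at this
  linarith

theorem sq_le_r (x : ℝ) : x ^ 2 ≤ rB K.q U x ^ 2 := by
  have := h.sb.D_pos x
  rw [dB] at this
  linarith

theorem le_r (x : ℝ) : x ≤ rB K.q U x :=
  (le_abs_self x).trans (abs_le_of_sq_le_sq (h.sq_le_r x) (h.sb.r_pos x).le)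

theorem far_le {x : ℝ} (hx : 0 < x) (hx2 : η * s ≤ x ^ 2) :
    99 / 100 * (K.am * s ^ 3) ≤ x ^ K.th * dB K.q U x ∧
      x ^ K.th * dB K.q U x ≤ 101 / 100 * (K.am * s ^ 3) := by
  have h1 := abs_le.1 (h.far x hx hx2)
  have h2 : 0 ≤ K.am * s ^ 3 := mul_nonneg h.ok.am_pos.le (pow_pos h.s_pos 3).le
  have h3 := mul_le_mul_of_nonneg_right h.τ_le h2
  constructor <;> linarith

theorem E_inner {x : ℝ} (hx : 0 < x) (hX : x ^ 2 / s ≤ 1) : 1 - eB K.q U x ≤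
    23 / 20 * K.am * (s ^ (2 - K.th / 2 + 47 / 40) * rB K.q U x ^ (-47 / 20 : ℝ)) := by
  have hs := h.s_pos
  have ham := h.ok.am_pos
  have hx1 : 0 < √s := sqrt_pos.2 hs
  have hsq : √s ^ 2 = s := sq_sqrt hs.le
  rw [div_le_one hs] at hX
  have h1 := h.sb.E_mono hx.le hx1.le (le_sqrt_of_sq_le hX)
  have hr := h.sb.r_pos x
  have hr1 := h.sb.r_pos √s
  have hηs : η * s ≤ s := mul_le_of_le_one_left hs.le h.η_le
  have h2 := (h.far_le hx1 (by rw [hsq]; exact hηs)).2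
  have h3 : dB K.q U √s ≤ 101 / 100 * (K.am * s ^ (3 - K.th / 2)) := by
    rw [sqrt_eq_rpow s, ← rpow_mul hs.le, ← sqrt_eq_rpow, ← le_div_iff₀' (by positivity)] at h2
    refine h2.trans_eq ?_
    rw [rpow_sub hs, show 1 / 2 * K.th = K.th / 2 by ring, show (3 : ℝ) = (3 : ℕ) by norm_num,
      rpow_natCast]
    ring
  have h4 : rB K.q U √s ^ (7 / 20 : ℝ) ≤ 113 / 100 * s ^ (7 / 40 : ℝ) := by
    have h5 : rB K.q U √s ^ 2 ≤ 2 * s := by
      have := h.r_sq_le hx1.le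
      rw [hsq] at this
      linarith
    have h6 := rpow_le_rpow (by positivity) h5 (show (0 : ℝ) ≤ 7 / 40 by norm_num)
    rw [← rpow_natCast, ← rpow_mul hr1.le, mul_rpow (by norm_num) hs.le] at h6
    norm_num at h6
    exact h6.trans (mul_le_mul_of_nonneg_right (two_rpow_le le_rfl) (by positivity))
  have h7 : (1 - eB K.q U √s) * rB K.q U √s ^ (47 / 20 : ℝ) =
      dB K.q U √s * rB K.q U √s ^ (7 / 20 : ℝ) := by
    rw [dB_eq h.sb.one_lt, show (47 / 20 : ℝ) = 2 + 7 / 20 by norm_num, rpow_add hr1, rpow_two]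
    ring
  have h8 := mul_le_mul h3 h4 (by positivity) (by positivity)
  have h9 : s ^ (2 - K.th / 2 + 47 / 40) = s ^ (3 - K.th / 2) * s ^ (7 / 40 : ℝ) := by
    rw [← rpow_add hs]; congr 1; ring
  have h10 : 0 ≤ K.am * s ^ (3 - K.th / 2) * s ^ (7 / 40 : ℝ) := by positivity
  rw [show (-47 / 20 : ℝ) = -(47 / 20) by norm_num, rpow_neg hr.le, ← div_eq_mul_inv,
    ← mul_div_assoc, le_div_iff₀ (by positivity), h9]
  simp only at h1
  nlinarith

theorem E_outer {x : ℝ} (hx : 0 < x) (hX : 1 ≤ x ^ 2 / s) :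
    (1 - eB K.q U x) * (x ^ 2 / s) ^ 3 ≤ 101 / 100 * K.am * x ^ (4 - K.th) := by
  have hs := h.s_pos
  rw [one_le_div hs] at hX
  have h2 := (h.far_le hx ((mul_le_of_le_one_left hs.le h.η_le).trans hX)).2
  have h3 : (1 - eB K.q U x) * x ^ 2 ≤ dB K.q U x := by
    rw [dB_eq h.sb.one_lt, mul_comm]
    exact mul_le_mul_of_nonneg_right (h.sq_le_r x) (sub_pos.2 (h.sb.e_lt x)).le
  have h4 : 0 < x ^ K.th := rpow_pos_of_pos hx _
  rw [← le_div_iff₀' h4] at h2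
  calc _ = (1 - eB K.q U x) * x ^ 2 * (x ^ 4 / s ^ 3) := by ring
    _ ≤ 101 / 100 * (K.am * s ^ 3) / x ^ K.th * (x ^ 4 / s ^ 3) :=
        mul_le_mul_of_nonneg_right (h3.trans h2) (by positivity)
    _ = _ := by
        rw [rpow_sub hx, show (4 : ℝ) = (4 : ℕ) by norm_num, rpow_natCast]
        field_simp

theorem D_inner {x : ℝ} (hx : 0 < x) : 99 / 100 * K.am *
    (s ^ (1 + (2 - K.th / 2)) * (x ^ 2 / s + η) ^ (-(K.th / 2))) ≤ dB K.q U x := by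
  have hs := h.s_pos
  have hη := h.η_pos
  have hp : 0 < x ^ 2 + η * s := by positivity
  have hx1 : 0 < √(x ^ 2 + η * s) := sqrt_pos.2 hp
  have h1 := h.sb.D_anti hx.le hx1.le (le_sqrt_of_sq_le (by nlinarith))
  have h2 := (h.far_le hx1 (by rw [sq_sqrt hp.le]; nlinarith)).1
  rw [sqrt_eq_rpow (x ^ 2 + η * s), ← rpow_mul hp.le, ← sqrt_eq_rpow,
    ← div_le_iff₀' (by positivity)] at h2
  refine le_trans (le_of_eq ?_) (h2.trans h1)
  rw [show x ^ 2 + η * s = s * (x ^ 2 / s + η) by field_simp, mul_rpow hs.le (by positivity),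
    rpow_neg (by positivity), show 1 + (2 - K.th / 2) = (3 : ℕ) - K.th / 2 by push_cast; ring,
    rpow_sub hs, rpow_natCast, show 1 / 2 * K.th = K.th / 2 by ring]
  field_simp

theorem gam_le {x : ℝ} (hx : 0 < x) (hx2 : x ≤ 1 / 2) :
    gam K.am K.th η s x ≤ 80 * K.am * x ^ 2 := by
  have h1 := gam_le_a h.ok.am_pos h.ok.th_pos h.η_pos h.s_pos hx h.small
  have h2 : s ^ (9 / 10 : ℝ) ≤ 1 := rpow_le_one h.s_pos.le (by linarith [h.s_le]) (by norm_num)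
  have h3 : x ^ (2 - K.th) ≤ 1 := rpow_le_one hx.le (by linarith) (by linarith [h.th_le])
  have h4 : 0 ≤ K.am * x ^ 2 := mul_nonneg h.ok.am_pos.le (sq_nonneg x)
  nlinarith

theorem gam_small {x : ℝ} (hx : 0 < x) (hx2 : x ≤ 1 / 2) : gam K.am K.th η s x ≤ 1 / 1000 := by
  have h1 := h.gam_le hx hx2
  have h2 : x ^ 2 ≤ 1 / 4 := by nlinarith
  nlinarith [h.am_le, h.ok.am_pos]

end PC

/-- The comparison of the sizes with the weights at one point; `EB = 1 - e` on the bubble, `Γ` is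
the size of the perturbation, `ρ` the perturbed radius. -/
structure Sizes (K : Consts) (s x ρ EB Γ : ℝ) : Prop where
  ρ_le : ρ ≤ 1
  x_le : x ^ 2 ≤ 101 / 100 * ρ ^ 2
  inner : x ^ 2 / s ≤ 1 → EB ≤ 6 / 5 * K.am * (s ^ (K.lam + 47 / 40) * ρ ^ (-47 / 20 : ℝ)) ∧
    Γ ≤ 160 * K.am * (s ^ (K.lam + 47 / 40) * ρ ^ (-47 / 20 : ℝ))
  outer : 1 ≤ x ^ 2 / s → EB * (x ^ 2 / s) ^ 3 ≤ 6 / 5 * K.am * ρ ^ (2 * K.lam) ∧
    Γ ≤ 160 * K.am * ρ ^ (2 * K.lam)
  Γ_le : Γ ≤ 120 * K.am * x ^ 2 * (s ^ (83 / 40 : ℝ) * ρ ^ (-47 / 20 : ℝ) + ρ ^ (9 / 5 : ℝ))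
  F_le : s ^ (K.lam + 47 / 40) * ρ ^ (-47 / 20 : ℝ) + ρ ^ (2 * K.lam) ≤
    s ^ (83 / 40 : ℝ) * ρ ^ (-47 / 20 : ℝ) + ρ ^ (9 / 5 : ℝ)

theorem PC.sizes {K : Consts} {η τ s : ℝ} {U Y Z : ℝ → ℝ} (h : PC K η τ s U Y Z) {x G : ℝ}
    (hx : 0 < x) (hx2 : x ≤ 1 / 2) (hG : |G| ≤ 1 / 1000) :
    Sizes K s x (rB K.q U x * exp G) (1 - eB K.q U x) (gam K.am K.th η s x) := by
  have hs := h.s_pos
  have ham := h.ok.am_pos
  have hth0 := h.ok.th_pos
  have hth := h.th_le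
  have hr := h.sb.r_pos x
  have hρ : 0 < rB K.q U x * exp G := by positivity
  have hρ1 : rB K.q U x * exp G ≤ 1 := by
    have h1 := h.r_sq_le hx.le
    have h2 : η * s ≤ 1 * (1 / 2) := mul_le_mul h.η_le h.s_le hs.le zero_le_one
    have h3 : rB K.q U x ≤ 9 / 10 := by nlinarith
    have h4 := exp_small (t := G) (by linarith)
    nlinarith [exp_pos G]
  have hpow : ∀ g : ℝ, 0 ≤ g → g ≤ 4 → x ^ g ≤ 101 / 100 * (rB K.q U x * exp G) ^ g :=
    fun g h0 h4 => (rpow_le_rpow hx.le (h.le_r x) h0).trans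
      (rpow_le_pert hr hG (by rwa [abs_of_nonneg h0]))
  have hF1 : s ^ (2 - K.th / 2 + 47 / 40) * rB K.q U x ^ (-47 / 20 : ℝ) ≤
      101 / 100 * (s ^ (K.lam + 47 / 40) * (rB K.q U x * exp G) ^ (-47 / 20 : ℝ)) := by
    rw [mul_left_comm]
    exact mul_le_mul_of_nonneg_left (rpow_le_pert hr hG (by norm_num [abs_le])) (by positivity)
  have hF2 : x ^ (4 - K.th) ≤ 101 / 100 * (rB K.q U x * exp G) ^ (2 * K.lam) := by
    rw [show 2 * K.lam = 4 - K.th by rw [Consts.lam]; ring]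
    exact hpow _ (by linarith) (by linarith)
  refine ⟨hρ1, ?_, fun hX => ⟨?_, ?_⟩, fun hX => ⟨?_, ?_⟩, ?_, add_le_add ?_ ?_⟩
  · simpa using hpow 2 (by norm_num) (by norm_num)
  · have h1 := h.E_inner hx hX
    have h2 := mul_le_mul_of_nonneg_left hF1 ham.le
    have h3 : 0 ≤ K.am * (s ^ (K.lam + 47 / 40) * (rB K.q U x * exp G) ^ (-47 / 20 : ℝ)) := by
      positivity
    linarith
  · have h1 := gam_le_b ham hth0 h.η_pos hs hx hth h.η_le hX hr (h.r_sq_le hx.le)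
    have h2 := mul_le_mul_of_nonneg_left hF1 ham.le
    have h3 : 0 ≤ K.am * (s ^ (K.lam + 47 / 40) * (rB K.q U x * exp G) ^ (-47 / 20 : ℝ)) := by
      positivity
    linarith
  · have h1 := h.E_outer hx hX
    have h2 := mul_le_mul_of_nonneg_left hF2 ham.le
    have h3 : 0 ≤ K.am * (rB K.q U x * exp G) ^ (2 * K.lam) := by positivity
    linarith
  · have h1 := gam_le_c ham hth0 h.η_pos hs hx hX
    have h2 := mul_le_mul_of_nonneg_left hF2 ham.le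
    have h3 : 0 ≤ K.am * (rB K.q U x * exp G) ^ (2 * K.lam) := by positivity
    linarith
  · have h1 := gam_le_a ham hth0 h.η_pos hs hx h.small
    have h2 := G_sum_ge hs hρ
    have h3 : x ^ (2 - K.th) ≤ x ^ (9 / 5 : ℝ) :=
      rpow_le_rpow_of_exponent_ge hx (by linarith) (by linarith)
    have h4 := hpow (9 / 5) (by norm_num) (by norm_num)
    have h5 : 0 ≤ s ^ (83 / 40 : ℝ) * (rB K.q U x * exp G) ^ (-47 / 20 : ℝ) := by positivity
    have h6 : 0 ≤ (rB K.q U x * exp G) ^ (9 / 5 : ℝ) := by positivity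
    refine h1.trans ?_
    rw [show 120 * K.am * x ^ 2 = 40 * K.am * x ^ 2 * 3 by ring, mul_assoc (40 * K.am * x ^ 2)]
    exact mul_le_mul_of_nonneg_left (by linarith) (by positivity)
  · refine mul_le_mul_of_nonneg_right (rpow_le_rpow_of_exponent_ge hs (by linarith [h.s_le]) ?_)
      (by positivity)
    rw [Consts.lam]; linarith
  · refine rpow_le_rpow_of_exponent_ge hρ hρ1 ?_
    rw [Consts.lam]; linarith

end Vale.Agent.P244Z.W
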